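import Mathlib

/-!
Row 291 (S0440): definitions shared by all parts of the proof.
-/

set_option autoImplicit false

namespace Crest.Agent.R291

open Finset

/-- A (non-tautological) clause on the variables `V`: it is falsified exactly by the assignments that agree with
`σ` on `vars` (values of `σ` outside `vars` are irrelevant). -/
structure Cl (V : Type) where
  vars : Finset V
  σ : V → Bool

/-- `w` satisfies the clause `c`. -/
def Cl.Sat {V : Type} (c : Cl V) (w : V → Bool) : Prop := ∃ v ∈ c.vars, w v ≠ c.σ v

open Classical in
/-- Indicator of the conjunction of the clauses in the list `F`. -/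
noncomputable def ind {V : Type} (F : List (Cl V)) (w : V → Bool) : ℝ :=
  if ∀ c ∈ F, c.Sat w then 1 else 0

/-- Take the values of `w` on `I` and those of `a` outside `I`. -/
def mix {V : Type} [DecidableEq V] (I : Finset V) (w a : V → Bool) : V → Bool :=
  fun v => if v ∈ I then w v else a v

/-- Number of ones in the sum of `T` quadratic forms (rows are pairs (copy, index)). -/
def cnt {T d : ℕ} (Y : Fin T → Fin d → Fin d → Bool) (z : Fin T × Fin d → Bool) : ℕ :=
  ∑ l, ∑ i, ∑ i', (Y l i i' && z (l, i) && z (l, i')).toNat

/-- parameter: the largest `g` with `2 g^10 ≤ n`. -/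
def gpar (n : ℕ) : ℕ := Nat.findGreatest (fun g => 2 * g ^ 10 ≤ n) n

/-- The `i`-th bit of a string (false outside). -/
def bitAt (w : List Bool) (i : ℕ) : ℕ := (w.getD i false).toNat

/-- Parity of the block of `g^4` input bits number `(l, i)`. -/
def rowPar (w : List Bool) (g l i : ℕ) : ℕ :=
  (∑ p ∈ range (g ^ 4), bitAt w ((l * g ^ 4 + i) * g ^ 4 + p)) % 2

/-- The value of the hard function: the sum mod 2 of `g^2` quadratic forms in the row parities. -/
def Hval (w : List Bool) : ℕ :=
  (∑ l ∈ range (gpar w.length ^ 2), ∑ i ∈ range (gpar w.length ^ 4), ∑ i' ∈ range (gpar w.length ^ 4),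
    bitAt w (gpar w.length ^ 10 + ((l * gpar w.length ^ 4 + i) * gpar w.length ^ 4 + i')) *
      (rowPar w (gpar w.length) l i * rowPar w (gpar w.length) l i')) % 2

/-- The hard language. -/
def Lang : Set (List Bool) := {w | Hval w = 1}

end Crest.Agent.R291
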