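import Mathlib
import Crest.Agent.R291.Defs

/-!
# R291 / Block (helper935): the block measure (at most one star per row)
-/

set_option autoImplicit false

namespace Crest.Agent.R291

open Finset

section
variable {ι : Type} [Fintype ι] [DecidableEq ι] {s : ℕ}

/-- the stars of `I` in row `i` -/
def row (I : Finset (ι × Fin s)) (i : ι) : Finset (Fin s) := univ.filter (fun p => (i, p) ∈ I)

omit [Fintype ι] in
theorem mem_row {I : Finset (ι × Fin s)} {i : ι} {p : Fin s} : p ∈ row I i ↔ (i, p) ∈ I := by
  simp [row]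

/-- sets of positions as families of rows -/
def rowEquiv : Finset (ι × Fin s) ≃ (ι → Finset (Fin s)) where
  toFun I i := row I i
  invFun J := univ.filter (fun v => v.2 ∈ J v.1)
  left_inv I := by ext v; simp [mem_row]
  right_inv J := by ext i p; simp [mem_row]

theorem sum_prod_row (h : Finset (Fin s) → ℝ) :
    ∑ I : Finset (ι × Fin s), ∏ i, h (row I i) = (∑ J : Finset (Fin s), h J) ^ Fintype.card ι := by
  have h1 := Equiv.sum_comp (rowEquiv (ι := ι) (s := s)) (fun J : ι → Finset (Fin s) => ∏ i, h (J i))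
  rw [← Finset.card_univ, ← Finset.prod_const, Finset.prod_univ_sum, Fintype.piFinset_univ, ← h1]
  rfl

theorem card_eq_sum_row (I : Finset (ι × Fin s)) : I.card = ∑ i, (row I i).card := by
  classical
  rw [Finset.card_eq_sum_card_fiberwise (f := Prod.fst) (t := univ) (fun _ _ => mem_univ _)]
  refine sum_congr rfl fun i _ => ?_
  have : (row I i).card = ((row I i).image (fun p => (i, p))).card :=
    (card_image_of_injective _ (fun p p' h => (Prod.ext_iff.1 h).2)).symm
  rw [this]
  congr 1
  ext ⟨i', p⟩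
  simp only [mem_filter, mem_image, mem_row, Prod.mk.injEq]
  constructor
  · rintro ⟨h, rfl⟩; exact ⟨p, h, rfl, rfl⟩
  · rintro ⟨p', h, rfl, rfl⟩; exact ⟨h, rfl⟩

/-- the weight of a row with `n` stars -/
noncomputable def bw (q : ℝ) (s n : ℕ) : ℝ := if n = 0 then 1 - q else if n = 1 then q / s else 0

theorem bw_nonneg {q : ℝ} (h0 : 0 ≤ q) (h1 : q ≤ 1) (s n : ℕ) : 0 ≤ bw q s n := by
  unfold bw
  split_ifs
  · linarith
  · positivity
  · exact le_rfl

/-- the block measure -/
noncomputable def blockMu (q : ℝ) (I : Finset (ι × Fin s)) : ℝ := ∏ i, bw q s (row I i).card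

theorem blockMu_nonneg {q : ℝ} (h0 : 0 ≤ q) (h1 : q ≤ 1) (I : Finset (ι × Fin s)) :
    0 ≤ blockMu q I := prod_nonneg fun _ _ => bw_nonneg h0 h1 _ _

/-- sets in the support have at most one star in each row -/
theorem row_card_le_of_blockMu_ne_zero {q : ℝ} {I : Finset (ι × Fin s)} (h : blockMu q I ≠ 0)
    (i : ι) : (row I i).card ≤ 1 := by
  by_contra hcon
  refine h (prod_eq_zero (mem_univ i) ?_)
  unfold bw
  rw [if_neg (by omega), if_neg (by omega)]

theorem sum_bw (hs : 0 < s) (q c : ℝ) :
    ∑ J : Finset (Fin s), bw q s J.card * c ^ J.card = 1 - q + q * c := by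
  have h1 : ∑ J : Finset (Fin s), bw q s J.card * c ^ J.card =
      ∑ m ∈ range (s + 1), (s.choose m) • (bw q s m * c ^ m) := by
    rw [← Finset.powerset_univ, Finset.sum_powerset_apply_card (fun n => bw q s n * c ^ n)]
    simp
  rw [h1]
  obtain ⟨s', rfl⟩ : ∃ s', s = s' + 1 := ⟨s - 1, by omega⟩
  rw [sum_range_succ', sum_range_succ']
  have h2 : ∑ k ∈ range s', ((s' + 1).choose (k + 1 + 1)) •
      (bw q (s' + 1) (k + 1 + 1) * c ^ (k + 1 + 1)) = 0 := by
    refine sum_eq_zero fun k _ => ?_
    simp [bw]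
  rw [h2]
  have h3 : ((s' : ℝ) + 1) ≠ 0 := by positivity
  simp [bw]
  field_simp
  ring

theorem sum_blockMu (hs : 0 < s) (q : ℝ) : ∑ I : Finset (ι × Fin s), blockMu q I = 1 := by
  unfold blockMu
  rw [sum_prod_row (fun J => bw q s J.card)]
  have := sum_bw hs q 1
  simp only [one_pow, mul_one] at this
  rw [this]
  ring

theorem sum_blockMu_pow (hs : 0 < s) (q c : ℝ) :
    ∑ I : Finset (ι × Fin s), blockMu q I * c ^ I.card = (1 - q + q * c) ^ Fintype.card ι := by
  rw [← sum_bw hs q c, ← sum_prod_row (fun J => bw q s J.card * c ^ J.card)]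
  refine sum_congr rfl fun I _ => ?_
  rw [card_eq_sum_row, ← prod_pow_eq_pow_sum, blockMu, ← prod_mul_distrib]

/-- the lower tail of the number of stars -/
theorem blockMu_tail (hs : 0 < s) {q : ℝ} (h0 : 0 ≤ q) (h1 : q ≤ 1) (m : ℕ) :
    ∑ I : Finset (ι × Fin s) with I.card < m, blockMu q I ≤
      2 ^ m * (1 - q / 2) ^ Fintype.card ι := by
  have e : (1 - q / 2 : ℝ) = 1 - q + q * (1 / 2) := by ring
  rw [e, ← sum_blockMu_pow hs, mul_sum]
  calc ∑ I : Finset (ι × Fin s) with I.card < m, blockMu q I
      ≤ ∑ I : Finset (ι × Fin s) with I.card < m, 2 ^ m * (blockMu q I * (1 / 2) ^ I.card) := by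
        refine sum_le_sum fun I hI => ?_
        have hI' : I.card < m := (mem_filter.1 hI).2
        have h2 : (1 : ℝ) ≤ 2 ^ m * (1 / 2) ^ I.card := by
          rw [one_div, inv_pow, ← div_eq_mul_inv, le_div_iff₀ (by positivity), one_mul]
          exact pow_le_pow_right₀ (by norm_num) hI'.le
        have h3 := blockMu_nonneg h0 h1 I
        nlinarith
    _ ≤ ∑ I : Finset (ι × Fin s), 2 ^ m * (blockMu q I * (1 / 2) ^ I.card) := by
        refine sum_le_sum_of_subset_of_nonneg (subset_univ _) fun I _ _ => ?_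
        have h3 := blockMu_nonneg h0 h1 I
        positivity

omit [Fintype ι] in
theorem row_insert (v : ι × Fin s) (I : Finset (ι × Fin s)) (i : ι) :
    row (insert v I) i = if i = v.1 then insert v.2 (row I i) else row I i := by
  ext p
  split_ifs with h
  · subst h
    simp only [mem_row, mem_insert, Prod.ext_iff, true_and]
  · simp only [mem_row, mem_insert, Prod.ext_iff, h, false_and, false_or]

/-- the ratio bound -/
theorem blockMu_insert_le {q : ℝ} (h0 : 0 ≤ q) (h1 : q < 1) (I : Finset (ι × Fin s))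
    (v : ι × Fin s) (hv : v ∉ I) :
    blockMu q (insert v I) ≤ q / (s * (1 - q)) * blockMu q I := by
  have hq : 0 < 1 - q := by linarith
  unfold blockMu
  rw [← mul_prod_erase univ _ (mem_univ v.1),
    ← mul_prod_erase univ (fun i => bw q s (row I i).card) (mem_univ v.1), ← mul_assoc]
  have h2 : ∏ i ∈ univ.erase v.1, bw q s (row (insert v I) i).card =
      ∏ i ∈ univ.erase v.1, bw q s (row I i).card := by
    refine prod_congr rfl fun i hi => ?_
    rw [row_insert, if_neg (ne_of_mem_erase hi)]
  rw [h2]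
  refine mul_le_mul_of_nonneg_right ?_ (prod_nonneg fun _ _ => bw_nonneg h0 h1.le _ _)
  have hv' : v.2 ∉ row I v.1 := by rw [mem_row]; exact hv
  rw [row_insert, if_pos rfl, card_insert_of_notMem hv']
  have hs : 0 < s := Fin.pos v.2
  have hs' : (0 : ℝ) < s := by exact_mod_cast hs
  rcases Nat.eq_zero_or_pos (row I v.1).card with h | h
  · rw [h]
    unfold bw
    rw [if_neg (by norm_num), if_pos rfl, if_pos rfl]
    apply le_of_eq
    field_simp
  · have : bw q s ((row I v.1).card + 1) = 0 := by
      unfold bw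
      rw [if_neg (by omega), if_neg (by omega)]
    rw [this]
    have := bw_nonneg h0 h1.le s (row I v.1).card
    positivity

end

end Crest.Agent.R291
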