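import Crest.Agent.R291.Defs

/-!
Row 291 (S0440), part T1: the width reduction lemma.
-/

set_option autoImplicit false
set_option linter.unusedSectionVars false

namespace Crest.Agent.R291

open Finset

section Basic

variable {V : Type}

theorem ind_nonneg (F : List (Cl V)) (w : V → Bool) : 0 ≤ ind F w := by
  unfold ind; split_ifs <;> norm_num

theorem ind_le_one (F : List (Cl V)) (w : V → Bool) : ind F w ≤ 1 := by
  unfold ind; split_ifs <;> norm_num

theorem ind_nil (w : V → Bool) : ind ([] : List (Cl V)) w = 1 := by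
  simp [ind]

theorem ind_congr {F F' : List (Cl V)} {w w' : V → Bool}
    (h : (∀ c ∈ F, c.Sat w) ↔ (∀ c ∈ F', c.Sat w')) : ind F w = ind F' w' := by
  unfold ind
  by_cases hw : ∀ c ∈ F, c.Sat w
  · rw [if_pos hw, if_pos (h.1 hw)]
  · rw [if_neg hw, if_neg (fun hh => hw (h.2 hh))]

theorem ind_eq_zero {F : List (Cl V)} {w : V → Bool} {c : Cl V} (hc : c ∈ F) (h : ¬ c.Sat w) :
    ind F w = 0 := by
  unfold ind
  rw [if_neg]
  intro hh
  exact h (hh c hc)

theorem ind_cons_sat {F : List (Cl V)} {w : V → Bool} {c : Cl V} (h : c.Sat w) :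
    ind (c :: F) w = ind F w := by
  apply ind_congr
  simp [h]

end Basic

section Mix

variable {V : Type} [DecidableEq V]

theorem mix_mem {I : Finset V} {w a : V → Bool} {v : V} (h : v ∈ I) : mix I w a v = w v := by
  simp [mix, h]

theorem mix_not_mem {I : Finset V} {w a : V → Bool} {v : V} (h : v ∉ I) : mix I w a v = a v := by
  simp [mix, h]

theorem mix_congr {I : Finset V} {w w' a a' : V → Bool} (hw : ∀ v ∈ I, w v = w' v)
    (ha : ∀ v, v ∉ I → a v = a' v) : mix I w a = mix I w' a' := by
  funext v
  by_cases h : v ∈ I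
  · simp [mix, h, hw v h]
  · simp [mix, h, ha v h]

theorem mix_mix (I : Finset V) (w a : V → Bool) : mix I (mix I w a) (mix I a w) = w := by
  funext v
  by_cases h : v ∈ I <;> simp [mix, h]

variable [Fintype V]

/-- Averaging over `a` of the mixed assignments. -/
theorem sum_sum_mix (I : Finset V) (h : (V → Bool) → ℝ) :
    ∑ a, ∑ w, h (mix I w a) = 2 ^ (Fintype.card V) * ∑ w, h w := by
  classical
  have inv : Function.Involutive
      (fun p : (V → Bool) × (V → Bool) => (mix I p.2 p.1, mix I p.1 p.2)) := by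
    intro p
    ext v
    · by_cases hv : v ∈ I <;> simp [mix, hv]
    · by_cases hv : v ∈ I <;> simp [mix, hv]
  have h1 : ∑ a, ∑ w, h (mix I w a)
      = ∑ p : (V → Bool) × (V → Bool), h ((inv.toPerm _ p).1) := by
    rw [← Finset.univ_product_univ, Finset.sum_product]
    rfl
  rw [h1, Equiv.sum_comp (inv.toPerm _) (fun p : (V → Bool) × (V → Bool) => h p.1),
    ← Finset.univ_product_univ, Finset.sum_product]
  simp only [Finset.sum_const, Finset.card_univ, nsmul_eq_mul]
  rw [← Finset.mul_sum]
  congr 1
  simp [Fintype.card_pi]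

/-- Averaging over the coordinates in `J`. -/
theorem avg_coords (J : Finset V) (σ : V → Bool) (g : (V → Bool) → ℝ)
    (hg : ∀ w w', (∀ v, v ∉ J → w v = w' v) → g w = g w') :
    (2 : ℝ) ^ J.card * ∑ w, (if ∀ v ∈ J, w v = σ v then g w else 0) = ∑ w, g w := by
  classical
  induction J using Finset.induction_on generalizing g with
  | empty => simp
  | insert v J hv ih =>
    -- flipping the coordinate `v`
    have key : ∀ G : (V → Bool) → ℝ, (∀ w b, G (Function.update w v b) = G w) →
        2 * ∑ w, (if w v = σ v then G w else 0) = ∑ w, G w := by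
      intro G hG
      have inv : Function.Involutive (fun w : V → Bool => Function.update w v (!(w v))) := by
        intro w
        simp
      have e1 : ∑ w, (if w v = σ v then G w else 0) = ∑ w : V → Bool, (if w v = σ v then 0 else G w) := by
        rw [← Equiv.sum_comp (inv.toPerm _) (fun w : V → Bool => (if w v = σ v then 0 else G w))]
        apply Finset.sum_congr rfl
        intro w _
        simp only [Function.Involutive.coe_toPerm, Function.update_self, hG]
        by_cases hw : w v = σ v
        · rw [if_pos hw, if_neg]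
          rw [← hw]; simp
        · rw [if_neg hw, if_pos]
          cases h1 : w v <;> cases h2 : σ v <;> simp_all
      rw [two_mul]
      nth_rewrite 2 [e1]
      rw [← Finset.sum_add_distrib]
      apply Finset.sum_congr rfl
      intro w _
      by_cases hw : w v = σ v <;> simp [hw]
    have hg' : ∀ w w', (∀ u, u ∉ J → w u = w' u) → g w = g w' := by
      intro w w' h
      apply hg
      intro u hu
      exact h u (fun h' => hu (Finset.mem_insert_of_mem h'))
    rw [← ih g hg', Finset.card_insert_of_notMem hv, pow_succ]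
    have := key (fun w => if ∀ u ∈ J, w u = σ u then g w else 0) (by
      intro w b
      have h1 : (∀ u ∈ J, Function.update w v b u = σ u) ↔ (∀ u ∈ J, w u = σ u) := by
        constructor
        · intro h u hu
          have := h u hu
          rwa [Function.update_of_ne (by rintro rfl; exact hv hu)] at this
        · intro h u hu
          rw [Function.update_of_ne (by rintro rfl; exact hv hu)]
          exact h u hu
      have h2 : g (Function.update w v b) = g w := by
        apply hg
        intro u hu
        rw [Function.update_of_ne]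
        rintro rfl
        exact hu (Finset.mem_insert_self _ _)
      simp only [h1, h2])
    rw [← this]
    rw [mul_assoc]
    congr 2
    apply Finset.sum_congr rfl
    intro w _
    by_cases hw : w v = σ v
    · by_cases hJ : ∀ u ∈ J, w u = σ u
      · rw [if_pos, if_pos hw, if_pos hJ]
        intro u hu
        rcases Finset.mem_insert.1 hu with rfl | hu
        · exact hw
        · exact hJ u hu
      · rw [if_neg, if_pos hw, if_neg hJ]
        intro h
        exact hJ (fun u hu => h u (Finset.mem_insert_of_mem hu))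
    · rw [if_neg, if_neg hw]
      intro h
      exact hw (h v (Finset.mem_insert_self _ _))

end Mix

section Beta

variable {V : Type} [Fintype V] [DecidableEq V]

/-- narrow lists of clauses on `I` -/
def Narrow (j : ℕ) (I : Finset V) (D : List (Cl V)) : Prop :=
  ∀ c ∈ D, c.vars ⊆ I ∧ c.vars.card < j

/-- correlation on a subcube -/
noncomputable def val (f : (V → Bool) → ℝ) (F D : List (Cl V)) (I : Finset V) (a : V → Bool) : ℝ :=
  |∑ w, ind F (mix I w a) * (ind D (mix I w a) * f (mix I w a))|

/-- best correlation with a narrow formula -/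
noncomputable def beta (j : ℕ) (f : (V → Bool) → ℝ) (F : List (Cl V)) (I : Finset V)
    (a : V → Bool) : ℝ :=
  ⨆ D : {D : List (Cl V) // Narrow j I D}, val f F D.1 I a

theorem val_le (f : (V → Bool) → ℝ) (F D : List (Cl V)) (I : Finset V) (a : V → Bool) :
    val f F D I a ≤ ∑ w, |f (mix I w a)| := by
  unfold val
  refine (Finset.abs_sum_le_sum_abs _ _).trans (Finset.sum_le_sum fun w _ => ?_)
  rw [abs_mul, abs_mul, abs_of_nonneg (ind_nonneg _ _), abs_of_nonneg (ind_nonneg _ _)]
  have h1 := ind_le_one F (mix I w a)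
  have h2 := ind_le_one D (mix I w a)
  have h3 := ind_nonneg F (mix I w a)
  have h4 := ind_nonneg D (mix I w a)
  have h5 := abs_nonneg (f (mix I w a))
  calc ind F (mix I w a) * (ind D (mix I w a) * |f (mix I w a)|)
      ≤ 1 * (1 * |f (mix I w a)|) := by gcongr
    _ = _ := by ring

theorem val_nonneg (f : (V → Bool) → ℝ) (F D : List (Cl V)) (I : Finset V) (a : V → Bool) :
    0 ≤ val f F D I a := abs_nonneg _

theorem bddAbove_val (j : ℕ) (f : (V → Bool) → ℝ) (F : List (Cl V)) (I : Finset V) (a : V → Bool) :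
    BddAbove (Set.range fun D : {D : List (Cl V) // Narrow j I D} => val f F D.1 I a) := by
  refine ⟨∑ w, |f (mix I w a)|, ?_⟩
  rintro _ ⟨D, rfl⟩
  exact val_le f F D.1 I a

theorem narrow_nil (j : ℕ) (I : Finset V) : Narrow j I ([] : List (Cl V)) := by
  intro c hc; simp at hc

instance (j : ℕ) (I : Finset V) : Nonempty {D : List (Cl V) // Narrow j I D} :=
  ⟨⟨[], narrow_nil j I⟩⟩

theorem le_beta {j : ℕ} (f : (V → Bool) → ℝ) (F : List (Cl V)) {I : Finset V} (a : V → Bool)
    {D : List (Cl V)} (hD : Narrow j I D) : val f F D I a ≤ beta j f F I a :=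
  le_ciSup (bddAbove_val j f F I a) ⟨D, hD⟩

theorem beta_le {j : ℕ} {f : (V → Bool) → ℝ} {F : List (Cl V)} {I : Finset V} {a : V → Bool}
    {x : ℝ} (h : ∀ D, Narrow j I D → val f F D I a ≤ x) : beta j f F I a ≤ x :=
  ciSup_le fun D => h D.1 D.2

theorem beta_nonneg (j : ℕ) (f : (V → Bool) → ℝ) (F : List (Cl V)) (I : Finset V) (a : V → Bool) :
    0 ≤ beta j f F I a :=
  (val_nonneg f F [] I a).trans (le_beta f F a (narrow_nil j I))

/-- `beta` ignores the values of `a` on `I`. -/
theorem beta_congr {j : ℕ} {f : (V → Bool) → ℝ} {F : List (Cl V)} {I : Finset V} {a a' : V → Bool}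
    (h : ∀ v, v ∉ I → a v = a' v) : beta j f F I a = beta j f F I a' := by
  have : ∀ w, mix I w a = mix I w a' := fun w => mix_congr (fun _ _ => rfl) h
  unfold beta val
  simp only [this]

/-- the clause is satisfied by the fixed part -/
theorem beta_cons_sat {j : ℕ} {f : (V → Bool) → ℝ} {F : List (Cl V)} {I : Finset V} {a : V → Bool}
    {c : Cl V} (h : ∃ v ∈ c.vars, v ∉ I ∧ a v ≠ c.σ v) :
    beta j f (c :: F) I a = beta j f F I a := by
  obtain ⟨v, hv, hvI, hav⟩ := h
  have : ∀ w, ind (c :: F) (mix I w a) = ind F (mix I w a) := by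
    intro w
    apply ind_cons_sat
    exact ⟨v, hv, by rwa [mix_not_mem hvI]⟩
  unfold beta val
  simp only [this]

/-- the fixed part falsifies the clause outright -/
theorem beta_cons_false {j : ℕ} {f : (V → Bool) → ℝ} {F : List (Cl V)} {I : Finset V} {a : V → Bool}
    {c : Cl V} (h0 : c.vars ∩ I = ∅) (h : ∀ v ∈ c.vars, a v = c.σ v) :
    beta j f (c :: F) I a = 0 := by
  refine le_antisymm (beta_le fun D _ => ?_) (beta_nonneg _ _ _ _ _)
  unfold val
  rw [Finset.sum_eq_zero]
  · simp
  · intro w _
    rw [ind_eq_zero (c := c) (by simp), zero_mul]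
    rintro ⟨v, hv, hv'⟩
    have hvI : v ∉ I := by
      intro hvI
      have : v ∈ c.vars ∩ I := Finset.mem_inter.2 ⟨hv, hvI⟩
      simp [h0] at this
    rw [mix_not_mem hvI] at hv'
    exact hv' (h v hv)

/-- narrow clause: absorbed in the narrow formula -/
theorem beta_cons_narrow {j : ℕ} {f : (V → Bool) → ℝ} {F : List (Cl V)} {I : Finset V}
    {a : V → Bool} {c : Cl V} (h : ∀ v ∈ c.vars, v ∉ I → a v = c.σ v)
    (hn : (c.vars ∩ I).card < j) :
    beta j f (c :: F) I a ≤ beta j f F I a := by
  refine beta_le fun D hD => ?_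
  have hD' : Narrow j I ((⟨c.vars ∩ I, c.σ⟩ : Cl V) :: D) := by
    intro c' hc'
    rcases List.mem_cons.1 hc' with rfl | hc'
    · exact ⟨Finset.inter_subset_right, hn⟩
    · exact hD c' hc'
  refine le_trans (le_of_eq ?_) (le_beta f F a hD')
  unfold val
  congr 1
  apply Finset.sum_congr rfl
  intro w _
  have hs : c.Sat (mix I w a) ↔ (⟨c.vars ∩ I, c.σ⟩ : Cl V).Sat (mix I w a) := by
    constructor
    · rintro ⟨v, hv, hv'⟩
      refine ⟨v, ?_, hv'⟩
      simp only [Finset.mem_inter]
      refine ⟨hv, ?_⟩
      by_contra hvI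
      rw [mix_not_mem hvI] at hv'
      exact hv' (h v hv hvI)
    · rintro ⟨v, hv, hv'⟩
      exact ⟨v, (Finset.mem_inter.1 hv).1, hv'⟩
  by_cases hc : c.Sat (mix I w a)
  · rw [ind_cons_sat hc, ind_cons_sat (hs.1 hc)]
  · rw [ind_eq_zero (F := c :: F) (by simp) hc,
      ind_eq_zero (F := (⟨c.vars ∩ I, c.σ⟩ : Cl V) :: D) (by simp) (fun hh => hc (hs.2 hh))]
    ring

/-- fix the coordinates of `J` to `σ` -/
def fixv (J : Finset V) (σ a : V → Bool) : V → Bool := fun v => if v ∈ J then σ v else a v

open Classical in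
/-- restrict a list of clauses after fixing `J` to `σ` -/
noncomputable def restr (J : Finset V) (σ : V → Bool) (D : List (Cl V)) : List (Cl V) :=
  (D.filter (fun c => ∀ v ∈ c.vars, v ∈ J → σ v = c.σ v)).map (fun c => ⟨c.vars \ J, c.σ⟩)

theorem narrow_restr {j : ℕ} {I J : Finset V} {σ : V → Bool} {D : List (Cl V)}
    (hD : Narrow j I D) : Narrow j (I \ J) (restr J σ D) := by
  intro c' hc'
  unfold restr at hc'
  rw [List.mem_map] at hc'
  obtain ⟨c, hc, rfl⟩ := hc'
  have hc := (List.mem_filter.1 hc).1
  refine ⟨Finset.sdiff_subset_sdiff (hD c hc).1 le_rfl, ?_⟩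
  exact (Finset.card_le_card Finset.sdiff_subset).trans_lt (hD c hc).2

theorem ind_restr {J : Finset V} {σ : V → Bool} {D : List (Cl V)} {w : V → Bool}
    (hw : ∀ v ∈ J, w v = σ v) : ind (restr J σ D) w = ind D w := by
  apply ind_congr
  constructor
  · intro h c hc
    by_cases hs : ∀ v ∈ c.vars, v ∈ J → σ v = c.σ v
    · have : (⟨c.vars \ J, c.σ⟩ : Cl V) ∈ restr J σ D := by
        unfold restr
        rw [List.mem_map]
        exact ⟨c, List.mem_filter.2 ⟨hc, by simpa using hs⟩, rfl⟩
      obtain ⟨v, hv, hv'⟩ := h _ this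
      exact ⟨v, (Finset.mem_sdiff.1 hv).1, hv'⟩
    · push Not at hs
      obtain ⟨v, hv, hvJ, hne⟩ := hs
      exact ⟨v, hv, by rwa [hw v hvJ]⟩
  · intro h c' hc'
    unfold restr at hc'
    rw [List.mem_map] at hc'
    obtain ⟨c, hc, rfl⟩ := hc'
    obtain ⟨hc, hs⟩ := List.mem_filter.1 hc
    have hs : ∀ v ∈ c.vars, v ∈ J → σ v = c.σ v := by simpa using hs
    obtain ⟨v, hv, hv'⟩ := h c hc
    refine ⟨v, ?_, hv'⟩
    simp only [Finset.mem_sdiff]
    refine ⟨hv, fun hvJ => hv' ?_⟩
    rw [hw v hvJ, hs v hv hvJ]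

/-- wide clause: expansion -/
theorem beta_cons_wide {j : ℕ} {f : (V → Bool) → ℝ} {F : List (Cl V)} {I : Finset V}
    {a : V → Bool} {c : Cl V} (h : ∀ v ∈ c.vars, v ∉ I → a v = c.σ v) :
    beta j f (c :: F) I a ≤ beta j f F I a +
      (2 ^ (c.vars ∩ I).card)⁻¹ * beta j f F (I \ c.vars) (fixv (c.vars ∩ I) c.σ a) := by
  refine beta_le fun D hD => ?_
  set J := c.vars ∩ I with hJ
  set a' := fixv J c.σ a with ha'
  have hIJ : I \ c.vars = I \ J := by
    ext v; simp [hJ]
  -- the falsifying event
  have hfal : ∀ w, ¬ c.Sat (mix I w a) ↔ ∀ v ∈ J, w v = c.σ v := by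
    intro w
    unfold Cl.Sat
    push Not
    constructor
    · intro hh v hv
      have hv' := Finset.mem_inter.1 hv
      have := hh v hv'.1
      rwa [mix_mem hv'.2] at this
    · intro hh v hv
      by_cases hvI : v ∈ I
      · rw [mix_mem hvI]; exact hh v (Finset.mem_inter.2 ⟨hv, hvI⟩)
      · rw [mix_not_mem hvI]; exact h v hv hvI
  -- decomposition
  have e1 : ∀ w, ind (c :: F) (mix I w a) * (ind D (mix I w a) * f (mix I w a)) =
      ind F (mix I w a) * (ind D (mix I w a) * f (mix I w a)) -
      (if ∀ v ∈ J, w v = c.σ v then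
        ind F (mix (I \ J) w a') * (ind D (mix (I \ J) w a') * f (mix (I \ J) w a')) else 0) := by
    intro w
    by_cases hw : ∀ v ∈ J, w v = c.σ v
    · rw [if_pos hw, ind_eq_zero (F := c :: F) (by simp) ((hfal w).2 hw)]
      have : mix I w a = mix (I \ J) w a' := by
        funext v
        by_cases hvI : v ∈ I
        · by_cases hvJ : v ∈ J
          · have : v ∉ I \ J := fun hh => (Finset.mem_sdiff.1 hh).2 hvJ
            rw [mix_mem hvI, mix_not_mem this, hw v hvJ, ha']
            simp [fixv, hvJ]
          · rw [mix_mem hvI, mix_mem (Finset.mem_sdiff.2 ⟨hvI, hvJ⟩)]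
        · have h1 : v ∉ I \ J := fun hh => hvI (Finset.mem_sdiff.1 hh).1
          have h2 : v ∉ J := fun hh => hvI (Finset.mem_inter.1 hh).2
          rw [mix_not_mem hvI, mix_not_mem h1, ha']
          simp [fixv, h2]
      rw [this]; ring
    · rw [if_neg hw, ind_cons_sat]
      · ring
      · by_contra hh
        exact hw ((hfal w).1 hh)
  have e2 : ∑ w, (if ∀ v ∈ J, w v = c.σ v then
        ind F (mix (I \ J) w a') * (ind D (mix (I \ J) w a') * f (mix (I \ J) w a')) else 0) =
      (2 ^ J.card)⁻¹ * ∑ w, ind F (mix (I \ J) w a') *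
        (ind (restr J c.σ D) (mix (I \ J) w a') * f (mix (I \ J) w a')) := by
    rw [eq_inv_mul_iff_mul_eq₀ (by positivity), avg_coords J c.σ
      (fun w => ind F (mix (I \ J) w a') * (ind D (mix (I \ J) w a') * f (mix (I \ J) w a')))]
    · apply Finset.sum_congr rfl
      intro w _
      rw [ind_restr]
      intro v hv
      have : v ∉ I \ J := fun hh => (Finset.mem_sdiff.1 hh).2 hv
      rw [mix_not_mem this, ha']
      simp [fixv, hv]
    · intro w w' hww
      have : mix (I \ J) w a' = mix (I \ J) w' a' :=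
        mix_congr (fun v hv => hww v (Finset.mem_sdiff.1 hv).2) (fun _ _ => rfl)
      simp only [this]
  have e3 : val f (c :: F) D I a ≤ val f F D I a +
      (2 ^ J.card)⁻¹ * val f F (restr J c.σ D) (I \ J) a' := by
    unfold val
    rw [Finset.sum_congr rfl (fun w _ => e1 w), Finset.sum_sub_distrib, e2]
    refine (abs_sub _ _).trans ?_
    rw [abs_mul, abs_of_nonneg (a := ((2 : ℝ) ^ J.card)⁻¹) (by positivity)]
  refine e3.trans ?_
  rw [hIJ]
  gcongr
  · exact le_beta f F a hD
  · exact le_beta f F a' (narrow_restr hD)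

end Beta

section Main

variable {V : Type} [Fintype V] [DecidableEq V]

theorem mu_union (μ : Finset V → ℝ) (r : ℝ) (hr : 0 ≤ r)
    (hμr : ∀ (I : Finset V) (v : V), v ∉ I → μ (insert v I) ≤ r * μ I)
    (I J : Finset V) (hIJ : Disjoint I J) : μ (I ∪ J) ≤ r ^ J.card * μ I := by
  induction J using Finset.induction_on with
  | empty => simp
  | insert v J hv ih =>
    have h1 : Disjoint I J := by
      rw [Finset.disjoint_insert_right] at hIJ
      exact hIJ.2
    have h2 : v ∉ I := by
      rw [Finset.disjoint_insert_right] at hIJ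
      exact hIJ.1
    have e : I ∪ insert v J = insert v (I ∪ J) := Finset.union_insert _ _ _
    rw [e, Finset.card_insert_of_notMem hv, pow_succ]
    have h3 : v ∉ I ∪ J := by simp [hv, h2]
    calc μ (insert v (I ∪ J)) ≤ r * μ (I ∪ J) := hμr _ _ h3
      _ ≤ r * (r ^ J.card * μ I) := by gcongr; exact ih h1
      _ = _ := by ring

theorem sum_wide_le (r : ℝ) (hr : 0 ≤ r) (k j : ℕ)
    (hkj : ∑ t ∈ Finset.Icc j k, (k.choose t : ℝ) * r ^ t ≤ 1) (A : Finset V) (hA : A.card ≤ k) :
    ∑ J ∈ A.powerset, (if j ≤ J.card then r ^ J.card else 0) ≤ 1 := by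
  rw [Finset.sum_powerset_apply_card (fun t => if j ≤ t then r ^ t else (0 : ℝ))]
  refine le_trans ?_ hkj
  have h1 : ∑ m ∈ range (A.card + 1), A.card.choose m • (if j ≤ m then r ^ m else (0 : ℝ)) ≤
      ∑ m ∈ range (k + 1), (if j ≤ m then (k.choose m : ℝ) * r ^ m else 0) := by
    calc ∑ m ∈ range (A.card + 1), A.card.choose m • (if j ≤ m then r ^ m else (0 : ℝ))
        ≤ ∑ m ∈ range (A.card + 1), (if j ≤ m then (k.choose m : ℝ) * r ^ m else 0) := by
          apply Finset.sum_le_sum
          intro m _
          split_ifs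
          · rw [nsmul_eq_mul]
            have : (A.card.choose m : ℝ) ≤ k.choose m := by
              exact_mod_cast Nat.choose_le_choose m hA
            gcongr
          · simp
      _ ≤ _ := by
          apply Finset.sum_le_sum_of_subset_of_nonneg
          · apply Finset.range_subset_range.2; omega
          · intro m _ _
            split_ifs <;> positivity
  refine h1.trans (le_of_eq ?_)
  rw [← Finset.sum_filter]
  apply Finset.sum_congr _ (fun _ _ => rfl)
  ext m
  simp only [Finset.mem_filter, Finset.mem_range, Finset.mem_Icc]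
  omega

/-- mass of the assignments which agree with `σ` on the clause -/
noncomputable def Phi (j : ℕ) (f : (V → Bool) → ℝ) (F : List (Cl V)) (c : Cl V) (I : Finset V) : ℝ :=
  ∑ a, (if ∀ v ∈ c.vars, a v = c.σ v then beta j f F I a else 0)

theorem Phi_nonneg (j : ℕ) (f : (V → Bool) → ℝ) (F : List (Cl V)) (c : Cl V) (I : Finset V) :
    0 ≤ Phi j f F c I := by
  unfold Phi
  apply Finset.sum_nonneg
  intro a _
  split_ifs
  · exact beta_nonneg _ _ _ _ _
  · exact le_rfl

/-- one clause, fixed star set -/
theorem sum_beta_cons (j : ℕ) (hj : 1 ≤ j) (f : (V → Bool) → ℝ) (F : List (Cl V)) (c : Cl V)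
    (I : Finset V) :
    ∑ a, beta j f (c :: F) I a ≤ ∑ a, beta j f F I a
      - (if c.vars ∩ I = ∅ then Phi j f F c I else 0)
      + (if j ≤ (c.vars ∩ I).card then Phi j f F c (I \ c.vars) else 0) := by
  classical
  by_cases h0 : c.vars ∩ I = ∅
  · -- outright falsified assignments contribute nothing
    have hI : (c.vars ∩ I).card = 0 := by rw [h0]; rfl
    rw [if_pos h0, if_neg (by omega), add_zero]
    unfold Phi
    rw [← Finset.sum_sub_distrib]
    apply Finset.sum_le_sum
    intro a _
    by_cases ha : ∀ v ∈ c.vars, a v = c.σ v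
    · rw [if_pos ha, beta_cons_false h0 ha, sub_self]
    · rw [if_neg ha, sub_zero]
      push Not at ha
      obtain ⟨v, hv, hne⟩ := ha
      apply le_of_eq
      apply beta_cons_sat
      refine ⟨v, hv, ?_, hne⟩
      intro hvI
      have : v ∈ c.vars ∩ I := Finset.mem_inter.2 ⟨hv, hvI⟩
      simp [h0] at this
  · rw [if_neg h0, sub_zero]
    by_cases hw : j ≤ (c.vars ∩ I).card
    · rw [if_pos hw]
      set J := c.vars ∩ I with hJ
      -- pointwise
      have h1 : ∀ a, beta j f (c :: F) I a ≤ beta j f F I a + (2 ^ J.card)⁻¹ *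
          (if ∀ v ∈ c.vars, v ∉ I → a v = c.σ v then
            beta j f F (I \ c.vars) (fixv J c.σ a) else 0) := by
        intro a
        by_cases ha : ∀ v ∈ c.vars, v ∉ I → a v = c.σ v
        · rw [if_pos ha]; exact beta_cons_wide ha
        · rw [if_neg ha, mul_zero, add_zero]
          push Not at ha
          exact le_of_eq (beta_cons_sat ha)
      refine (Finset.sum_le_sum fun a _ => h1 a).trans ?_
      rw [Finset.sum_add_distrib, ← Finset.mul_sum]
      apply le_of_eq
      congr 1
      rw [inv_mul_eq_iff_eq_mul₀ (by positivity)]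
      rw [← avg_coords J c.σ (fun a => if ∀ v ∈ c.vars, v ∉ I → a v = c.σ v then
            beta j f F (I \ c.vars) (fixv J c.σ a) else 0)]
      · congr 1
        unfold Phi
        apply Finset.sum_congr rfl
        intro a _
        by_cases ha : ∀ v ∈ c.vars, a v = c.σ v
        · rw [if_pos ha, if_pos (fun v hv => ha v (Finset.mem_inter.1 hv).1),
            if_pos (fun v hv _ => ha v hv)]
          congr 1
          funext v
          unfold fixv
          split_ifs with hv
          · exact (ha v (Finset.mem_inter.1 hv).1).symm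
          · rfl
        · rw [if_neg ha]
          by_cases h2 : ∀ v ∈ J, a v = c.σ v
          · rw [if_pos h2, if_neg]
            intro h3
            apply ha
            intro v hv
            by_cases hvI : v ∈ I
            · exact h2 v (Finset.mem_inter.2 ⟨hv, hvI⟩)
            · exact h3 v hv hvI
          · rw [if_neg h2]
      · intro a a' haa
        have h3 : (∀ v ∈ c.vars, v ∉ I → a v = c.σ v) ↔ (∀ v ∈ c.vars, v ∉ I → a' v = c.σ v) := by
          constructor
          · intro h v hv hvI
            rw [← haa v (fun hh => hvI (Finset.mem_inter.1 hh).2)]; exact h v hv hvI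
          · intro h v hv hvI
            rw [haa v (fun hh => hvI (Finset.mem_inter.1 hh).2)]; exact h v hv hvI
        have h4 : fixv J c.σ a = fixv J c.σ a' := by
          funext v
          unfold fixv
          split_ifs with hv
          · rfl
          · exact haa v hv
        simp only [h3, h4]
    · rw [if_neg hw, add_zero]
      apply Finset.sum_le_sum
      intro a _
      by_cases ha : ∀ v ∈ c.vars, v ∉ I → a v = c.σ v
      · exact beta_cons_narrow ha (by omega)
      · push Not at ha
        exact le_of_eq (beta_cons_sat ha)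

theorem sum_mu_beta_cons (μ : Finset V → ℝ) (hμ : ∀ I, 0 ≤ μ I)
    (r : ℝ) (hr : 0 ≤ r) (hμr : ∀ (I : Finset V) (v : V), v ∉ I → μ (insert v I) ≤ r * μ I)
    (k j : ℕ) (hj : 1 ≤ j) (hkj : ∑ t ∈ Finset.Icc j k, (k.choose t : ℝ) * r ^ t ≤ 1)
    (f : (V → Bool) → ℝ) (F : List (Cl V)) (c : Cl V) (hc : c.vars.card ≤ k) :
    ∑ I, μ I * ∑ a, beta j f (c :: F) I a ≤ ∑ I, μ I * ∑ a, beta j f F I a := by
  classical
  have h1 : ∑ I, μ I * ∑ a, beta j f (c :: F) I a ≤ ∑ I, (μ I * ∑ a, beta j f F I a
      - (if c.vars ∩ I = ∅ then μ I * Phi j f F c I else 0)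
      + (if j ≤ (c.vars ∩ I).card then μ I * Phi j f F c (I \ c.vars) else 0)) := by
    apply Finset.sum_le_sum
    intro I _
    refine (mul_le_mul_of_nonneg_left (sum_beta_cons j hj f F c I) (hμ I)).trans (le_of_eq ?_)
    split_ifs <;> ring
  refine h1.trans ?_
  rw [Finset.sum_add_distrib, Finset.sum_sub_distrib]
  have h2 : ∑ I, (if j ≤ (c.vars ∩ I).card then μ I * Phi j f F c (I \ c.vars) else 0) ≤
      ∑ I, (if c.vars ∩ I = ∅ then μ I * Phi j f F c I else 0) := by
    rw [← Finset.sum_filter (fun I : Finset V => c.vars ∩ I = ∅)]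
    rw [← Finset.sum_fiberwise_of_maps_to (s := Finset.univ)
      (t := Finset.univ.filter (fun I : Finset V => c.vars ∩ I = ∅)) (g := fun I => I \ c.vars)
      (by
        intro I _
        simp only [Finset.mem_filter, Finset.mem_univ, true_and]
        exact Finset.inter_sdiff_self _ _)]
    apply Finset.sum_le_sum
    intro I' hI'
    have hI' : c.vars ∩ I' = ∅ := (Finset.mem_filter.1 hI').2
    have hdisj : Disjoint I' c.vars := by
      rw [Finset.disjoint_iff_inter_eq_empty, Finset.inter_comm]; exact hI'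
    -- parametrize the fibre by J = I ∩ vars
    have h3 : ∑ I ∈ Finset.univ.filter (fun I : Finset V => I \ c.vars = I'),
        (if j ≤ (c.vars ∩ I).card then μ I * Phi j f F c (I \ c.vars) else 0) =
        ∑ J ∈ c.vars.powerset,
          (if j ≤ J.card then μ (I' ∪ J) * Phi j f F c I' else 0) := by
      apply Finset.sum_bij' (fun I _ => c.vars ∩ I) (fun J _ => I' ∪ J)
      · intro I _
        simp
      · intro J hJ
        simp only [Finset.mem_filter, Finset.mem_univ, true_and]
        rw [Finset.union_sdiff_distrib, Finset.sdiff_eq_self_of_disjoint hdisj,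
          Finset.sdiff_eq_empty_iff_subset.2 (Finset.mem_powerset.1 hJ), Finset.union_empty]
      · intro I hI
        have hI : I \ c.vars = I' := (Finset.mem_filter.1 hI).2
        rw [← hI]
        ext v; simp; tauto
      · intro J hJ
        rw [Finset.inter_union_distrib_left, hI', Finset.empty_union,
          Finset.inter_eq_right.2 (Finset.mem_powerset.1 hJ)]
      · intro I hI
        have hI : I \ c.vars = I' := (Finset.mem_filter.1 hI).2
        have : I' ∪ c.vars ∩ I = I := by
          rw [← hI]
          ext v; simp; tauto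
        rw [this, hI]
    rw [h3]
    calc ∑ J ∈ c.vars.powerset, (if j ≤ J.card then μ (I' ∪ J) * Phi j f F c I' else 0)
        ≤ ∑ J ∈ c.vars.powerset, (if j ≤ J.card then r ^ J.card else 0) * (μ I' * Phi j f F c I') := by
          apply Finset.sum_le_sum
          intro J hJ
          split_ifs
          · have := mu_union μ r hr hμr I' J
              (Finset.disjoint_of_subset_right (Finset.mem_powerset.1 hJ) hdisj)
            calc μ (I' ∪ J) * Phi j f F c I' ≤ (r ^ J.card * μ I') * Phi j f F c I' := by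
                  gcongr
                  exact Phi_nonneg _ _ _ _ _
              _ = _ := by ring
          · simp
      _ = (∑ J ∈ c.vars.powerset, (if j ≤ J.card then r ^ J.card else 0)) *
            (μ I' * Phi j f F c I') := by rw [Finset.sum_mul]
      _ ≤ 1 * (μ I' * Phi j f F c I') := by
          apply mul_le_mul_of_nonneg_right (sum_wide_le r hr k j hkj c.vars hc)
          exact mul_nonneg (hμ _) (Phi_nonneg _ _ _ _ _)
      _ = _ := one_mul _
  linarith

/-- **Width reduction lemma.** -/
theorem width_reduction (μ : Finset V → ℝ) (hμ : ∀ I, 0 ≤ μ I)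
    (r : ℝ) (hr : 0 ≤ r) (hμr : ∀ (I : Finset V) (v : V), v ∉ I → μ (insert v I) ≤ r * μ I)
    (k j : ℕ) (hj : 1 ≤ j) (hkj : ∑ t ∈ Finset.Icc j k, (k.choose t : ℝ) * r ^ t ≤ 1)
    (f : (V → Bool) → ℝ) (S : Finset V → (V → Bool) → ℝ)
    (hS : ∀ (I : Finset V) (a : V → Bool) (D : List (Cl V)), (∀ c ∈ D, c.vars ⊆ I ∧ c.vars.card < j) →
      |∑ w, ind D (mix I w a) * f (mix I w a)| ≤ S I a)
    (F : List (Cl V)) (hF : ∀ c ∈ F, c.vars.card ≤ k) :
    (∑ I, μ I) * 2 ^ (Fintype.card V) * |∑ w, ind F w * f w| ≤ ∑ I, ∑ a, μ I * S I a := by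
  classical
  -- the potential does not increase
  have h1 : ∀ F : List (Cl V), (∀ c ∈ F, c.vars.card ≤ k) →
      ∑ I, μ I * ∑ a, beta j f F I a ≤ ∑ I, ∑ a, μ I * S I a := by
    intro F
    induction F with
    | nil =>
      intro _
      apply Finset.sum_le_sum
      intro I _
      rw [Finset.mul_sum]
      apply Finset.sum_le_sum
      intro a _
      apply mul_le_mul_of_nonneg_left _ (hμ I)
      refine beta_le fun D hD => ?_
      refine le_trans (le_of_eq ?_) (hS I a D hD)
      unfold val
      simp only [ind_nil, one_mul]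
    | cons c F ih =>
      intro hF
      exact (sum_mu_beta_cons μ hμ r hr hμr k j hj hkj f F c (hF c (by simp))).trans
        (ih fun c' hc' => hF c' (by simp [hc']))
  refine le_trans ?_ (h1 F hF)
  rw [Finset.sum_mul, Finset.sum_mul]
  apply Finset.sum_le_sum
  intro I _
  rw [mul_assoc]
  apply mul_le_mul_of_nonneg_left _ (hμ I)
  calc 2 ^ (Fintype.card V) * |∑ w, ind F w * f w|
      = |∑ a, ∑ w, ind F (mix I w a) * f (mix I w a)| := by
        rw [sum_sum_mix I (fun w => ind F w * f w), abs_mul,
          abs_of_nonneg (a := (2 : ℝ) ^ (Fintype.card V)) (by positivity)]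
    _ ≤ ∑ a, |∑ w, ind F (mix I w a) * f (mix I w a)| := Finset.abs_sum_le_sum_abs _ _
    _ ≤ ∑ a, beta j f F I a := by
        apply Finset.sum_le_sum
        intro a _
        refine le_trans (le_of_eq ?_) (le_beta f F a (narrow_nil j I))
        unfold val
        simp only [ind_nil, one_mul]

end Main

end Crest.Agent.R291
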