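import Crest.Agent.R291.Defs
import Crest.Agent.R291.Width

/-!
Row 291 (S0440), part T4: the block star measure and the transfer from input variables to row variables.
-/

set_option autoImplicit false
set_option linter.unusedSectionVars false

namespace Crest.Agent.R291.BB

open Finset

section Gen

variable {P : Type} [Fintype P] [DecidableEq P] {s : ℕ}

/-- parity of every row -/
def par (w : P × Fin s → Bool) : P → Bool :=
  fun ρ => decide ((∑ p, (w (ρ, p)).toNat) % 2 = 1)

/-- positions of `I` in row `ρ` -/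
def fib (I : Finset (P × Fin s)) (ρ : P) : Finset (Fin s) := univ.filter (fun p => (ρ, p) ∈ I)

theorem mem_fib (I : Finset (P × Fin s)) (ρ : P) (p : Fin s) : p ∈ fib I ρ ↔ (ρ, p) ∈ I := by
  simp [fib]

/-- the weight of a block with `n` stars -/
noncomputable def bw (q : ℝ) (s : ℕ) (n : ℕ) : ℝ :=
  if n = 0 then 1 - q else if n = 1 then q / s else 0

/-- the block measure -/
noncomputable def bmu (q : ℝ) (I : Finset (P × Fin s)) : ℝ := ∏ ρ : P, bw q s (fib I ρ).card

theorem bw_nonneg {q : ℝ} (hq0 : 0 ≤ q) (hq1 : q ≤ 1) (s n : ℕ) : 0 ≤ bw q s n := by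
  unfold bw
  split_ifs
  · linarith
  · positivity
  · exact le_rfl

theorem bw_succ_le {q : ℝ} (hq0 : 0 ≤ q) (hq1 : q < 1) (s n : ℕ) :
    bw q s (n + 1) ≤ (q / (s * (1 - q))) * bw q s n := by
  have h1 : (0 : ℝ) < 1 - q := by linarith
  unfold bw
  rcases Nat.eq_zero_or_pos n with h | h
  · subst h
    simp only [zero_add, one_ne_zero, if_false, if_true]
    rcases Nat.eq_zero_or_pos s with hs | hs
    · subst hs; simp
    · have : (0 : ℝ) < s := by exact_mod_cast hs
      rw [div_mul_eq_mul_div, le_div_iff₀ (by positivity)]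
      rw [div_mul_eq_mul_div, div_le_iff₀ this]
      nlinarith
  · have h2 : n + 1 ≠ 0 := by omega
    have h3 : n + 1 ≠ 1 := by omega
    simp only [h2, h3, if_false]
    have := bw_nonneg hq0 hq1.le s n
    unfold bw at this
    positivity

theorem bmu_nonneg {q : ℝ} (hq0 : 0 ≤ q) (hq1 : q ≤ 1) (I : Finset (P × Fin s)) : 0 ≤ bmu q I :=
  Finset.prod_nonneg fun ρ _ => bw_nonneg hq0 hq1 s _

theorem bmu_insert_le {q : ℝ} (hq0 : 0 ≤ q) (hq1 : q < 1) (I : Finset (P × Fin s)) (v : P × Fin s)
    (hv : v ∉ I) : bmu q (insert v I) ≤ (q / (s * (1 - q))) * bmu q I := by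
  unfold bmu
  rw [← Finset.mul_prod_erase univ (fun ρ => bw q s (fib (insert v I) ρ).card) (Finset.mem_univ v.1),
    ← Finset.mul_prod_erase univ (fun ρ => bw q s (fib I ρ).card) (Finset.mem_univ v.1)]
  have e1 : ∏ x ∈ univ.erase v.1, bw q s (fib (insert v I) x).card
      = ∏ x ∈ univ.erase v.1, bw q s (fib I x).card := by
    apply Finset.prod_congr rfl
    intro x hx
    have hx' : x ≠ v.1 := (Finset.mem_erase.mp hx).1
    have : fib (insert v I) x = fib I x := by
      ext p
      rw [mem_fib, mem_fib, Finset.mem_insert]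
      constructor
      · rintro (h | h)
        · exact absurd (congrArg Prod.fst h) hx'
        · exact h
      · exact fun h => Or.inr h
    rw [this]
  rw [e1, ← mul_assoc]
  apply mul_le_mul_of_nonneg_right _ (Finset.prod_nonneg fun ρ _ => bw_nonneg hq0 hq1.le s _)
  have e2 : fib (insert v I) v.1 = insert v.2 (fib I v.1) := by
    ext p
    rw [mem_fib, Finset.mem_insert, Finset.mem_insert, mem_fib]
    constructor
    · rintro (h | h)
      · exact Or.inl (congrArg Prod.snd h)
      · exact Or.inr h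
    · rintro (h | h)
      · left; rw [h]
      · exact Or.inr h
  have e3 : v.2 ∉ fib I v.1 := by rw [mem_fib]; exact hv
  rw [e2, Finset.card_insert_of_notMem e3]
  exact bw_succ_le hq0 hq1 s _

/-- sum of a product weight over all subsets of `P × Fin s` -/
theorem sum_prod_fib (φ : ℕ → ℝ) :
    ∑ I : Finset (P × Fin s), ∏ ρ : P, φ (fib I ρ).card
      = (∑ J : Finset (Fin s), φ J.card) ^ (Fintype.card P) := by
  have h := Finset.prod_univ_sum (fun _ : P => (univ : Finset (Finset (Fin s))))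
    (fun _ J => φ J.card)
  rw [Finset.prod_const, Finset.card_univ] at h
  rw [h, Fintype.piFinset_univ]
  refine Fintype.sum_equiv
    { toFun := fun I => fib I
      invFun := fun g => univ.filter (fun v => v.2 ∈ g v.1)
      left_inv := fun I => by ext v; simp [mem_fib]
      right_inv := fun g => by funext ρ; ext p; simp [mem_fib] } _ _ (fun I => rfl)

theorem sum_bw {s : ℕ} (hs : 1 ≤ s) (q y : ℝ) :
    ∑ J : Finset (Fin s), bw q s J.card * y ^ J.card = 1 - q + q * y := by
  have h1 : ∀ J : Finset (Fin s), bw q s J.card * y ^ J.card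
      = (if J.card = 0 then (1 - q) else 0) + (if J.card = 1 then q / s * y else 0) := by
    intro J
    unfold bw
    by_cases h0 : J.card = 0
    · simp [h0]
    · by_cases h1 : J.card = 1
      · simp [h1]
      · simp [h0, h1]
  rw [Finset.sum_congr rfl (fun J _ => h1 J), Finset.sum_add_distrib]
  congr 1
  · rw [Finset.sum_ite, Finset.sum_const_zero, add_zero, Finset.sum_const]
    have : (univ.filter (fun J : Finset (Fin s) => J.card = 0)) = {∅} := by
      ext J; simp
    rw [this]; simp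
  · rw [Finset.sum_ite, Finset.sum_const_zero, add_zero, Finset.sum_const]
    have : (univ.filter (fun J : Finset (Fin s) => J.card = 1)) = powersetCard 1 univ := by
      ext J; simp [Finset.mem_powersetCard]
    rw [this, Finset.card_powersetCard, Finset.card_univ, Fintype.card_fin, Nat.choose_one_right,
      nsmul_eq_mul]
    have hs' : (s : ℝ) ≠ 0 := by positivity
    field_simp

theorem sum_bmu (hs : 1 ≤ s) (q : ℝ) : ∑ I : Finset (P × Fin s), bmu q I = 1 := by
  unfold bmu
  rw [sum_prod_fib (P := P) (s := s) (fun n => bw q s n)]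
  have := sum_bw hs q 1
  simp only [one_pow, mul_one] at this
  rw [this]
  ring

theorem card_eq_sum_fib (I : Finset (P × Fin s)) : I.card = ∑ ρ : P, (fib I ρ).card := by
  have h := Finset.card_eq_sum_card_fiberwise (s := I) (t := (univ : Finset P)) (f := Prod.fst)
    (fun _ _ => Finset.mem_coe.mpr (Finset.mem_univ _))
  rw [h]
  apply Finset.sum_congr rfl
  intro ρ _
  apply Finset.card_bij (fun v _ => v.2)
  · intro v hv
    rw [Finset.mem_filter] at hv
    rw [mem_fib, ← hv.2]
    exact hv.1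
  · intro v hv v' hv' h
    rw [Finset.mem_filter] at hv hv'
    exact Prod.ext (hv.2.trans hv'.2.symm) h
  · intro p hp
    rw [mem_fib] at hp
    exact ⟨(ρ, p), Finset.mem_filter.mpr ⟨hp, rfl⟩, rfl⟩

theorem sum_bmu_half (hs : 1 ≤ s) (q : ℝ) :
    ∑ I : Finset (P × Fin s), bmu q I * (1 / 2) ^ I.card = (1 - q / 2) ^ (Fintype.card P) := by
  have h : ∀ I : Finset (P × Fin s), bmu q I * (1 / 2) ^ I.card
      = ∏ ρ : P, (fun n : ℕ => bw q s n * (1 / 2) ^ n) (fib I ρ).card := by
    intro I
    unfold bmu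
    rw [card_eq_sum_fib I, ← Finset.prod_pow_eq_pow_sum, ← Finset.prod_mul_distrib]
  rw [Finset.sum_congr rfl (fun I _ => h I), sum_prod_fib (P := P) (s := s)
    (fun n : ℕ => bw q s n * (1 / 2) ^ n), sum_bw hs q (1 / 2)]
  congr 1
  ring

theorem tail_bmu (hs : 1 ≤ s) {q : ℝ} (hq0 : 0 ≤ q) (hq1 : q ≤ 1) (m0 : ℕ) :
    ∑ I : Finset (P × Fin s), (if I.card < m0 then bmu q I else 0)
      ≤ 2 ^ m0 * (1 - q / 2) ^ (Fintype.card P) := by
  rw [← sum_bmu_half (P := P) hs q, Finset.mul_sum]
  apply Finset.sum_le_sum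
  intro I _
  have h0 := bmu_nonneg hq0 hq1 I
  split_ifs with h
  · have : (1 : ℝ) ≤ 2 ^ m0 * (1 / 2) ^ I.card := by
      rw [one_div, inv_pow, ← div_eq_mul_inv, le_div_iff₀ (by positivity), one_mul]
      exact pow_le_pow_right₀ (by norm_num) h.le
    nlinarith
  · positivity

theorem card_fib_le_one {q : ℝ} (I : Finset (P × Fin s)) (h : bmu q I ≠ 0) (ρ : P) :
    (fib I ρ).card ≤ 1 := by
  by_contra hc
  apply h
  unfold bmu
  apply Finset.prod_eq_zero (Finset.mem_univ ρ)
  unfold bw
  rw [if_neg (by omega), if_neg (by omega)]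

/-- uniformity of the row map -/
theorem sum_row (pos : P → Fin s) (cc : P → Bool) (G : (P → Bool) → ℝ) :
    2 ^ (Fintype.card P) * ∑ w : P × Fin s → Bool, G (fun ρ => xor (w (ρ, pos ρ)) (cc ρ))
      = 2 ^ (Fintype.card (P × Fin s)) * ∑ u : P → Bool, G u := by
  classical
  have step : ∀ u : P → Bool, ∑ w : P × Fin s → Bool, G (fun ρ => xor (w (ρ, pos ρ)) (cc ρ))
      = ∑ w : P × Fin s → Bool, G (fun ρ => xor (u ρ) (xor (w (ρ, pos ρ)) (cc ρ))) := by
    intro u
    have hinv : Function.Involutive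
        (fun (w : P × Fin s → Bool) (v : P × Fin s) => if v.2 = pos v.1 then xor (u v.1) (w v) else w v) := by
      intro w
      funext v
      by_cases h : v.2 = pos v.1
      · simp [h]
      · simp [h]
    refine Fintype.sum_equiv hinv.toPerm _ _ (fun w => ?_)
    congr 1
    funext ρ
    simp only [Function.Involutive.coe_toPerm, if_true]
    cases u ρ <;> cases w (ρ, pos ρ) <;> cases cc ρ <;> rfl
  have h1 : 2 ^ (Fintype.card P) * ∑ w : P × Fin s → Bool, G (fun ρ => xor (w (ρ, pos ρ)) (cc ρ))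
      = ∑ u : P → Bool, ∑ w : P × Fin s → Bool, G (fun ρ => xor (u ρ) (xor (w (ρ, pos ρ)) (cc ρ))) := by
    rw [← Finset.sum_congr rfl (fun u _ => step u), Finset.sum_const, Finset.card_univ, nsmul_eq_mul]
    congr 1
    simp [Fintype.card_bool]
  rw [h1, Finset.sum_comm]
  have h2 : ∀ w : P × Fin s → Bool, ∑ u : P → Bool, G (fun ρ => xor (u ρ) (xor (w (ρ, pos ρ)) (cc ρ)))
      = ∑ u : P → Bool, G u := by
    intro w
    have hinv : Function.Involutive
        (fun (u : P → Bool) (ρ : P) => xor (u ρ) (xor (w (ρ, pos ρ)) (cc ρ))) := by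
      intro u
      funext ρ
      simp
    exact Fintype.sum_equiv hinv.toPerm _ _ (fun u => rfl)
  rw [Finset.sum_congr rfl (fun w _ => h2 w), Finset.sum_const, Finset.card_univ, nsmul_eq_mul]
  congr 1
  simp [Fintype.card_bool]

theorem par_of_agree (x y : P × Fin s → Bool) (ρ : P) (p₀ : Fin s)
    (h : ∀ p, p ≠ p₀ → x (ρ, p) = y (ρ, p)) :
    par x ρ = xor (x (ρ, p₀)) (xor (y (ρ, p₀)) (par y ρ)) := by
  unfold par
  rw [← Finset.add_sum_erase univ (fun p => (x (ρ, p)).toNat) (Finset.mem_univ p₀),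
    ← Finset.add_sum_erase univ (fun p => (y (ρ, p)).toNat) (Finset.mem_univ p₀)]
  have : ∑ p ∈ univ.erase p₀, (x (ρ, p)).toNat = ∑ p ∈ univ.erase p₀, (y (ρ, p)).toNat := by
    apply Finset.sum_congr rfl
    intro p hp
    rw [h p (Finset.mem_erase.mp hp).1]
  rw [this]
  generalize ∑ p ∈ univ.erase p₀, (y (ρ, p)).toNat = N
  have hN : N % 2 = 0 ∨ N % 2 = 1 := by omega
  cases hx : x (ρ, p₀) <;> cases hy : y (ρ, p₀) <;> rcases hN with hN | hN <;>
    simp [Nat.add_mod, hN]


/-- rows with a star -/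
def rows (I : Finset (P × Fin s)) : Finset P := I.image Prod.fst

theorem card_rows {I : Finset (P × Fin s)} (h1 : ∀ ρ, (fib I ρ).card ≤ 1) : (rows I).card = I.card := by
  unfold rows
  apply Finset.card_image_of_injOn
  intro v hv v' hv' h
  have h2 := Finset.card_le_one.mp (h1 v.1) v.2 (by rw [mem_fib]; exact hv) v'.2
    (by rw [mem_fib, show v.1 = v'.1 from h]; exact hv')
  exact Prod.ext h h2

theorem ind_congr2 {V W : Type} {F : List (Cl V)} {F' : List (Cl W)} {w : V → Bool} {w' : W → Bool}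
    (h : (∀ c ∈ F, c.Sat w) ↔ (∀ c ∈ F', c.Sat w')) : ind F w = ind F' w' := by
  unfold ind
  by_cases hw : ∀ c ∈ F, c.Sat w
  · rw [if_pos hw, if_pos (h.mp hw)]
  · rw [if_neg hw, if_neg (fun h' => hw (h.mpr h'))]

/-- the transfer from variables to rows, for a star set with at most one star per row -/
theorem transfer (hs : 1 ≤ s) (I : Finset (P × Fin s)) (h1 : ∀ ρ, (fib I ρ).card ≤ 1) (a : P × Fin s → Bool)
    (j : ℕ) (D : List (Cl (P × Fin s))) (hD : ∀ c ∈ D, c.vars ⊆ I ∧ c.vars.card < j) :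
    ∃ (D' : List (Cl P)) (a' : P → Bool), (∀ c ∈ D', c.vars ⊆ rows I ∧ c.vars.card < j) ∧
      ∀ h : (P → Bool) → ℝ,
        2 ^ (Fintype.card P) * ∑ w : P × Fin s → Bool, ind D (mix I w a) * h (par (mix I w a))
          = 2 ^ (Fintype.card (P × Fin s)) * ∑ u : P → Bool, ind D' (mix (rows I) u a') * h (mix (rows I) u a') := by
  classical
  have hpos : ∃ pos : P → Fin s, ∀ v ∈ I, pos v.1 = v.2 := by
    have hex : ∀ ρ : P, ∃ p : Fin s, ∀ p' : Fin s, p' ∈ fib I ρ → p = p' := by
      intro ρ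
      rcases (fib I ρ).eq_empty_or_nonempty with he | ⟨p, hp⟩
      · exact ⟨⟨0, hs⟩, fun p' hp' => by rw [he] at hp'; exact absurd hp' (Finset.notMem_empty _)⟩
      · exact ⟨p, fun p' hp' => Finset.card_le_one.mp (h1 ρ) p hp p' hp'⟩
    choose pos hpos using hex
    exact ⟨pos, fun v hv => hpos v.1 v.2 (by rw [mem_fib]; exact hv)⟩
  obtain ⟨pos, hpos⟩ := hpos
  have hstar : ∀ ρ ∈ rows I, (ρ, pos ρ) ∈ I := by
    intro ρ hρ
    obtain ⟨v, hv, rfl⟩ := Finset.mem_image.mp hρ
    rw [hpos v hv]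
    exact hv
  let cc : P → Bool := fun ρ => xor (a (ρ, pos ρ)) (par a ρ)
  refine ⟨D.map (fun c => ⟨c.vars.image Prod.fst, fun ρ => xor (c.σ (ρ, pos ρ)) (cc ρ)⟩), par a, ?_, ?_⟩
  · intro c' hc'
    obtain ⟨c, hc, rfl⟩ := List.mem_map.mp hc'
    exact ⟨Finset.image_subset_image (hD c hc).1, lt_of_le_of_lt Finset.card_image_le (hD c hc).2⟩
  · intro h
    rw [← sum_row pos cc (fun u => ind (D.map (fun c => (⟨c.vars.image Prod.fst,
      fun ρ => xor (c.σ (ρ, pos ρ)) (cc ρ)⟩ : Cl P))) (mix (rows I) u (par a)) * h (mix (rows I) u (par a)))]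
    congr 1
    apply Finset.sum_congr rfl
    intro w _
    have e1 : par (mix I w a) = mix (rows I) (fun ρ => xor (w (ρ, pos ρ)) (cc ρ)) (par a) := by
      funext ρ
      by_cases hρ : ρ ∈ rows I
      · rw [mix_mem hρ]
        have h2 := par_of_agree (mix I w a) a ρ (pos ρ) (by
          intro p hp
          apply mix_not_mem
          intro hmem
          exact hp (hpos (ρ, p) hmem).symm)
        rw [h2, mix_mem (hstar ρ hρ)]
      · rw [mix_not_mem hρ]
        unfold par
        have h3 : ∀ p, mix I w a (ρ, p) = a (ρ, p) := by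
          intro p
          apply mix_not_mem
          intro hmem
          exact hρ (Finset.mem_image.mpr ⟨(ρ, p), hmem, rfl⟩)
        simp only [h3]
    rw [e1]
    congr 1
    apply ind_congr2
    rw [List.forall_mem_map]
    constructor
    · intro hh c hc
      obtain ⟨v, hv, hne⟩ := hh c hc
      have hvI : v ∈ I := (hD c hc).1 hv
      have hvr : v.1 ∈ rows I := Finset.mem_image.mpr ⟨v, hvI, rfl⟩
      refine ⟨v.1, Finset.mem_image.mpr ⟨v, hv, rfl⟩, ?_⟩
      rw [mix_mem hvr]
      rw [mix_mem hvI] at hne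
      have : (v.1, pos v.1) = v := Prod.ext rfl (hpos v hvI)
      simp only [this]
      intro he
      apply hne
      revert he
      cases w v <;> cases c.σ v <;> cases cc v.1 <;> simp
    · intro hh c hc
      obtain ⟨ρ, hρ, hne⟩ := hh c hc
      obtain ⟨v, hv, rfl⟩ := Finset.mem_image.mp hρ
      have hvI : v ∈ I := (hD c hc).1 hv
      refine ⟨v, hv, ?_⟩
      have hvr : v.1 ∈ rows I := Finset.mem_image.mpr ⟨v, hvI, rfl⟩
      rw [mix_mem hvr] at hne
      rw [mix_mem hvI]
      have : (v.1, pos v.1) = v := Prod.ext rfl (hpos v hvI)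
      simp only [this] at hne
      intro he
      apply hne
      rw [he]

theorem abs_sum_ind_le {V : Type} [Fintype V] [DecidableEq V] (D : List (Cl V)) (I : Finset V) (a : V → Bool)
    (f : (V → Bool) → ℝ) (hf : ∀ w, |f w| ≤ 1) :
    |∑ w, ind D (mix I w a) * f (mix I w a)| ≤ 2 ^ (Fintype.card V) := by
  calc |∑ w, ind D (mix I w a) * f (mix I w a)| ≤ ∑ w : V → Bool, |ind D (mix I w a) * f (mix I w a)| :=
        Finset.abs_sum_le_sum_abs _ _
    _ ≤ ∑ _w : V → Bool, (1 : ℝ) := by
        apply Finset.sum_le_sum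
        intro w _
        rw [abs_mul, abs_of_nonneg (ind_nonneg _ _)]
        have h1 := ind_le_one D (mix I w a)
        have h2 := hf (mix I w a)
        have h3 := ind_nonneg D (mix I w a)
        have h4 := abs_nonneg (f (mix I w a))
        nlinarith
    _ = 2 ^ (Fintype.card V) := by simp [Fintype.card_bool]

/-- general form of the reduction -/
theorem block_reduction_gen (hs : 1 ≤ s) (q : ℝ) (hq0 : 0 < q) (hq1 : q < 1) (k j m0 : ℕ)
    (hj : 1 ≤ j) (hkj : ∑ t ∈ Finset.Icc j k, (k.choose t : ℝ) * (q / (s * (1 - q))) ^ t ≤ 1)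
    (h : (P → Bool) → ℝ) (hh : ∀ u, |h u| ≤ 1) (ε : ℝ) (hε : 0 ≤ ε)
    (hrow : ∀ R : Finset P, m0 ≤ R.card → ∀ a : P → Bool, ∀ D : List (Cl P),
      (∀ c ∈ D, c.vars ⊆ R ∧ c.vars.card < j) →
      |∑ u, ind D (mix R u a) * h (mix R u a)| ≤ 2 ^ (Fintype.card P) * ε)
    (F : List (Cl (P × Fin s))) (hF : ∀ c ∈ F, c.vars.card ≤ k) :
    |∑ w, ind F w * h (par w)| ≤ 2 ^ (Fintype.card (P × Fin s)) *
      (ε + 2 ^ m0 * (1 - q / 2) ^ (Fintype.card P)) := by
  classical
  have hT : (0 : ℝ) < 2 ^ (Fintype.card (P × Fin s)) := by positivity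
  have hTP : (0 : ℝ) < 2 ^ (Fintype.card P) := by positivity
  have h1q : (0 : ℝ) < 1 - q := by linarith
  have key := width_reduction (V := P × Fin s) (fun I => bmu q I) (fun I => bmu_nonneg hq0.le hq1.le I)
    (q / (s * (1 - q))) (by positivity) (fun I v hv => bmu_insert_le hq0.le hq1 I v hv) k j hj hkj
    (fun w => h (par w))
    (fun I _ => if bmu q I = 0 then 2 ^ (Fintype.card (P × Fin s)) else
      2 ^ (Fintype.card (P × Fin s)) * (ε + if I.card < m0 then 1 else 0))
    (by
      intro I a D hD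
      by_cases hI : bmu q I = 0
      · simp only [hI, if_true]
        exact abs_sum_ind_le D I a (fun w => h (par w)) (fun w => hh _)
      · simp only [hI, if_false]
        by_cases hc : I.card < m0
        · simp only [hc, if_true]
          have := abs_sum_ind_le D I a (fun w => h (par w)) (fun w => hh _)
          nlinarith
        · simp only [hc, if_false, add_zero]
          have hf1 := card_fib_le_one I hI
          obtain ⟨D', a', hD', htr⟩ := transfer hs I hf1 a j D hD
          have h3 := hrow (rows I) (by rw [card_rows hf1]; omega) a' D' hD'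
          have h4 := htr h
          have h5 : 2 ^ (Fintype.card P) * |∑ w : P × Fin s → Bool, ind D (mix I w a) * h (par (mix I w a))|
              = 2 ^ (Fintype.card (P × Fin s)) *
                |∑ u : P → Bool, ind D' (mix (rows I) u a') * h (mix (rows I) u a')| := by
            have h6 := congrArg abs h4
            rwa [abs_mul, abs_mul, abs_of_pos hTP, abs_of_pos hT] at h6
          have h6 : 2 ^ (Fintype.card P) * |∑ w : P × Fin s → Bool, ind D (mix I w a) * h (par (mix I w a))|
              ≤ 2 ^ (Fintype.card P) * (2 ^ (Fintype.card (P × Fin s)) * ε) := by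
            rw [h5]
            calc 2 ^ (Fintype.card (P × Fin s)) *
                |∑ u : P → Bool, ind D' (mix (rows I) u a') * h (mix (rows I) u a')|
                ≤ 2 ^ (Fintype.card (P × Fin s)) * (2 ^ (Fintype.card P) * ε) :=
                  mul_le_mul_of_nonneg_left h3 hT.le
              _ = _ := by ring
          exact le_of_mul_le_mul_left h6 hTP)
    F hF
  rw [sum_bmu hs q, one_mul] at key
  have e1 : ∑ I : Finset (P × Fin s), ∑ _a : P × Fin s → Bool, bmu q I *
      (if bmu q I = 0 then (2 : ℝ) ^ (Fintype.card (P × Fin s)) else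
      2 ^ (Fintype.card (P × Fin s)) * (ε + if I.card < m0 then 1 else 0))
      = 2 ^ (Fintype.card (P × Fin s)) * (2 ^ (Fintype.card (P × Fin s)) *
        ∑ I : Finset (P × Fin s), (bmu q I * ε + if I.card < m0 then bmu q I else 0)) := by
    rw [Finset.mul_sum, Finset.mul_sum]
    apply Finset.sum_congr rfl
    intro I _
    rw [Finset.sum_const, Finset.card_univ, nsmul_eq_mul]
    have : ((Fintype.card (P × Fin s → Bool) : ℕ) : ℝ) = 2 ^ (Fintype.card (P × Fin s)) := by
      simp [Fintype.card_bool]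
    rw [this]
    by_cases hI : bmu q I = 0
    · simp [hI]
    · simp only [hI, if_false]
      split_ifs <;> ring
  rw [e1, Finset.sum_add_distrib, ← Finset.sum_mul, sum_bmu hs q, one_mul] at key
  have key2 := le_of_mul_le_mul_left key hT
  refine key2.trans (mul_le_mul_of_nonneg_left ?_ hT.le)
  have := tail_bmu (P := P) hs hq0.le hq1.le m0
  linarith

end Gen

/-- the parities of the rows -/
def rowp {T d s : ℕ} (w : (Fin T × Fin d) × Fin s → Bool) : Fin T × Fin d → Bool :=
  fun ρ => decide ((∑ p, (w (ρ, p)).toNat) % 2 = 1)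

theorem block_reduction (T d s : ℕ) (hs : 1 ≤ s) (q : ℝ) (hq0 : 0 < q) (hq1 : q < 1) (k j m0 : ℕ)
    (hj : 1 ≤ j) (hkj : ∑ t ∈ Finset.Icc j k, (k.choose t : ℝ) * (q / (s * (1 - q))) ^ t ≤ 1)
    (Y : Fin T → Fin d → Fin d → Bool) (ε : ℝ) (hε : 0 ≤ ε)
    (hrow : ∀ R : Finset (Fin T × Fin d), m0 ≤ R.card → ∀ a : Fin T × Fin d → Bool,
      ∀ D : List (Cl (Fin T × Fin d)), (∀ c ∈ D, c.vars ⊆ R ∧ c.vars.card < j) →
      |∑ u, ind D (mix R u a) * (-1 : ℝ) ^ (cnt Y (mix R u a))| ≤ 2 ^ (T * d) * ε)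
    (F : List (Cl ((Fin T × Fin d) × Fin s))) (hF : ∀ c ∈ F, c.vars.card ≤ k) :
    |∑ w, ind F w * (-1 : ℝ) ^ (cnt Y (rowp w))|
      ≤ 2 ^ (T * d * s) * (ε + 2 ^ m0 * (1 - q / 2) ^ (T * d)) := by
  have hcard : Fintype.card (Fin T × Fin d) = T * d := by simp
  have hcard2 : Fintype.card ((Fin T × Fin d) × Fin s) = T * d * s := by simp
  have h := block_reduction_gen (P := Fin T × Fin d) hs q hq0 hq1 k j m0 hj hkj
    (fun u => (-1 : ℝ) ^ (cnt Y u)) (fun u => by simp [abs_pow]) ε hε
    (by rw [hcard]; exact hrow) F hF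
  rw [hcard, hcard2] at h
  exact h

end Crest.Agent.R291.BB
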