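import Crest.Agent.R291.Defs
import Crest.Prelude.Def_Depth3

/-!
Row 291 (S0440), T5a: from a depth-three circuit to CNFs of bounded width.
-/

set_option autoImplicit false

namespace Crest.Agent.R291

open Finset

/-- The number of assignments agreeing with `σ` on `S`. -/
theorem card_agree {V : Type} [Fintype V] [DecidableEq V] (S : Finset V) (σ : V → Bool) :
    ((univ.filter fun w : V → Bool => ∀ v ∈ S, w v = σ v).card : ℝ) * 2 ^ S.card =
      2 ^ Fintype.card V := by
  classical
  have h : (univ.filter fun w : V → Bool => ∀ v ∈ S, w v = σ v) =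
      Fintype.piFinset (fun v => if v ∈ S then ({σ v} : Finset Bool) else univ) := by
    ext w
    simp only [mem_filter, mem_univ, true_and, Fintype.mem_piFinset]
    constructor
    · intro hw v
      by_cases hv : v ∈ S
      · simp [hv, hw v hv]
      · simp [hv]
    · intro hw v hv
      have := hw v
      simpa [hv] using this
  rw [h, Fintype.card_piFinset]
  have h2 : ∏ v, (if v ∈ S then ({σ v} : Finset Bool) else univ).card = 2 ^ (univ \ S).card := by
    have : ∀ v, (if v ∈ S then ({σ v} : Finset Bool) else univ).card = if v ∈ S then 1 else 2 := by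
      intro v
      by_cases hv : v ∈ S <;> simp [hv]
    rw [Finset.prod_congr rfl (fun v _ => this v), Finset.prod_ite]
    simp only [prod_const_one, one_mul, prod_const]
    congr 2
    ext v
    simp
  rw [h2]
  have h3 : (univ \ S).card + S.card = Fintype.card V := by
    rw [Finset.card_sdiff_add_card_eq_card (Finset.subset_univ S), Finset.card_univ]
  rw [← h3, pow_add]
  push_cast
  ring

section
open Classical
variable {n : ℕ} (c : Crest.Depth3.Circuit n) {V : Type} [Fintype V] [DecidableEq V]
  (ι : V → Fin n) (rest : Fin n → Bool)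

/-- the clause read by bottom gate `g` on the variables `V`. -/
noncomputable def gateCl (g : Fin c.bot) : Cl V where
  vars := univ.filter fun v => (ι v, true) ∈ c.lits g ∨ (ι v, false) ∈ c.lits g
  σ := fun v => decide ((ι v, false) ∈ c.lits g)

/-- bottom gate `g` is constantly true after fixing the inputs outside the range of `ι`. -/
def gateTriv (g : Fin c.bot) : Prop :=
  c.one g = true ∨ (∃ l ∈ c.lits g, l.1 ∉ Set.range ι ∧ rest l.1 = l.2) ∨
    ∃ v, (ι v, true) ∈ c.lits g ∧ (ι v, false) ∈ c.lits g

omit [DecidableEq V] in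
theorem gate_iff (x : (V → Bool) → Fin n → Bool)
    (hx : ∀ w v, x w (ι v) = w v) (hrest : ∀ w i, i ∉ Set.range ι → x w i = rest i)
    (g : Fin c.bot) (w : V → Bool) :
    (c.one g = true ∨ ∃ l ∈ c.lits g, x w l.1 = l.2) ↔
      (¬ gateTriv c ι rest g → (gateCl c ι g).Sat w) := by
  constructor
  · intro h hnt
    rw [gateTriv] at hnt
    push Not at hnt
    obtain ⟨h1, h2, h3⟩ := hnt
    rcases h with h | ⟨l, hl, hxl⟩
    · exact absurd h h1
    · by_cases hr : l.1 ∈ Set.range ι
      · obtain ⟨v, hv⟩ := hr
        have hwv : w v = l.2 := by rw [← hx w v, hv, hxl]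
        refine ⟨v, ?_, ?_⟩
        · simp only [gateCl, mem_filter, mem_univ, true_and]
          cases hb : l.2
          · right; rw [hv, ← hb]; exact hl
          · left; rw [hv, ← hb]; exact hl
        · rw [hwv]
          simp only [gateCl]
          cases hb : l.2
          · have : (ι v, false) ∈ c.lits g := by rw [hv, ← hb]; exact hl
            simp [this]
          · have : (ι v, true) ∈ c.lits g := by rw [hv, ← hb]; exact hl
            have := h3 v this
            simp [this]
      · exact absurd (by rw [← hrest w l.1 hr, hxl]) (h2 l hl hr)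
  · intro h
    by_cases hnt : gateTriv c ι rest g
    · rcases hnt with h1 | ⟨l, hl, hr, hb⟩ | ⟨v, hv1, hv2⟩
      · exact Or.inl h1
      · exact Or.inr ⟨l, hl, by rw [hrest w l.1 hr, hb]⟩
      · right
        cases hw : w v
        · exact ⟨(ι v, false), hv2, by rw [hx w v, hw]⟩
        · exact ⟨(ι v, true), hv1, by rw [hx w v, hw]⟩
    · obtain ⟨v, hv, hwv⟩ := h hnt
      simp only [gateCl, mem_filter, mem_univ, true_and] at hv hwv
      right
      by_cases hf : (ι v, false) ∈ c.lits g
      · refine ⟨(ι v, false), hf, ?_⟩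
        rw [hx w v]
        simpa [hf] using hwv
      · refine ⟨(ι v, true), by tauto, ?_⟩
        rw [hx w v]
        simpa [hf] using hwv

end

theorem circuit_bound {n : ℕ} (c : Crest.Depth3.Circuit n) {V : Type} [Fintype V] [DecidableEq V]
    (ι : V → Fin n) (x : (V → Bool) → Fin n → Bool)
    (hx : ∀ w v, x w (ι v) = w v) (rest : Fin n → Bool)
    (hrest : ∀ w i, i ∉ Set.range ι → x w i = rest i) (f : (V → Bool) → ℝ)
    (hf : ∀ w, (c.eval (x w) → f w = -1) ∧ (¬ c.eval (x w) → f w = 1)) (k : ℕ) (δ : ℝ)
    (hδ : ∀ F : List (Cl V), (∀ a ∈ F, a.vars.card ≤ k) →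
      |∑ w, ind F w * f w| ≤ δ * 2 ^ Fintype.card V) :
    (1 - δ) / 2 ≤ c.mid * (δ + c.bot / 2 ^ k) := by
  classical
  set N : ℝ := 2 ^ Fintype.card V with hN
  have hNpos : 0 < N := by positivity
  -- the set accepted by middle gate `h`
  let acc : Fin c.mid → Finset (V → Bool) := fun h => univ.filter fun w =>
    ∀ g ∈ c.reads h, c.one g = true ∨ ∃ l ∈ c.lits g, x w l.1 = l.2
  let bad : Fin c.bot → Finset (V → Bool) := fun g => univ.filter fun w =>
    k < (gateCl c ι g).vars.card ∧ ¬ (gateCl c ι g).Sat w
  -- each bad set is small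
  have hbad : ∀ g, ((bad g).card : ℝ) ≤ N / 2 ^ k := by
    intro g
    by_cases hk : k < (gateCl c ι g).vars.card
    · have hsub : bad g ⊆ univ.filter fun w : V → Bool =>
          ∀ v ∈ (gateCl c ι g).vars, w v = (gateCl c ι g).σ v := by
        intro w hw
        simp only [bad, mem_filter, mem_univ, true_and] at hw ⊢
        intro v hv
        by_contra hne
        exact hw.2 ⟨v, hv, hne⟩
      have h1 := card_agree (gateCl c ι g).vars (gateCl c ι g).σ
      have h2 : ((bad g).card : ℝ) ≤ ((univ.filter fun w : V → Bool =>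
          ∀ v ∈ (gateCl c ι g).vars, w v = (gateCl c ι g).σ v).card : ℝ) := by
        exact_mod_cast Finset.card_le_card hsub
      have h3 : (2 : ℝ) ^ k ≤ 2 ^ (gateCl c ι g).vars.card :=
        pow_le_pow_right₀ (by norm_num) hk.le
      rw [le_div_iff₀ (by positivity)]
      calc ((bad g).card : ℝ) * 2 ^ k ≤ _ * 2 ^ (gateCl c ι g).vars.card :=
            mul_le_mul h2 h3 (by positivity) (by positivity)
        _ = N := h1
    · have : bad g = ∅ := by
        apply Finset.filter_eq_empty_iff.2
        intro w _ h
        exact hk h.1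
      rw [this]
      simp only [card_empty, Nat.cast_zero]
      positivity
  -- the CNF of a middle gate
  have hacc : ∀ h, ((acc h).card : ℝ) ≤ (δ + c.bot / 2 ^ k) * N := by
    intro h
    let G : Finset (Fin c.bot) := (c.reads h).filter fun g =>
      ¬ gateTriv c ι rest g ∧ (gateCl c ι g).vars.card ≤ k
    let F : List (Cl V) := G.toList.map (gateCl c ι)
    have hF : ∀ a ∈ F, a.vars.card ≤ k := by
      intro a ha
      obtain ⟨g, hg, rfl⟩ := List.mem_map.1 ha
      rw [Finset.mem_toList] at hg
      exact (Finset.mem_filter.1 hg).2.2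
    have hFsat : ∀ w, (∀ a ∈ F, a.Sat w) ↔ ∀ g ∈ G, (gateCl c ι g).Sat w := by
      intro w
      constructor
      · intro hw g hg
        exact hw _ (List.mem_map.2 ⟨g, Finset.mem_toList.2 hg, rfl⟩)
      · intro hw a ha
        obtain ⟨g, hg, rfl⟩ := List.mem_map.1 ha
        exact hw g (Finset.mem_toList.1 hg)
    have h1 := hδ F hF
    -- pointwise bound
    have h2 : ∀ w, ind F w * f w ≤ -(if w ∈ acc h then (1 : ℝ) else 0) +
        ∑ g, (if w ∈ bad g then (1 : ℝ) else 0) := by
      intro w
      have hsum0 : 0 ≤ ∑ g, (if w ∈ bad g then (1 : ℝ) else 0) :=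
        Finset.sum_nonneg fun g _ => by split_ifs <;> norm_num
      by_cases hw : w ∈ acc h
      · have hw' := hw
        simp only [acc, mem_filter, mem_univ, true_and] at hw'
        have hev : c.eval (x w) := ⟨h, hw'⟩
        have hind : ind F w = 1 := by
          rw [ind, if_pos]
          rw [hFsat]
          intro g hg
          obtain ⟨hg1, hg2, hg3⟩ := Finset.mem_filter.1 hg
          exact (gate_iff c ι rest x hx hrest g w).1 (hw' g hg1) hg2
        rw [hind, (hf w).1 hev, if_pos hw]
        linarith
      · by_cases hFw : ∀ a ∈ F, a.Sat w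
        · -- some wide clause is violated
          have hex : ∃ g, w ∈ bad g := by
            simp only [acc, mem_filter, mem_univ, true_and] at hw
            push Not at hw
            obtain ⟨g, hg, hg2⟩ := hw
            have hng : ¬ (c.one g = true ∨ ∃ l ∈ c.lits g, x w l.1 = l.2) := by
              rintro (h5 | ⟨l, hl, hl2⟩)
              · exact hg2.1 h5
              · exact hg2.2 l hl hl2
            rw [gate_iff c ι rest x hx hrest g w] at hng
            push Not at hng
            refine ⟨g, ?_⟩
            simp only [bad, mem_filter, mem_univ, true_and]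
            refine ⟨?_, hng.2⟩
            by_contra hle
            push Not at hle
            exact hng.2 ((hFsat w).1 hFw g (Finset.mem_filter.2 ⟨hg, hng.1, hle⟩))
          obtain ⟨g, hg⟩ := hex
          have hge : (1 : ℝ) ≤ ∑ g, (if w ∈ bad g then (1 : ℝ) else 0) := by
            calc (1 : ℝ) = (if w ∈ bad g then (1 : ℝ) else 0) := by rw [if_pos hg]
              _ ≤ _ := Finset.single_le_sum
                (f := fun g => (if w ∈ bad g then (1 : ℝ) else 0))
                (fun g _ => by split_ifs <;> norm_num) (Finset.mem_univ g)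
          have hfle : f w ≤ 1 := by
            by_cases hev : c.eval (x w)
            · rw [(hf w).1 hev]; norm_num
            · rw [(hf w).2 hev]
          rw [ind, if_pos hFw, if_neg hw]
          linarith
        · rw [ind, if_neg hFw, if_neg hw]
          linarith
    have h3 : ∑ w, ind F w * f w ≤ -((acc h).card : ℝ) + ∑ g, ((bad g).card : ℝ) := by
      calc ∑ w, ind F w * f w ≤ ∑ w, (-(if w ∈ acc h then (1 : ℝ) else 0) +
            ∑ g, (if w ∈ bad g then (1 : ℝ) else 0)) := Finset.sum_le_sum fun w _ => h2 w
        _ = -((acc h).card : ℝ) + ∑ g, ((bad g).card : ℝ) := by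
            rw [Finset.sum_add_distrib, Finset.sum_neg_distrib, Finset.sum_comm]
            congr 1
            · rw [Finset.sum_ite_mem, Finset.univ_inter, Finset.sum_const, nsmul_eq_mul, mul_one]
            · refine Finset.sum_congr rfl fun g _ => ?_
              rw [Finset.sum_ite_mem, Finset.univ_inter, Finset.sum_const, nsmul_eq_mul, mul_one]
    have h4 : ∑ g, ((bad g).card : ℝ) ≤ c.bot / 2 ^ k * N := by
      calc ∑ g, ((bad g).card : ℝ) ≤ ∑ _g : Fin c.bot, N / 2 ^ k :=
            Finset.sum_le_sum fun g _ => hbad g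
        _ = c.bot / 2 ^ k * N := by
            rw [Finset.sum_const, Finset.card_univ, Fintype.card_fin, nsmul_eq_mul]
            ring
    have h5 := (abs_le.1 h1).1
    have : (δ + c.bot / 2 ^ k) * N = δ * N + c.bot / 2 ^ k * N := by ring
    rw [this]
    linarith
  -- the accepted set
  let E : Finset (V → Bool) := univ.filter fun w => c.eval (x w)
  have hE1 : (E.card : ℝ) ≤ c.mid * ((δ + c.bot / 2 ^ k) * N) := by
    have hsub : E ⊆ univ.biUnion acc := by
      intro w hw
      simp only [E, mem_filter, mem_univ, true_and] at hw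
      obtain ⟨h, hh⟩ := hw
      exact Finset.mem_biUnion.2 ⟨h, mem_univ _, by simpa [acc] using hh⟩
    have h1 : (E.card : ℝ) ≤ ∑ h, ((acc h).card : ℝ) := by
      have := (Finset.card_le_card hsub).trans (Finset.card_biUnion_le (s := univ) (t := acc))
      exact_mod_cast this
    calc (E.card : ℝ) ≤ ∑ h, ((acc h).card : ℝ) := h1
      _ ≤ ∑ _h : Fin c.mid, (δ + c.bot / 2 ^ k) * N := Finset.sum_le_sum fun h _ => hacc h
      _ = c.mid * ((δ + c.bot / 2 ^ k) * N) := by
          rw [Finset.sum_const, Finset.card_univ, Fintype.card_fin, nsmul_eq_mul]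
  have hE2 : ∑ w, ind [] w * f w = N - 2 * E.card := by
    have h1 : ∀ w, ind [] w * f w = 1 - 2 * (if w ∈ E then (1 : ℝ) else 0) := by
      intro w
      rw [ind, if_pos (by simp), one_mul]
      by_cases hw : c.eval (x w)
      · rw [(hf w).1 hw, if_pos (by simpa [E] using hw)]; norm_num
      · rw [(hf w).2 hw, if_neg (by simpa [E] using hw)]; norm_num
    rw [Finset.sum_congr rfl fun w _ => h1 w, Finset.sum_sub_distrib, ← Finset.mul_sum,
      Finset.sum_ite_mem, Finset.univ_inter, Finset.sum_const, Finset.sum_const, nsmul_eq_mul,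
      nsmul_eq_mul, mul_one, mul_one, Finset.card_univ, Fintype.card_fun, Fintype.card_bool, hN]
    push_cast
    ring
  have hE3 := hδ [] (by simp)
  rw [hE2] at hE3
  have hE4 := (abs_le.1 hE3).2
  have hfin : (1 - δ) / 2 * N ≤ c.mid * (δ + c.bot / 2 ^ k) * N := by
    calc (1 - δ) / 2 * N ≤ E.card := by
          have : (1 - δ) / 2 * N = (N - δ * N) / 2 := by ring
          rw [this]
          linarith
      _ ≤ c.mid * ((δ + c.bot / 2 ^ k) * N) := hE1
      _ = _ := by ring
  exact le_of_mul_le_mul_right hfin hNpos

end Crest.Agent.R291
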