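import Mathlib
import Crest.Agent.R291.Defs
import Crest.Agent.R291.Block

/-!
# R291 / Transfer (helper935): from the bits to the row parities
-/

set_option autoImplicit false

namespace Crest.Agent.R291

open Finset

section
variable {ι : Type} [Fintype ι] [DecidableEq ι] {s : ℕ}

/-- parities of the rows -/
def rowp (w : ι × Fin s → Bool) : ι → Bool :=
  fun i => decide ((∑ p, (w (i, p)).toNat) % 2 = 1)

theorem sum_shift {α : Type} [Fintype α] [DecidableEq α] (b : α → Bool) (Ψ : (α → Bool) → ℝ) :
    ∑ w : α → Bool, Ψ (fun v => xor (w v) (b v)) = ∑ w : α → Bool, Ψ w := by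
  have hinv : Function.Involutive (fun (w : α → Bool) (v : α) => xor (w v) (b v)) := by
    intro w
    funext v
    simp
  exact Equiv.sum_comp hinv.toPerm Ψ

theorem sum_restrict (e : ι → Fin s) (Ψ : (ι → Bool) → ℝ) :
    2 ^ Fintype.card ι * ∑ w : ι × Fin s → Bool, Ψ (fun i => w (i, e i)) =
      2 ^ Fintype.card (ι × Fin s) * ∑ u : ι → Bool, Ψ u := by
  have h1 : ∀ u : ι → Bool, ∑ w : ι × Fin s → Bool, Ψ (fun i => w (i, e i)) =
      ∑ w : ι × Fin s → Bool, Ψ (fun i => xor (w (i, e i)) (u i)) := by
    intro u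
    have := sum_shift (fun v : ι × Fin s => if v.2 = e v.1 then u v.1 else false)
      (fun w => Ψ (fun i => w (i, e i)))
    rw [← this]
    refine sum_congr rfl fun w _ => ?_
    simp
  have h2 : ∑ u : ι → Bool, ∑ w : ι × Fin s → Bool, Ψ (fun i => w (i, e i)) =
      2 ^ Fintype.card ι * ∑ w : ι × Fin s → Bool, Ψ (fun i => w (i, e i)) := by
    rw [sum_const, card_univ, Fintype.card_fun, Fintype.card_bool, nsmul_eq_mul]
    push_cast
    rfl
  rw [← h2, sum_congr rfl fun u _ => h1 u, sum_comm]
  have h3 : ∀ w : ι × Fin s → Bool, ∑ u : ι → Bool, Ψ (fun i => xor (w (i, e i)) (u i)) =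
      ∑ u : ι → Bool, Ψ u := by
    intro w
    rw [← sum_shift (fun i => w (i, e i)) Ψ]
    refine sum_congr rfl fun u _ => ?_
    congr 1
    funext i
    rw [Bool.xor_comm]
  rw [sum_congr rfl fun w _ => h3 w, sum_const, card_univ, Fintype.card_fun, Fintype.card_bool,
    nsmul_eq_mul]
  push_cast
  rfl

/-- rows containing a star -/
def rows (I : Finset (ι × Fin s)) : Finset ι := univ.filter (fun i => (row I i).Nonempty)

theorem mem_rows {I : Finset (ι × Fin s)} {i : ι} : i ∈ rows I ↔ (row I i).Nonempty := by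
  simp [rows]

theorem card_rows {I : Finset (ι × Fin s)} (hI : ∀ i, (row I i).card ≤ 1) :
    (rows I).card = I.card := by
  rw [card_eq_sum_row, rows, card_filter]
  refine sum_congr rfl fun i _ => ?_
  have := hI i
  split_ifs with h
  · have := card_pos.2 h; omega
  · rw [not_nonempty_iff_eq_empty.1 h, card_empty]

theorem decide_add_odd (a b : ℕ) :
    decide ((a + b) % 2 = 1) = xor (decide (a % 2 = 1)) (decide (b % 2 = 1)) := by
  rcases Nat.mod_two_eq_zero_or_one a with h | h <;> rcases Nat.mod_two_eq_zero_or_one b with h' | h' <;>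
    simp [Nat.add_mod, h, h']

theorem decide_toNat (b : Bool) : decide (b.toNat % 2 = 1) = b := by
  cases b <;> simp

theorem transfer (hs : 0 < s) {I : Finset (ι × Fin s)} (hI : ∀ i, (row I i).card ≤ 1)
    (a : ι × Fin s → Bool) (g : (ι → Bool) → ℝ) (D : List (Cl (ι × Fin s)))
    (hD : ∀ c ∈ D, c.vars ⊆ I) :
    ∃ (a' : ι → Bool) (D' : List (Cl ι)),
      (∀ c' ∈ D', c'.vars ⊆ rows I ∧ ∃ c ∈ D, c'.vars.card ≤ c.vars.card) ∧
      2 ^ Fintype.card ι * ∑ w, ind D (mix I w a) * g (rowp (mix I w a)) =
        2 ^ Fintype.card (ι × Fin s) *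
          ∑ u, ind D' (mix (rows I) u a') * g (mix (rows I) u a') := by
  classical
  have he : ∀ i, ∃ p : Fin s, i ∈ rows I → row I i = {p} := by
    intro i
    by_cases h : i ∈ rows I
    · have h1 := card_pos.2 (mem_rows.1 h)
      obtain ⟨p, hp⟩ := card_eq_one.1 (le_antisymm (hI i) h1)
      exact ⟨p, fun _ => hp⟩
    · exact ⟨⟨0, hs⟩, fun h' => absurd h' h⟩
  choose e he using he
  set c : ι → Bool := fun i => decide ((∑ p ∈ univ.erase (e i), (a (i, p)).toNat) % 2 = 1) with hc
  -- membership in `I`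
  have hmem : ∀ v ∈ I, v.2 = e v.1 ∧ v.1 ∈ rows I := by
    intro v hv
    have h1 : v.2 ∈ row I v.1 := mem_row.2 hv
    have h2 : v.1 ∈ rows I := mem_rows.2 ⟨_, h1⟩
    rw [he _ h2, mem_singleton] at h1
    exact ⟨h1, h2⟩
  have hmem' : ∀ i ∈ rows I, (i, e i) ∈ I := by
    intro i hi
    rw [← mem_row, he i hi, mem_singleton]
  -- the parities of the mixed assignment
  have hpar : ∀ w, rowp (mix I w a) =
      mix (rows I) (fun i => xor (w (i, e i)) (c i)) (rowp a) := by
    intro w
    funext i
    by_cases hi : i ∈ rows I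
    · have e1 : mix (rows I) (fun i => xor (w (i, e i)) (c i)) (rowp a) i =
          xor (w (i, e i)) (c i) := by unfold mix; rw [if_pos hi]
      rw [e1]
      unfold rowp
      rw [← add_sum_erase univ _ (mem_univ (e i)), decide_add_odd, decide_toNat]
      have e2 : mix I w a (i, e i) = w (i, e i) := by unfold mix; rw [if_pos (hmem' i hi)]
      rw [e2, hc]
      congr 3
      refine congrArg (· % 2) (sum_congr rfl fun p hp => ?_)
      have : (i, p) ∉ I := by
        intro h
        have := (hmem _ h).1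
        exact (ne_of_mem_erase hp) this
      unfold mix
      rw [if_neg this]
    · have e1 : mix (rows I) (fun i => xor (w (i, e i)) (c i)) (rowp a) i = rowp a i := by
        unfold mix; rw [if_neg hi]
      rw [e1]
      unfold rowp
      congr 2
      refine congrArg (· % 2) (sum_congr rfl fun p _ => ?_)
      have : (i, p) ∉ I := by
        intro h
        exact hi (hmem _ h).2
      unfold mix
      rw [if_neg this]
  set D' : List (Cl ι) := D.map (fun cl => ⟨cl.vars.image Prod.fst, fun i => xor (cl.σ (i, e i)) (c i)⟩)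
    with hD'
  have hind : ∀ w, ind D (mix I w a) =
      ind D' (mix (rows I) (fun i => xor (w (i, e i)) (c i)) (rowp a)) := by
    intro w
    unfold ind
    have : (∀ cl ∈ D, cl.Sat (mix I w a)) ↔
        ∀ cl ∈ D', cl.Sat (mix (rows I) (fun i => xor (w (i, e i)) (c i)) (rowp a)) := by
      rw [hD', List.forall_mem_map]
      refine forall₂_congr fun cl hcl => ?_
      unfold Cl.Sat
      constructor
      · rintro ⟨v, hv, hne⟩
        have h1 := hmem v (hD cl hcl hv)
        refine ⟨v.1, mem_image_of_mem _ hv, ?_⟩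
        have hv2 : (v.1, e v.1) = v := Prod.ext rfl h1.1.symm
        unfold mix at hne ⊢
        rw [if_pos (hD cl hcl hv)] at hne
        rw [if_pos h1.2]
        change xor (w (v.1, e v.1)) (c v.1) ≠ xor (cl.σ (v.1, e v.1)) (c v.1)
        rw [hv2]
        intro h
        exact hne (Bool.xor_left_inj.1 h)
      · rintro ⟨i, hi, hne⟩
        obtain ⟨v, hv, rfl⟩ := mem_image.1 hi
        have h1 := hmem v (hD cl hcl hv)
        refine ⟨v, hv, ?_⟩
        have hv2 : (v.1, e v.1) = v := Prod.ext rfl h1.1.symm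
        unfold mix at hne ⊢
        rw [if_pos h1.2] at hne
        change xor (w (v.1, e v.1)) (c v.1) ≠ xor (cl.σ (v.1, e v.1)) (c v.1) at hne
        rw [hv2] at hne
        rw [if_pos (hD cl hcl hv)]
        intro h
        exact hne (by rw [h])
    by_cases h : ∀ cl ∈ D, cl.Sat (mix I w a)
    · rw [if_pos h, if_pos (this.1 h)]
    · rw [if_neg h, if_neg (fun h' => h (this.2 h'))]
  refine ⟨rowp a, D', ?_, ?_⟩
  · intro c' hc'
    obtain ⟨cl, hcl, rfl⟩ := List.mem_map.1 hc'
    refine ⟨?_, cl, hcl, card_image_le⟩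
    intro i hi
    obtain ⟨v, hv, rfl⟩ := mem_image.1 hi
    exact (hmem v (hD cl hcl hv)).2
  · have h1 : ∀ w, ind D (mix I w a) * g (rowp (mix I w a)) =
        (fun u : ι → Bool => ind D' (mix (rows I) (fun i => xor (u i) (c i)) (rowp a)) *
          g (mix (rows I) (fun i => xor (u i) (c i)) (rowp a))) (fun i => w (i, e i)) := by
      intro w
      rw [hind, hpar]
    have h2 := sum_restrict e (fun u : ι → Bool => ind D' (mix (rows I) (fun i => xor (u i) (c i))
      (rowp a)) * g (mix (rows I) (fun i => xor (u i) (c i)) (rowp a)))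
    have h3 := sum_shift c (fun u => ind D' (mix (rows I) u (rowp a)) * g (mix (rows I) u (rowp a)))
    rw [sum_congr rfl fun w _ => h1 w, ← h3]
    exact h2

end

end Crest.Agent.R291
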