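import Mathlib
import Crest.Agent.R291.Defs
import Crest.Agent.R291.Block
import Crest.Agent.R291.Transfer
import Crest.Agent.R291.Width

/-!
# R291 / Reduction (helper935): block reduction
-/

set_option autoImplicit false

namespace Crest.Agent.R291

open Finset

theorem abs_ind_mul_le {V : Type} (F : List (Cl V)) (w : V → Bool) {x : ℝ} (hx : |x| ≤ 1) :
    |ind F w * x| ≤ 1 := by
  unfold ind
  split_ifs
  · rwa [one_mul]
  · rw [zero_mul, abs_zero]; exact zero_le_one

theorem abs_neg_one_pow_le (n : ℕ) : |(-1 : ℝ) ^ n| ≤ 1 := by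
  rw [abs_pow, abs_neg, abs_one, one_pow]

/-- **T4** -/
theorem block_reduction (T d s : ℕ) (hs : 1 ≤ s) (q : ℝ) (hq0 : 0 < q) (hq1 : q < 1) (k j m0 : ℕ)
    (hj : 1 ≤ j)
    (hkj : ∑ t ∈ Finset.Icc j k, (k.choose t : ℝ) * (q / (s * (1 - q))) ^ t ≤ 1)
    (Y : Fin T → Fin d → Fin d → Bool) (ε : ℝ) (hε : 0 ≤ ε)
    (hrow : ∀ R : Finset (Fin T × Fin d), m0 ≤ R.card → ∀ a : Fin T × Fin d → Bool,
      ∀ D : List (Cl (Fin T × Fin d)), (∀ c ∈ D, c.vars ⊆ R ∧ c.vars.card < j) →
      |∑ u, ind D (mix R u a) * (-1 : ℝ) ^ (cnt Y (mix R u a))| ≤ 2 ^ (T * d) * ε)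
    (F : List (Cl ((Fin T × Fin d) × Fin s))) (hF : ∀ c ∈ F, c.vars.card ≤ k) :
    |∑ w, ind F w * (-1 : ℝ) ^ (cnt Y (rowp w))| ≤
      2 ^ (T * d * s) * (ε + 2 ^ m0 * (1 - q / 2) ^ (T * d)) := by
  classical
  have hcardι : Fintype.card (Fin T × Fin d) = T * d := by simp
  have hcardV : Fintype.card ((Fin T × Fin d) × Fin s) = T * d * s := by simp
  have hs' : 0 < s := hs
  have h1q : 0 < 1 - q := by linarith
  set μ : Finset ((Fin T × Fin d) × Fin s) → ℝ := blockMu q with hμdef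
  have hμ0 : ∀ I, 0 ≤ μ I := fun I => blockMu_nonneg hq0.le hq1.le I
  set S : Finset ((Fin T × Fin d) × Fin s) → ℝ :=
    fun I => if μ I = 0 ∨ I.card < m0 then 2 ^ (T * d * s) else 2 ^ (T * d * s) * ε with hS
  have hbound : ∀ (I : Finset ((Fin T × Fin d) × Fin s)) (a : (Fin T × Fin d) × Fin s → Bool)
      (D : List (Cl ((Fin T × Fin d) × Fin s))), (∀ c ∈ D, c.vars ⊆ I ∧ c.vars.card < j) →
      |∑ w, ind D (mix I w a) * (fun w => (-1 : ℝ) ^ (cnt Y (rowp w))) (mix I w a)| ≤
        (fun I (_ : (Fin T × Fin d) × Fin s → Bool) => S I) I a := by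
    intro I a D hD
    simp only [hS]
    split_ifs with h
    · calc |∑ w, ind D (mix I w a) * (-1 : ℝ) ^ (cnt Y (rowp (mix I w a)))|
          ≤ ∑ w : (Fin T × Fin d) × Fin s → Bool,
              |ind D (mix I w a) * (-1 : ℝ) ^ (cnt Y (rowp (mix I w a)))| := abs_sum_le_sum_abs _ _
        _ ≤ ∑ w : (Fin T × Fin d) × Fin s → Bool, (1 : ℝ) :=
            sum_le_sum fun w _ => abs_ind_mul_le _ _ (abs_neg_one_pow_le _)
        _ = 2 ^ (T * d * s) := by
            rw [sum_const, card_univ, Fintype.card_fun, Fintype.card_bool, hcardV, nsmul_eq_mul,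
              mul_one]
            push_cast
            rfl
    · push Not at h
      have hI : ∀ i, (row I i).card ≤ 1 := row_card_le_of_blockMu_ne_zero h.1
      obtain ⟨a', D', hD', he⟩ := transfer hs' hI a (fun z => (-1 : ℝ) ^ (cnt Y z)) D
        (fun c hc => (hD c hc).1)
      have h2 := hrow (rows I) (by rw [card_rows hI]; exact h.2) a' D' (fun c hc => by
        obtain ⟨h3, c', hc', h4⟩ := hD' c hc
        exact ⟨h3, lt_of_le_of_lt h4 (hD c' hc').2⟩)
      rw [hcardι, hcardV] at he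
      have h5 : (0 : ℝ) < 2 ^ (T * d) := by positivity
      have h6 : (0 : ℝ) < 2 ^ (T * d * s) := by positivity
      have h7 := congrArg abs he
      rw [abs_mul, abs_mul, abs_of_pos h5, abs_of_pos h6] at h7
      have h8 : 2 ^ (T * d) * |∑ w, ind D (mix I w a) * (-1 : ℝ) ^ (cnt Y (rowp (mix I w a)))| ≤
          2 ^ (T * d) * (2 ^ (T * d * s) * ε) := by
        rw [h7]
        calc 2 ^ (T * d * s) * |∑ u, ind D' (mix (rows I) u a') *
              (-1 : ℝ) ^ (cnt Y (mix (rows I) u a'))| ≤ 2 ^ (T * d * s) * (2 ^ (T * d) * ε) := by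
              gcongr
          _ = _ := by ring
      exact le_of_mul_le_mul_left h8 h5
  have key := width_reduction μ hμ0 (q / (s * (1 - q))) (by positivity)
    (fun I v hv => blockMu_insert_le hq0.le hq1 I v hv) k j hj hkj
    (fun w => (-1 : ℝ) ^ (cnt Y (rowp w))) (fun I _ => S I) hbound F hF
  have hsum1 : ∑ I, μ I = 1 := sum_blockMu hs' q
  rw [hsum1, one_mul, hcardV] at key
  have h6 : (0 : ℝ) < 2 ^ (T * d * s) := by positivity
  have h9 : ∑ I, ∑ _a : (Fin T × Fin d) × Fin s → Bool, μ I * S I =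
      2 ^ (T * d * s) * ∑ I, μ I * S I := by
    rw [mul_sum]
    refine sum_congr rfl fun I _ => ?_
    rw [sum_const, card_univ, Fintype.card_fun, Fintype.card_bool, hcardV, nsmul_eq_mul]
    push_cast
    rfl
  rw [h9] at key
  have key2 := le_of_mul_le_mul_left key h6
  refine key2.trans ?_
  have h10 : ∀ I, μ I * S I ≤ 2 ^ (T * d * s) * (μ I * ε) +
      2 ^ (T * d * s) * (if I.card < m0 then μ I else 0) := by
    intro I
    have hμI := hμ0 I
    simp only [hS]
    by_cases h1 : μ I = 0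
    · rw [h1]; simp
    · by_cases h2 : I.card < m0
      · rw [if_pos (Or.inr h2), if_pos h2]
        have : 0 ≤ 2 ^ (T * d * s) * (μ I * ε) := by positivity
        linarith
      · rw [if_neg (by tauto), if_neg h2]
        apply le_of_eq; ring
  calc ∑ I, μ I * S I ≤ ∑ I, (2 ^ (T * d * s) * (μ I * ε) +
        2 ^ (T * d * s) * (if I.card < m0 then μ I else 0)) := sum_le_sum fun I _ => h10 I
    _ = 2 ^ (T * d * s) * (ε + ∑ I : Finset ((Fin T × Fin d) × Fin s) with I.card < m0, μ I) := by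
        rw [sum_add_distrib, ← mul_sum, ← mul_sum, ← sum_mul, hsum1, one_mul, ← mul_add,
          sum_filter]
    _ ≤ _ := by
        have := blockMu_tail (ι := Fin T × Fin d) hs' hq0.le hq1.le m0
        rw [hcardι] at this
        gcongr

end Crest.Agent.R291
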