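import Crest.Agent.R291.Param
import Crest.Agent.R291.Reduction
import Crest.Agent.R291.Circ

/-!
Row 291 (S0440), part T5: final assembly.
-/

set_option autoImplicit false

namespace Crest.Agent.R291

open Finset

/-- The input of T3b. -/
def GoodStatement : Prop :=
  ∀ (j : ℕ) (c0 : ℝ), 0 < c0 → ∃ g0 : ℕ, ∀ g ≥ g0,
    ∃ Y : Fin (g ^ 2) → Fin (g ^ 4) → Fin (g ^ 4) → Bool,
      ∀ (R : Finset (Fin (g ^ 2) × Fin (g ^ 4))), c0 * g ^ 5 ≤ R.card →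
        ∀ (a : Fin (g ^ 2) × Fin (g ^ 4) → Bool) (D : List (Cl (Fin (g ^ 2) × Fin (g ^ 4)))),
          (∀ c ∈ D, c.vars ⊆ R ∧ c.vars.card < j) →
          |∑ u, ind D (mix R u a) * (-1 : ℝ) ^ (cnt Y (mix R u a))| ≤
            2 ^ (g ^ 6) * (2 : ℝ) ^ (-(R.card : ℝ) / 32)

/-- The input of the index part. -/
def IndexStatement : Prop :=
  ∀ (n : ℕ) (Y : Fin (gpar n ^ 2) → Fin (gpar n ^ 4) → Fin (gpar n ^ 4) → Bool),
    ∃ (ι : (Fin (gpar n ^ 2) × Fin (gpar n ^ 4)) × Fin (gpar n ^ 4) → Fin n)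
      (x : ((Fin (gpar n ^ 2) × Fin (gpar n ^ 4)) × Fin (gpar n ^ 4) → Bool) → Fin n → Bool)
      (rest : Fin n → Bool), (∀ w v, x w (ι v) = w v) ∧
        (∀ w i, i ∉ Set.range ι → x w i = rest i) ∧
        ∀ w, (List.ofFn (x w) ∈ Lang ↔ cnt Y (rowp w) % 2 = 1)

theorem neg_one_pow_eq_iff (m : ℕ) :
    ((m % 2 = 1) → (-1 : ℝ) ^ m = -1) ∧ (¬ (m % 2 = 1) → (-1 : ℝ) ^ m = 1) := by
  constructor
  · intro h
    exact Odd.neg_one_pow (Nat.odd_iff.mpr h)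
  · intro h
    exact Even.neg_one_pow (Nat.even_iff.mpr (by omega))

theorem depth3_bound (hgood : GoodStatement) (hindex : IndexStatement) (A : ℝ) (hA : 0 < A) :
    ∃ N : ℕ, ∀ n ≥ N, ∀ c : Crest.Depth3.Circuit n,
      (∀ x : Fin n → Bool, c.eval x ↔ List.ofFn x ∈ Lang) →
        (2 : ℝ) ^ (A * Real.sqrt n) < (c.size : ℝ) := by
  -- constants
  obtain ⟨A', hA'⟩ : ∃ A' : ℕ, 46 * A ≤ A' := exists_nat_ge _
  obtain ⟨K, hK⟩ : ∃ K : ℕ, K = 2 * A' + 4 := ⟨_, rfl⟩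
  obtain ⟨C, hC⟩ : ∃ C : ℕ, C = 32 * (A' + 5) := ⟨_, rfl⟩
  obtain ⟨j, hj1, hj⟩ := exists_tail (8 * C * K) (by positivity)
  have hCpos : 0 < C := by omega
  have hCR : (0 : ℝ) < C := by exact_mod_cast hCpos
  obtain ⟨g0, hg0⟩ := hgood j C hCR
  obtain ⟨g1, hg1⟩ : ∃ g1 : ℕ, g1 = max g0 (8 * C + 1) := ⟨_, rfl⟩
  refine ⟨2 * g1 ^ 10, fun n hn c hc => ?_⟩
  -- the parameter g
  have hgn : g1 ≤ gpar n := le_gpar hn
  have hsq := sqrt_le_gpar n (by omega)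
  obtain ⟨Y, hY⟩ := hg0 (gpar n) (by omega)
  obtain ⟨ι, x, rest, hx, hrest, hlang⟩ := hindex n Y
  generalize gpar n = g at *
  have hg1' : 8 * C + 1 ≤ g := by
    have := le_max_right g0 (8 * C + 1)
    omega
  have hgpos : 1 ≤ g := by omega
  have hgR : (0 : ℝ) < g := by exact_mod_cast hgpos
  have hg5 : 1 ≤ g ^ 5 := Nat.one_le_pow _ _ hgpos
  -- the measure
  have h8C : (8 * C : ℝ) ≤ g := by
    have : 8 * C ≤ g := by omega
    exact_mod_cast this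
  obtain ⟨q, hq⟩ : ∃ q : ℝ, q = 4 * C / g := ⟨_, rfl⟩
  have hq0 : 0 < q := by rw [hq]; positivity
  have hq2 : q ≤ 1 / 2 := by
    rw [hq, div_le_div_iff₀ hgR (by norm_num)]
    linarith
  have hq1 : q < 1 := by linarith
  obtain ⟨ε, hε⟩ : ∃ ε : ℝ, ε = ((2 : ℝ) ^ ((A' + 5) * g ^ 5))⁻¹ := ⟨_, rfl⟩
  have hε0 : 0 ≤ ε := by rw [hε]; positivity
  obtain ⟨δ, hδ⟩ : ∃ δ : ℝ, δ = ε + 2 ^ (C * g ^ 5) * (1 - q / 2) ^ (g ^ 2 * g ^ 4) := ⟨_, rfl⟩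
  have hkj : ∑ t ∈ Finset.Icc j (K * g ^ 5),
      ((K * g ^ 5).choose t : ℝ) * (q / ((g ^ 4 : ℕ) * (1 - q))) ^ t ≤ 1 := by
    apply choose_sum_le (8 * C * K) _ _ _ _ _ (hj _)
    · have : 0 < 1 - q := by linarith
      positivity
    · push_cast
      have h1q : 0 < 1 - q := by linarith
      have : (K * (g : ℝ) ^ 5) * (q / ((g : ℝ) ^ 4 * (1 - q))) = 4 * C * K / (1 - q) := by
        rw [hq]
        field_simp
      rw [this, div_le_iff₀ h1q]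
      have : 0 ≤ (C : ℝ) * K := by positivity
      nlinarith
  have hrow : ∀ R : Finset (Fin (g ^ 2) × Fin (g ^ 4)), C * g ^ 5 ≤ R.card →
      ∀ a : Fin (g ^ 2) × Fin (g ^ 4) → Bool, ∀ D : List (Cl (Fin (g ^ 2) × Fin (g ^ 4))),
      (∀ c ∈ D, c.vars ⊆ R ∧ c.vars.card < j) →
      |∑ u, ind D (mix R u a) * (-1 : ℝ) ^ (cnt Y (mix R u a))| ≤
        2 ^ (g ^ 2 * g ^ 4) * ε := by
    intro R hR a D hD
    have h1 := hY R (by exact_mod_cast hR) a D hD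
    rw [show g ^ 2 * g ^ 4 = g ^ 6 by ring]
    refine h1.trans ?_
    gcongr
    rw [hε, ← Real.rpow_natCast, ← Real.rpow_neg (by norm_num)]
    apply Real.rpow_le_rpow_of_exponent_le (by norm_num)
    have h2 : ((C * g ^ 5 : ℕ) : ℝ) ≤ R.card := by exact_mod_cast hR
    rw [hC] at h2
    push_cast at h2 ⊢
    linarith
  have hF := block_reduction (g ^ 2) (g ^ 4) (g ^ 4) (Nat.one_le_pow _ _ hgpos) q hq0 hq1
    (K * g ^ 5) j (C * g ^ 5) hj1 hkj Y ε hε0 hrow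
  -- the circuit inequality
  have hmain := circuit_bound c ι x hx rest hrest (fun w => (-1 : ℝ) ^ (cnt Y (rowp w))) (by
      intro w
      have h1 := neg_one_pow_eq_iff (cnt Y (rowp w))
      rw [hc, hlang]
      exact h1) (K * g ^ 5) δ (by
      intro F hFk
      have h1 := hF F hFk
      have h2 : Fintype.card ((Fin (g ^ 2) × Fin (g ^ 4)) × Fin (g ^ 4)) =
          g ^ 2 * g ^ 4 * g ^ 4 := by simp
      rw [h2, mul_comm δ, hδ]
      exact h1)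
  -- bounds on δ
  have htail : 2 ^ (C * g ^ 5) * (1 - q / 2) ^ (g ^ 2 * g ^ 4) ≤ ε := by
    have h1 := tail_le C g hgpos (by omega)
    rw [show g ^ 2 * g ^ 4 = g ^ 6 by ring, hq]
    refine h1.trans ?_
    rw [hε]
    gcongr
    · norm_num
    · rw [hC]; omega
  have hδ1 : δ ≤ ((2 : ℝ) ^ ((A' + 4) * g ^ 5))⁻¹ := by
    have h1 : δ ≤ 2 * ε := by rw [hδ]; linarith
    refine h1.trans ?_
    rw [hε]
    have h2 : (2 : ℝ) ^ ((A' + 5) * g ^ 5) = 2 ^ ((A' + 4) * g ^ 5) * 2 ^ (g ^ 5) := by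
      rw [← pow_add]; congr 1; ring
    have h3 : (2 : ℝ) ≤ 2 ^ (g ^ 5) := by
      calc (2 : ℝ) = 2 ^ 1 := by norm_num
        _ ≤ 2 ^ (g ^ 5) := pow_le_pow_right₀ (by norm_num) hg5
    rw [h2, mul_inv, ← mul_assoc, mul_comm (2 : ℝ) _, mul_assoc]
    have h4 : (2 : ℝ) * (2 ^ (g ^ 5))⁻¹ ≤ 1 := by
      rw [← div_eq_mul_inv, div_le_one (by positivity)]
      exact h3
    have h5 : (0 : ℝ) ≤ (2 ^ ((A' + 4) * g ^ 5))⁻¹ := by positivity
    nlinarith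
  -- suppose the circuit is small
  by_contra hcon
  push Not at hcon
  obtain ⟨Z, hZ⟩ : ∃ Z : ℝ, Z = (2 : ℝ) ^ (A' * g ^ 5) := ⟨_, rfl⟩
  have hZpos : 0 < Z := by rw [hZ]; positivity
  have hsize : (c.size : ℝ) ≤ Z := by
    refine hcon.trans ?_
    rw [hZ, ← Real.rpow_natCast]
    apply Real.rpow_le_rpow_of_exponent_le (by norm_num)
    push_cast
    have h1 : A * Real.sqrt n ≤ A * (46 * (g : ℝ) ^ 5) := by gcongr
    have h2 : (0 : ℝ) ≤ (g : ℝ) ^ 5 := by positivity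
    nlinarith
  have hsz : (c.bot : ℝ) + c.mid + 1 ≤ Z := by
    have : (c.size : ℝ) = c.bot + c.mid + 1 := by
      unfold Crest.Depth3.Circuit.size
      push_cast
      ring
    rwa [this] at hsize
  have hbot : (c.bot : ℝ) ≤ Z := by
    have : (0 : ℝ) ≤ c.mid := Nat.cast_nonneg _
    linarith
  have hmid : (c.mid : ℝ) ≤ Z := by
    have : (0 : ℝ) ≤ c.bot := Nat.cast_nonneg _
    linarith
  have hp4 : (16 : ℝ) ≤ 2 ^ (4 * g ^ 5) := by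
    calc (16 : ℝ) = 2 ^ 4 := by norm_num
      _ ≤ 2 ^ (4 * g ^ 5) := pow_le_pow_right₀ (by norm_num) (by omega)
  have hp4' : (0 : ℝ) < 2 ^ (4 * g ^ 5) := by positivity
  have e1 : ((2 : ℝ) ^ ((A' + 4) * g ^ 5)) = Z * 2 ^ (4 * g ^ 5) := by
    rw [hZ, ← pow_add]; congr 1; ring
  have e2 : ((2 : ℝ) ^ (K * g ^ 5)) = Z * Z * 2 ^ (4 * g ^ 5) := by
    rw [hZ, ← pow_add, ← pow_add]; congr 1; rw [hK]; ring
  have hδ2 : δ ≤ 1 / 16 := by
    refine hδ1.trans ?_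
    rw [e1]
    have hZ1 : 1 ≤ Z := by
      rw [hZ]; exact one_le_pow₀ (by norm_num)
    rw [one_div]
    gcongr
    nlinarith
  have hδ0 : 0 ≤ δ := by
    have h1 : 0 ≤ 1 - q / 2 := by linarith
    rw [hδ]
    positivity
  have hm1 : (c.mid : ℝ) * δ ≤ 1 / 16 := by
    calc (c.mid : ℝ) * δ ≤ Z * (Z * 2 ^ (4 * g ^ 5))⁻¹ := by
          rw [← e1]
          gcongr
      _ = (2 ^ (4 * g ^ 5))⁻¹ := by field_simp
      _ ≤ 1 / 16 := by
          rw [one_div]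
          gcongr
  have hm2 : (c.mid : ℝ) * (c.bot / 2 ^ (K * g ^ 5)) ≤ 1 / 16 := by
    calc (c.mid : ℝ) * (c.bot / 2 ^ (K * g ^ 5)) ≤ Z * (Z / 2 ^ (K * g ^ 5)) := by
          gcongr
      _ = (2 ^ (4 * g ^ 5))⁻¹ := by rw [e2]; field_simp
      _ ≤ 1 / 16 := by
          rw [one_div]
          gcongr
  have : (1 - δ) / 2 ≤ 1 / 8 := by
    refine hmain.trans ?_
    rw [mul_add]
    linarith
  linarith

end Crest.Agent.R291
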