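import Crest.Agent.R291.Defs
import Crest.Agent.Lib.PT.Alphabet
import Crest.Agent.Lib.PT.ArithMore

/-!
Row 291 (S0440), T6: the hard language is in P.
-/

set_option autoImplicit false

namespace Crest.Agent.R291

open Finset Crest.Agent.Lib.PT

theorem le_gpar_iff (n m : ℕ) : m ≤ gpar n ↔ 2 * m ^ 10 ≤ n := by
  unfold gpar
  constructor
  · intro h
    have h0 : 2 * (Nat.findGreatest (fun g => 2 * g ^ 10 ≤ n) n) ^ 10 ≤ n :=
      Nat.findGreatest_spec (P := fun g => 2 * g ^ 10 ≤ n) (m := 0) (Nat.zero_le _) (by simp)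
    exact (Nat.mul_le_mul_left 2 (Nat.pow_le_pow_left h 10)).trans h0
  · intro h
    refine Nat.le_findGreatest ?_ h
    have h1 : m ≤ m ^ 10 := Nat.le_self_pow (by norm_num) m
    omega

theorem gpar_le (n : ℕ) : gpar n ≤ n := Nat.findGreatest_le n

variable {α : Type} [PTCode α]

theorem ptf_gpar : PTF (fun w : List Bool => gpar w.length) := by
  have h1 : PTPred (fun p : List Bool × ℕ => 2 * p.2 ^ 10 ≤ p.1.length) := by
    refine PTPred.natLe ?_ ?_
    · exact PTF.natMul (PTF.const 2) (PTF.natPowConst PTF.snd 10)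
    · exact PTU.toPTF (PTU.length PTF.fst)
  refine PTF.natOfLe (h1.of_iff fun p => (le_gpar_iff _ _).symm) ?_
  have hl : PB (fun w : List Bool => w.length) := PTU.pb (PTU.length PTF.id)
  refine PB.mono hl fun w => ?_
  have h2 := gpar_le w.length
  have h3 : (gpar w.length).size ≤ gpar w.length := by
    rw [Nat.size_le]
    exact Nat.lt_two_pow_self
  exact h3.trans h2

theorem ptu_gpar : PTU (fun w : List Bool => gpar w.length) := by
  refine PTF.toPTU ptf_gpar ?_
  have hl : PB (fun w : List Bool => w.length) := PTU.pb (PTU.length PTF.id)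
  exact PB.mono hl fun w => gpar_le _

theorem ptf_bitAt {w : α → List Bool} {i : α → ℕ} (hw : PTF w) (hi : PTF i) :
    PTF (fun a => bitAt (w a) (i a)) := by
  have h1 : PTU (fun a => min (i a) (w a).length) := PTF.natMinUn hi (PTU.length hw)
  have h2 : PTF (fun a => (w a).getD (min (i a) (w a).length) false) :=
    PTF.getD h1 hw (PTF.const false)
  have h3 : PTF (fun a => bif (w a).getD (min (i a) (w a).length) false then (1 : ℕ) else 0) :=
    PTF.cond h2 (PTF.const 1) (PTF.const 0)
  refine h3.of_eq fun a => ?_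
  unfold bitAt
  have h4 : (w a).getD (min (i a) (w a).length) false = (w a).getD (i a) false := by
    rcases le_or_gt (w a).length (i a) with h | h
    · rw [min_eq_right h, List.getD_eq_default _ _ le_rfl, List.getD_eq_default _ _ h]
    · rw [min_eq_left h.le]
  rw [h4]
  cases (w a).getD (i a) false <;> rfl

theorem ptf_rowPar {w : α → List Bool} {l i : α → ℕ} (hw : PTF w) (hl : PTF l) (hi : PTF i) :
    PTF (fun a => rowPar (w a) (gpar (w a).length) (l a) (i a)) := by
  have hg : PTU (fun a => gpar (w a).length) :=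
    PTU.comp (n := fun w : List Bool => gpar w.length) ptu_gpar hw
  have hg' : PTF (fun a => gpar (w a).length) := PTU.toPTF hg
  have hf : PTF (fun p : α × ℕ =>
      bitAt (w p.1) ((l p.1 * gpar (w p.1).length ^ 4 + i p.1) * gpar (w p.1).length ^ 4 + p.2)) := by
    refine ptf_bitAt (PTF.comp hw PTF.fst) ?_
    have a1 : PTF (fun p : α × ℕ => gpar (w p.1).length ^ 4) :=
      PTF.natPowConst (PTF.comp hg' PTF.fst) 4
    have a2 : PTF (fun p : α × ℕ => l p.1) := PTF.comp hl PTF.fst
    have a3 : PTF (fun p : α × ℕ => i p.1) := PTF.comp hi PTF.fst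
    exact PTF.natAdd (PTF.natMul (PTF.natAdd (PTF.natMul a2 a1) a3) a1) PTF.snd
  have h1 := PTF.natSumRange (n := fun a => gpar (w a).length ^ 4)
    (f := fun a p => bitAt (w a) ((l a * gpar (w a).length ^ 4 + i a) * gpar (w a).length ^ 4 + p))
    (PTU.pow hg 4) hf
  exact PTF.natMod h1 (PTF.const 2)

theorem ptf_Hval : PTF Hval := by
  have hg : PTU (fun w : List Bool => gpar w.length) := ptu_gpar
  have hg' : PTF (fun w : List Bool => gpar w.length) := ptf_gpar
  -- innermost term
  have hterm : PTF (fun p : ((List Bool × ℕ) × ℕ) × ℕ =>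
      bitAt p.1.1.1 (gpar p.1.1.1.length ^ 10 +
        ((p.1.1.2 * gpar p.1.1.1.length ^ 4 + p.1.2) * gpar p.1.1.1.length ^ 4 + p.2)) *
      (rowPar p.1.1.1 (gpar p.1.1.1.length) p.1.1.2 p.1.2 *
        rowPar p.1.1.1 (gpar p.1.1.1.length) p.1.1.2 p.2)) := by
    have hw : PTF (fun p : ((List Bool × ℕ) × ℕ) × ℕ => p.1.1.1) := by fun_prop
    have h1 : PTF (fun p : ((List Bool × ℕ) × ℕ) × ℕ => p.1.1.2) := by fun_prop
    have h2 : PTF (fun p : ((List Bool × ℕ) × ℕ) × ℕ => p.1.2) := by fun_prop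
    have h3 : PTF (fun p : ((List Bool × ℕ) × ℕ) × ℕ => p.2) := by fun_prop
    have hgg : PTF (fun p : ((List Bool × ℕ) × ℕ) × ℕ => gpar p.1.1.1.length) :=
      PTF.comp (g := fun w : List Bool => gpar w.length) hg' hw
    refine PTF.natMul (ptf_bitAt hw ?_) (PTF.natMul (ptf_rowPar hw h1 h2) (ptf_rowPar hw h1 h3))
    exact PTF.natAdd (PTF.natPowConst hgg 10) (PTF.natAdd (PTF.natMul (PTF.natAdd
      (PTF.natMul h1 (PTF.natPowConst hgg 4)) h2) (PTF.natPowConst hgg 4)) h3)
  have s1 := PTF.natSumRange (α := (List Bool × ℕ) × ℕ)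
    (n := fun q => gpar q.1.1.length ^ 4)
    (f := fun q i' => bitAt q.1.1 (gpar q.1.1.length ^ 10 +
        ((q.1.2 * gpar q.1.1.length ^ 4 + q.2) * gpar q.1.1.length ^ 4 + i')) *
      (rowPar q.1.1 (gpar q.1.1.length) q.1.2 q.2 * rowPar q.1.1 (gpar q.1.1.length) q.1.2 i'))
    (PTU.pow (PTU.comp (n := fun w : List Bool => gpar w.length)
      (f := fun q : (List Bool × ℕ) × ℕ => q.1.1) hg (by fun_prop)) 4) hterm
  have s2 := PTF.natSumRange (α := List Bool × ℕ)
    (n := fun q => gpar q.1.length ^ 4)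
    (f := fun q i => ∑ i' ∈ range (gpar q.1.length ^ 4), bitAt q.1 (gpar q.1.length ^ 10 +
        ((q.2 * gpar q.1.length ^ 4 + i) * gpar q.1.length ^ 4 + i')) *
      (rowPar q.1 (gpar q.1.length) q.2 i * rowPar q.1 (gpar q.1.length) q.2 i'))
    (PTU.pow (PTU.comp (n := fun w : List Bool => gpar w.length)
      (f := fun q : List Bool × ℕ => q.1) hg (by fun_prop)) 4) s1
  have s3 := PTF.natSumRange (α := List Bool)
    (n := fun w => gpar w.length ^ 2)
    (f := fun w l => ∑ i ∈ range (gpar w.length ^ 4), ∑ i' ∈ range (gpar w.length ^ 4),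
      bitAt w (gpar w.length ^ 10 +
        ((l * gpar w.length ^ 4 + i) * gpar w.length ^ 4 + i')) *
      (rowPar w (gpar w.length) l i * rowPar w (gpar w.length) l i'))
    (PTU.pow hg 2) s2
  exact PTF.natMod s3 (PTF.const 2)

/-- T6 -/
theorem inP_lang : Crest.Complexity.InP Lang := by
  rw [inP_iff]
  have h := PTPred.natEq ptf_Hval (PTF.const (α := List Bool) 1)
  exact h

end Crest.Agent.R291
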