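import Crest.Agent.R291.Defs
import Crest.Agent.R291.Transfer
import Crest.Prelude.Def_Depth3

/-!
Row 291 (S0440), T5b: the input string encoding block bits `w` and seed `Y`.
-/

set_option autoImplicit false

namespace Crest.Agent.R291

open Finset

theorem gpar_spec (n : ℕ) : 2 * gpar n ^ 10 ≤ n := by
  unfold gpar
  exact Nat.findGreatest_spec (P := fun g => 2 * g ^ 10 ≤ n) (Nat.zero_le n) (by simp)

/-- position arithmetic -/
theorem pos_lt {A B C : ℕ} {l i p : ℕ} (hl : l < A) (hi : i < B) (hp : p < C) :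
    (l * B + i) * C + p < A * B * C := by
  have h1 : l * B + i + 1 ≤ A * B := by
    have : (l + 1) * B ≤ A * B := Nat.mul_le_mul_right _ hl
    rw [Nat.add_mul, one_mul] at this
    omega
  have h2 : (l * B + i + 1) * C ≤ A * B * C := Nat.mul_le_mul_right _ h1
  rw [Nat.add_mul (l * B + i), one_mul] at h2
  omega

theorem pos_p {B C : ℕ} {l i p : ℕ} (hp : p < C) : ((l * B + i) * C + p) % C = p := by
  rw [Nat.add_comm, Nat.mul_comm, Nat.add_mul_mod_self_left, Nat.mod_eq_of_lt hp]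

theorem pos_q {B C : ℕ} {l i p : ℕ} (hp : p < C) : ((l * B + i) * C + p) / C = l * B + i := by
  have hC : 0 < C := lt_of_le_of_lt (Nat.zero_le _) hp
  rw [Nat.add_comm, Nat.mul_comm, Nat.add_mul_div_left _ _ hC, Nat.div_eq_of_lt hp, Nat.zero_add]

/-- The input string (as a function on positions). -/
def inputFn (n g : ℕ) (Y : Fin (g ^ 2) → Fin (g ^ 4) → Fin (g ^ 4) → Bool)
    (w : (Fin (g ^ 2) × Fin (g ^ 4)) × Fin (g ^ 4) → Bool) (i : Fin n) : Bool :=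
  let q := i.1 % g ^ 10
  if h : (q / g ^ 4) / g ^ 4 < g ^ 2 ∧ (q / g ^ 4) % g ^ 4 < g ^ 4 ∧ q % g ^ 4 < g ^ 4 then
    if i.1 / g ^ 10 = 0 then w ((⟨_, h.1⟩, ⟨_, h.2.1⟩), ⟨_, h.2.2⟩)
    else if i.1 / g ^ 10 = 1 then Y ⟨_, h.1⟩ ⟨_, h.2.1⟩ ⟨_, h.2.2⟩
    else false
  else false

theorem g_pow (g : ℕ) : g ^ 2 * g ^ 4 * g ^ 4 = g ^ 10 := by ring

/-- value of the input function at the position `(l,i,p)` of the first half -/
theorem inputFn_left (n g : ℕ) (Y : Fin (g ^ 2) → Fin (g ^ 4) → Fin (g ^ 4) → Bool)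
    (w : (Fin (g ^ 2) × Fin (g ^ 4)) × Fin (g ^ 4) → Bool)
    (l : Fin (g ^ 2)) (i p : Fin (g ^ 4)) (h : (l.1 * g ^ 4 + i.1) * g ^ 4 + p.1 < n) :
    inputFn n g Y w ⟨(l.1 * g ^ 4 + i.1) * g ^ 4 + p.1, h⟩ = w ((l, i), p) := by
  have hlt : (l.1 * g ^ 4 + i.1) * g ^ 4 + p.1 < g ^ 10 := by
    rw [← g_pow]; exact pos_lt l.2 i.2 p.2
  have h1 : ((l.1 * g ^ 4 + i.1) * g ^ 4 + p.1) % g ^ 10 = (l.1 * g ^ 4 + i.1) * g ^ 4 + p.1 :=
    Nat.mod_eq_of_lt hlt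
  have h2 : ((l.1 * g ^ 4 + i.1) * g ^ 4 + p.1) / g ^ 10 = 0 := Nat.div_eq_of_lt hlt
  have h3 : ((l.1 * g ^ 4 + i.1) * g ^ 4 + p.1) / g ^ 4 = l.1 * g ^ 4 + i.1 := pos_q p.2
  have h4 : ((l.1 * g ^ 4 + i.1) * g ^ 4 + p.1) % g ^ 4 = p.1 := pos_p p.2
  have h5 : (l.1 * g ^ 4 + i.1) % g ^ 4 = i.1 := by
    rw [Nat.add_comm, Nat.mul_comm, Nat.add_mul_mod_self_left, Nat.mod_eq_of_lt i.2]
  have hC : 0 < g ^ 4 := lt_of_le_of_lt (Nat.zero_le _) i.2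
  have h6 : (l.1 * g ^ 4 + i.1) / g ^ 4 = l.1 := by
    rw [Nat.add_comm, Nat.mul_comm, Nat.add_mul_div_left _ _ hC, Nat.div_eq_of_lt i.2, Nat.zero_add]
  simp only [inputFn, h1, h2, h3, h4, h5, h6]
  rw [dif_pos ⟨l.2, i.2, p.2⟩, if_pos trivial]

/-- value of the input function at the position `(l,i,i')` of the second half -/
theorem inputFn_right (n g : ℕ) (Y : Fin (g ^ 2) → Fin (g ^ 4) → Fin (g ^ 4) → Bool)
    (w : (Fin (g ^ 2) × Fin (g ^ 4)) × Fin (g ^ 4) → Bool)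
    (l : Fin (g ^ 2)) (i p : Fin (g ^ 4))
    (h : g ^ 10 + ((l.1 * g ^ 4 + i.1) * g ^ 4 + p.1) < n) :
    inputFn n g Y w ⟨g ^ 10 + ((l.1 * g ^ 4 + i.1) * g ^ 4 + p.1), h⟩ = Y l i p := by
  have hlt : (l.1 * g ^ 4 + i.1) * g ^ 4 + p.1 < g ^ 10 := by
    rw [← g_pow]; exact pos_lt l.2 i.2 p.2
  have hC0 : 0 < g ^ 10 := lt_of_le_of_lt (Nat.zero_le _) hlt
  have h1 : (g ^ 10 + ((l.1 * g ^ 4 + i.1) * g ^ 4 + p.1)) % g ^ 10 =
      (l.1 * g ^ 4 + i.1) * g ^ 4 + p.1 := by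
    rw [Nat.add_mod_left, Nat.mod_eq_of_lt hlt]
  have h2 : (g ^ 10 + ((l.1 * g ^ 4 + i.1) * g ^ 4 + p.1)) / g ^ 10 = 1 := by
    rw [Nat.add_div_left _ hC0, Nat.div_eq_of_lt hlt]
  have h3 : ((l.1 * g ^ 4 + i.1) * g ^ 4 + p.1) / g ^ 4 = l.1 * g ^ 4 + i.1 := pos_q p.2
  have h4 : ((l.1 * g ^ 4 + i.1) * g ^ 4 + p.1) % g ^ 4 = p.1 := pos_p p.2
  have h5 : (l.1 * g ^ 4 + i.1) % g ^ 4 = i.1 := by
    rw [Nat.add_comm, Nat.mul_comm, Nat.add_mul_mod_self_left, Nat.mod_eq_of_lt i.2]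
  have hC : 0 < g ^ 4 := lt_of_le_of_lt (Nat.zero_le _) i.2
  have h6 : (l.1 * g ^ 4 + i.1) / g ^ 4 = l.1 := by
    rw [Nat.add_comm, Nat.mul_comm, Nat.add_mul_div_left _ _ hC, Nat.div_eq_of_lt i.2, Nat.zero_add]
  simp only [inputFn, h1, h2, h3, h4, h5, h6]
  rw [dif_pos ⟨l.2, i.2, p.2⟩, if_neg (by norm_num), if_pos trivial]

/-- position of the block bit `((l,i),p)` -/
def posFn (n g : ℕ) (hn : 2 * g ^ 10 ≤ n) (v : (Fin (g ^ 2) × Fin (g ^ 4)) × Fin (g ^ 4)) : Fin n :=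
  ⟨(v.1.1.1 * g ^ 4 + v.1.2.1) * g ^ 4 + v.2.1, by
    have := pos_lt v.1.1.2 v.1.2.2 v.2.2
    rw [g_pow] at this
    omega⟩

theorem inputFn_posFn (n g : ℕ) (hn : 2 * g ^ 10 ≤ n)
    (Y : Fin (g ^ 2) → Fin (g ^ 4) → Fin (g ^ 4) → Bool)
    (w : (Fin (g ^ 2) × Fin (g ^ 4)) × Fin (g ^ 4) → Bool)
    (v : (Fin (g ^ 2) × Fin (g ^ 4)) × Fin (g ^ 4)) :
    inputFn n g Y w (posFn n g hn v) = w v :=
  inputFn_left n g Y w v.1.1 v.1.2 v.2 _

/-- outside of the block positions the input does not depend on `w` -/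
theorem inputFn_rest (n g : ℕ) (hn : 2 * g ^ 10 ≤ n)
    (Y : Fin (g ^ 2) → Fin (g ^ 4) → Fin (g ^ 4) → Bool)
    (w w' : (Fin (g ^ 2) × Fin (g ^ 4)) × Fin (g ^ 4) → Bool)
    (i : Fin n) (hi : i ∉ Set.range (posFn n g hn)) :
    inputFn n g Y w i = inputFn n g Y w' i := by
  simp only [inputFn]
  split_ifs with h h0 h1
  · exfalso
    apply hi
    have hg : 0 < g ^ 10 := by
      rcases Nat.eq_zero_or_pos g with hg | hg
      · subst hg
        simp at h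
      · positivity
    have hlt : i.1 < g ^ 10 := by
      rcases (Nat.div_eq_zero_iff).1 h0 with h | h
      · omega
      · exact h
    have hmod : i.1 % g ^ 10 = i.1 := Nat.mod_eq_of_lt hlt
    refine ⟨((⟨_, h.1⟩, ⟨_, h.2.1⟩), ⟨_, h.2.2⟩), ?_⟩
    apply Fin.ext
    simp only [posFn, hmod]
    rw [Nat.div_add_mod', Nat.div_add_mod']
  · rfl
  · rfl
  · rfl

theorem bitAt_ofFn {n : ℕ} (x : Fin n → Bool) (i : ℕ) (hi : i < n) :
    bitAt (List.ofFn x) i = (x ⟨i, hi⟩).toNat := by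
  unfold bitAt
  rw [List.getD_eq_getElem _ _ (by simpa using hi)]
  simp

theorem ofFn_inputFn_mem_Lang (n g : ℕ) (hg : gpar n = g)
    (Y : Fin (g ^ 2) → Fin (g ^ 4) → Fin (g ^ 4) → Bool)
    (w : (Fin (g ^ 2) × Fin (g ^ 4)) × Fin (g ^ 4) → Bool) :
    List.ofFn (inputFn n g Y w) ∈ Lang ↔
      cnt Y (fun ρ => decide ((∑ p, (w (ρ, p)).toNat) % 2 = 1)) % 2 = 1 := by
  have hn : 2 * g ^ 10 ≤ n := hg ▸ gpar_spec n
  have key : Hval (List.ofFn (inputFn n g Y w)) =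
      cnt Y (fun ρ => decide ((∑ p, (w (ρ, p)).toNat) % 2 = 1)) % 2 := by
    unfold Hval
    rw [List.length_ofFn, hg]
    have hrow : ∀ (l : Fin (g ^ 2)) (i : Fin (g ^ 4)),
        rowPar (List.ofFn (inputFn n g Y w)) g l.1 i.1 =
          (decide ((∑ p, (w ((l, i), p)).toNat) % 2 = 1)).toNat := by
      intro l i
      unfold rowPar
      have h1 : ∑ p ∈ range (g ^ 4), bitAt (List.ofFn (inputFn n g Y w))
          ((l.1 * g ^ 4 + i.1) * g ^ 4 + p) = ∑ p : Fin (g ^ 4), (w ((l, i), p)).toNat := by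
        rw [← Fin.sum_univ_eq_sum_range (fun p => bitAt (List.ofFn (inputFn n g Y w))
          ((l.1 * g ^ 4 + i.1) * g ^ 4 + p))]
        refine Finset.sum_congr rfl fun p _ => ?_
        have hlt : (l.1 * g ^ 4 + i.1) * g ^ 4 + p.1 < n := by
          have := pos_lt l.2 i.2 p.2
          rw [g_pow] at this
          omega
        rw [bitAt_ofFn _ _ hlt, inputFn_left]
      rw [h1]
      rcases Nat.mod_two_eq_zero_or_one (∑ p : Fin (g ^ 4), (w ((l, i), p)).toNat) with h | h <;>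
        simp [h]
    congr 1
    unfold cnt
    rw [← Fin.sum_univ_eq_sum_range (fun l => ∑ i ∈ range (g ^ 4), ∑ i' ∈ range (g ^ 4),
      bitAt (List.ofFn (inputFn n g Y w)) (g ^ 10 + ((l * g ^ 4 + i) * g ^ 4 + i')) *
      (rowPar (List.ofFn (inputFn n g Y w)) g l i * rowPar (List.ofFn (inputFn n g Y w)) g l i'))]
    refine Finset.sum_congr rfl fun l _ => ?_
    rw [← Fin.sum_univ_eq_sum_range (fun i => ∑ i' ∈ range (g ^ 4),
      bitAt (List.ofFn (inputFn n g Y w)) (g ^ 10 + ((l.1 * g ^ 4 + i) * g ^ 4 + i')) *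
      (rowPar (List.ofFn (inputFn n g Y w)) g l.1 i * rowPar (List.ofFn (inputFn n g Y w)) g l.1 i'))]
    refine Finset.sum_congr rfl fun i _ => ?_
    rw [← Fin.sum_univ_eq_sum_range (fun i' =>
      bitAt (List.ofFn (inputFn n g Y w)) (g ^ 10 + ((l.1 * g ^ 4 + i.1) * g ^ 4 + i')) *
      (rowPar (List.ofFn (inputFn n g Y w)) g l.1 i.1 *
        rowPar (List.ofFn (inputFn n g Y w)) g l.1 i'))]
    refine Finset.sum_congr rfl fun i' _ => ?_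
    have hlt : g ^ 10 + ((l.1 * g ^ 4 + i.1) * g ^ 4 + i'.1) < n := by
      have := pos_lt l.2 i.2 i'.2
      rw [g_pow] at this
      omega
    rw [bitAt_ofFn _ _ hlt, inputFn_right, hrow l i, hrow l i']
    beta_reduce
    generalize decide ((∑ p, (w ((l, i), p)).toNat) % 2 = 1) = b1
    generalize decide ((∑ p, (w ((l, i'), p)).toNat) % 2 = 1) = b2
    cases Y l i i' <;> cases b1 <;> cases b2 <;> rfl
  show Hval _ = 1 ↔ _
  rw [key]

/-- T5b: the index map. -/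
theorem index_map (n : ℕ) (Y : Fin (gpar n ^ 2) → Fin (gpar n ^ 4) → Fin (gpar n ^ 4) → Bool) :
    ∃ (ι : (Fin (gpar n ^ 2) × Fin (gpar n ^ 4)) × Fin (gpar n ^ 4) → Fin n)
      (x : ((Fin (gpar n ^ 2) × Fin (gpar n ^ 4)) × Fin (gpar n ^ 4) → Bool) → Fin n → Bool)
      (rest : Fin n → Bool), (∀ w v, x w (ι v) = w v) ∧
        (∀ w i, i ∉ Set.range ι → x w i = rest i) ∧
        ∀ w, (List.ofFn (x w) ∈ Lang ↔ cnt Y (rowp w) % 2 = 1) :=
  ⟨posFn n (gpar n) (gpar_spec n), inputFn n (gpar n) Y, inputFn n (gpar n) Y (fun _ => false),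
    fun w v => inputFn_posFn n (gpar n) (gpar_spec n) Y w v,
    fun w i hi => inputFn_rest n (gpar n) (gpar_spec n) Y w _ i hi,
    fun w => ofFn_inputFn_mem_Lang n (gpar n) rfl Y w⟩

end Crest.Agent.R291
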