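import Crest.Agent.R291.Defs

/-!
Row 291 (S0440), part T3: the moment bound (isotropic counting over `F_2`).
-/

set_option autoImplicit false

namespace Crest.Agent.R291

open Finset

/-- Isotropic subspaces of `F_2^n` have dimension at most `n / 2`. -/
theorem isotropic_finrank {ι : Type} [Fintype ι] [DecidableEq ι] (W : Submodule (ZMod 2) (ι → ZMod 2))
    (hW : ∀ x ∈ W, ∀ y ∈ W, ∑ i, x i * y i = 0) :
    2 * Module.finrank (ZMod 2) W ≤ Fintype.card ι := by
  have : Fact (Nat.Prime 2) := ⟨Nat.prime_two⟩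
  have h1 := Subspace.finrank_add_finrank_dualAnnihilator_eq W
  have h2 : Module.finrank (ZMod 2) (ι → ZMod 2) = Fintype.card ι := Module.finrank_fintype_fun_eq_card _
  -- the dot product map
  let φ : (ι → ZMod 2) →ₗ[ZMod 2] Module.Dual (ZMod 2) (ι → ZMod 2) :=
    { toFun := fun x =>
        { toFun := fun y => ∑ i, x i * y i
          map_add' := by
            intro y z
            simp [mul_add, Finset.sum_add_distrib]
          map_smul' := by
            intro c y
            simp only [Pi.smul_apply, smul_eq_mul, RingHom.id_apply, Finset.mul_sum]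
            exact Finset.sum_congr rfl (fun i _ => by ring) }
      map_add' := by
        intro x y
        ext z
        simp [add_mul, Finset.sum_add_distrib]
      map_smul' := by
        intro c x
        ext z
        simp [mul_assoc, Finset.mul_sum] }
  have hφ : ∀ x y, φ x y = ∑ i, x i * y i := fun x y => rfl
  have hinj : Function.Injective φ := by
    intro x y hxy
    funext j
    have := congrArg (fun f => f (Pi.single j 1)) hxy
    simpa [hφ, Pi.single_apply] using this
  have hle : Submodule.map φ W ≤ W.dualAnnihilator := by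
    rintro _ ⟨x, hx, rfl⟩
    rw [Submodule.mem_dualAnnihilator]
    intro y hy
    rw [hφ]
    exact hW x hx y hy
  have h3 : Module.finrank (ZMod 2) (Submodule.map φ W) = Module.finrank (ZMod 2) W :=
    (Submodule.equivMapOfInjective φ hinj W).finrank_eq.symm
  have h4 : Module.finrank (ZMod 2) (Submodule.map φ W) ≤ Module.finrank (ZMod 2) W.dualAnnihilator :=
    Submodule.finrank_mono hle
  omega

/-- A family of pairwise orthogonal (and self-orthogonal) vectors of `F_2^{2t}` is parametrised by `t` vectors and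
coefficients. -/
theorem exists_param {κ : Type} (t : ℕ) (v : κ → Fin (2 * t) → ZMod 2)
    (hv : ∀ a b, ∑ i, v a i * v b i = 0) :
    ∃ (w : Fin t → Fin (2 * t) → ZMod 2) (c : κ → Fin t → ZMod 2),
      ∀ a i, v a i = ∑ j, c a j * w j i := by
  have : Fact (Nat.Prime 2) := ⟨Nat.prime_two⟩
  let W : Submodule (ZMod 2) (Fin (2 * t) → ZMod 2) := Submodule.span (ZMod 2) (Set.range v)
  have hW : ∀ x ∈ W, ∀ y ∈ W, ∑ i, x i * y i = 0 := by
    intro x hx y hy
    induction hx using Submodule.span_induction with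
    | mem x hx =>
      obtain ⟨a, rfl⟩ := hx
      induction hy using Submodule.span_induction with
      | mem y hy =>
        obtain ⟨b, rfl⟩ := hy
        exact hv a b
      | zero => simp
      | add y z _ _ hy hz => simp [mul_add, Finset.sum_add_distrib, hy, hz]
      | smul r y _ hy =>
        have : ∑ i, v a i * (r • y) i = r * ∑ i, v a i * y i := by
          rw [Finset.mul_sum]
          exact Finset.sum_congr rfl (fun i _ => by simp only [Pi.smul_apply, smul_eq_mul]; ring)
        rw [this, hy, mul_zero]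
    | zero => simp
    | add x z _ _ hx hz => simp [add_mul, Finset.sum_add_distrib, hx, hz]
    | smul r x _ hx =>
      have : ∑ i, (r • x) i * y i = r * ∑ i, x i * y i := by
        rw [Finset.mul_sum]
        exact Finset.sum_congr rfl (fun i _ => by simp only [Pi.smul_apply, smul_eq_mul]; ring)
      rw [this, hx, mul_zero]
  have hdim : Module.finrank (ZMod 2) W ≤ t := by
    have := isotropic_finrank W hW
    simp only [Fintype.card_fin] at this
    omega
  let b := Module.finBasis (ZMod 2) W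
  have hrep : ∀ a, ∑ k, b.repr ⟨v a, Submodule.subset_span ⟨a, rfl⟩⟩ k • (b k : Fin (2 * t) → ZMod 2) = v a := by
    intro a
    have h := congrArg (W.subtype) (b.sum_repr ⟨v a, Submodule.subset_span ⟨a, rfl⟩⟩)
    rw [map_sum] at h
    exact h
  refine ⟨fun j => if h : (j : ℕ) < Module.finrank (ZMod 2) W then (b ⟨j, h⟩ : Fin (2 * t) → ZMod 2) else 0,
    fun a j => if h : (j : ℕ) < Module.finrank (ZMod 2) W then
      b.repr ⟨v a, Submodule.subset_span ⟨a, rfl⟩⟩ ⟨j, h⟩ else 0, ?_⟩
  intro a i
  have h1 := congrFun (hrep a) i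
  simp only [Finset.sum_apply, Pi.smul_apply, smul_eq_mul] at h1
  rw [← h1]
  -- compare sums over `Fin (finrank)` and `Fin t`
  rw [← Finset.sum_subset (Finset.subset_univ (Finset.univ.map (Fin.castLEEmb hdim)))]
  · rw [Finset.sum_map]
    refine Finset.sum_congr rfl (fun k _ => ?_)
    have hk : ((Fin.castLEEmb hdim k : Fin t) : ℕ) < Module.finrank (ZMod 2) W := by
      simp
    show _ = (dite _ _ _) * (dite _ _ _ : Fin (2 * t) → ZMod 2) i
    rw [dif_pos hk, dif_pos hk]
    rfl
  · intro j _ hj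
    have hk : ¬ (j : ℕ) < Module.finrank (ZMod 2) W := by
      intro h
      apply hj
      rw [Finset.mem_map]
      exact ⟨⟨j, h⟩, Finset.mem_univ _, by ext; rfl⟩
    show (dite _ _ _) * (dite _ _ _ : Fin (2 * t) → ZMod 2) i = 0
    rw [dif_neg hk, zero_mul]

/-- number of coordinates `k` at which the bits `(l, i)` and `(l, i')` are both set -/
def corr {T d : ℕ} (n : ℕ) (p : Fin n → (Fin T × Fin d → Bool)) (l : Fin T) (i i' : Fin d) : ℕ :=
  ∑ k, (p k (l, i) && p k (l, i')).toNat

theorem sum_cnt {T d : ℕ} (n : ℕ) (Y : Fin T → Fin d → Fin d → Bool) (z : Fin n → (Fin T × Fin d → Bool)) :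
    ∑ k, cnt Y (z k) = ∑ l, ∑ i, ∑ i', corr n z l i i' * (Y l i i').toNat := by
  unfold cnt corr
  rw [Finset.sum_comm]
  refine Finset.sum_congr rfl (fun l _ => ?_)
  rw [Finset.sum_comm]
  refine Finset.sum_congr rfl (fun i _ => ?_)
  rw [Finset.sum_comm]
  refine Finset.sum_congr rfl (fun i' _ => ?_)
  rw [Finset.sum_mul]
  refine Finset.sum_congr rfl (fun k _ => ?_)
  cases Y l i i' <;> cases z k (l, i) <;> cases z k (l, i') <;> rfl

theorem sum_Y {T d : ℕ} (n : ℕ) (z : Fin n → (Fin T × Fin d → Bool)) :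
    ∑ Y : Fin T → Fin d → Fin d → Bool, (-1 : ℝ) ^ (∑ k, cnt Y (z k)) =
      ∏ l, ∏ i, ∏ i', (1 + (-1 : ℝ) ^ corr n z l i i') := by
  have h1 : ∀ l i i', (1 + (-1 : ℝ) ^ corr n z l i i') =
      ∑ y : Bool, (-1 : ℝ) ^ (corr n z l i i' * y.toNat) := by
    intro l i i'
    simp [add_comm]
  simp only [h1]
  simp only [Fintype.prod_sum]
  refine Finset.sum_congr rfl (fun Y _ => ?_)
  rw [sum_cnt]
  simp only [Finset.prod_pow_eq_pow_sum]

/-- The tuples which are isotropic on `R`. -/
noncomputable def isoSet {T d : ℕ} (t : ℕ) (R : Finset (Fin T × Fin d)) :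
    Finset (Fin (2 * t) → (Fin T × Fin d → Bool)) :=
  open Classical in
  Finset.univ.filter (fun p => ∀ l i i', (l, i) ∈ R → (l, i') ∈ R → Even (corr (2 * t) p l i i'))

theorem card_isoSet {T d : ℕ} (t : ℕ) (R : Finset (Fin T × Fin d)) :
    (isoSet t R).card ≤ ((2 ^ (2 * t)) ^ t) ^ T * (2 ^ t) ^ R.card * (2 ^ (2 * t)) ^ (T * d - R.card) := by
  classical
  let P := (Fin T → Fin t → Fin (2 * t) → ZMod 2) × ({x // x ∈ R} → Fin t → ZMod 2) ×
    ({x // x ∈ Rᶜ} → Fin (2 * t) → Bool)
  let F : P → (Fin (2 * t) → (Fin T × Fin d → Bool)) := fun q k x =>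
    if h : x ∈ R then decide ((∑ j, q.2.1 ⟨x, h⟩ j * q.1 x.1 j k) = 1)
    else q.2.2 ⟨x, Finset.mem_compl.2 h⟩ k
  have hsurj : Set.SurjOn F ((Finset.univ : Finset P) : Set P) (isoSet t R : Set _) := by
    intro p hp
    simp only [isoSet, Finset.coe_filter, Finset.mem_univ, true_and, Set.mem_ofPred_eq] at hp
    have hv : ∀ l : Fin T, ∃ (w : Fin t → Fin (2 * t) → ZMod 2) (c : Fin d → Fin t → ZMod 2),
        ∀ a k, (if (l, a) ∈ R then (if p k (l, a) then (1 : ZMod 2) else 0) else 0) = ∑ j, c a j * w j k := by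
      intro l
      refine exists_param t (fun a k => if (l, a) ∈ R then (if p k (l, a) then (1 : ZMod 2) else 0) else 0) ?_
      intro a b
      by_cases ha : (l, a) ∈ R
      · by_cases hb : (l, b) ∈ R
        · have h1 : ∀ k : Fin (2 * t), (if (l, a) ∈ R then (if p k (l, a) then (1 : ZMod 2) else 0) else 0) *
              (if (l, b) ∈ R then (if p k (l, b) then (1 : ZMod 2) else 0) else 0) =
              (((p k (l, a) && p k (l, b)).toNat : ℕ) : ZMod 2) := by
            intro k
            rw [if_pos ha, if_pos hb]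
            cases p k (l, a) <;> cases p k (l, b) <;> simp
          rw [Finset.sum_congr rfl (fun k _ => h1 k), ← Nat.cast_sum]
          exact (ZMod.natCast_eq_zero_iff_even).2 (hp l a b ha hb)
        · exact Finset.sum_eq_zero (fun k _ => by rw [if_neg hb, mul_zero])
      · exact Finset.sum_eq_zero (fun k _ => by rw [if_neg ha, zero_mul])
    choose w c hwc using hv
    refine ⟨⟨w, fun x => c x.1.1 x.1.2, fun x k => p k x.1⟩, Finset.mem_coe.2 (Finset.mem_univ _), ?_⟩
    funext k x
    by_cases hx : x ∈ R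
    · have h2 := hwc x.1 x.2 k
      rw [if_pos (show (x.1, x.2) ∈ R from hx)] at h2
      simp only [F]
      rw [dif_pos hx, ← h2]
      show decide ((if p k x then (1 : ZMod 2) else 0) = 1) = p k x
      cases p k x <;> simp
    · simp only [F]
      rw [dif_neg hx]
  have h3 := Finset.card_le_card_of_surjOn F hsurj
  refine h3.trans (le_of_eq ?_)
  have h4 : Fintype.card {x // x ∈ Rᶜ} = T * d - R.card := by
    rw [Fintype.card_coe, Finset.card_compl, Fintype.card_prod, Fintype.card_fin, Fintype.card_fin]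
  rw [Finset.card_univ]
  simp only [P, Fintype.card_prod, Fintype.card_fun, Fintype.card_fin, ZMod.card, Fintype.card_bool, h4,
    Fintype.card_coe, mul_assoc]

theorem corr_mix {T d : ℕ} (t : ℕ) (R : Finset (Fin T × Fin d)) (a : Fin T × Fin d → Bool)
    (p : Fin (2 * t) → (Fin T × Fin d → Bool)) (l : Fin T) (i i' : Fin d) (hi : (l, i) ∈ R) (hi' : (l, i') ∈ R) :
    corr (2 * t) (fun k => mix R (p k) a) l i i' = corr (2 * t) p l i i' := by
  unfold corr mix
  simp [hi, hi']

/-- T3 -/
theorem moment_bound (T d t : ℕ) (R : Finset (Fin T × Fin d)) (a : Fin T × Fin d → Bool)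
    (G : (Fin T × Fin d → Bool) → ℝ) (hG : ∀ u, |G u| ≤ 1) :
    ∑ Y : Fin T → Fin d → Fin d → Bool, (∑ u, G u * (-1 : ℝ) ^ (cnt Y (mix R u a))) ^ (2 * t)
      ≤ 2 ^ (T * d * d) * 2 ^ (2 * t * (T * d)) * 2 ^ (2 * t ^ 2 * T) / 2 ^ (t * R.card) := by
  classical
  have h1 : ∑ Y : Fin T → Fin d → Fin d → Bool, (∑ u, G u * (-1 : ℝ) ^ (cnt Y (mix R u a))) ^ (2 * t)
      = ∑ p : Fin (2 * t) → (Fin T × Fin d → Bool), (∏ k, G (p k)) *
        ∏ l, ∏ i, ∏ i', (1 + (-1 : ℝ) ^ corr (2 * t) (fun k => mix R (p k) a) l i i') := by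
    simp only [Fintype.sum_pow]
    rw [Finset.sum_comm]
    refine Finset.sum_congr rfl (fun p _ => ?_)
    rw [← sum_Y, Finset.mul_sum]
    refine Finset.sum_congr rfl (fun Y _ => ?_)
    rw [Finset.prod_mul_distrib, Finset.prod_pow_eq_pow_sum]
  rw [h1]
  -- bound for one tuple
  have h2 : ∀ p : Fin (2 * t) → (Fin T × Fin d → Bool), (∏ k, G (p k)) *
        ∏ l, ∏ i, ∏ i', (1 + (-1 : ℝ) ^ corr (2 * t) (fun k => mix R (p k) a) l i i') ≤
        if p ∈ isoSet t R then (2 : ℝ) ^ (T * d * d) else 0 := by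
    intro p
    have hnn : ∀ m : ℕ, 0 ≤ (1 + (-1 : ℝ) ^ m) := by
      intro m
      rcases neg_one_pow_eq_or ℝ m with h | h <;> rw [h] <;> norm_num
    have hle : ∀ m : ℕ, (1 + (-1 : ℝ) ^ m) ≤ 2 := by
      intro m
      rcases neg_one_pow_eq_or ℝ m with h | h <;> rw [h] <;> norm_num
    have hprod : |∏ k, G (p k)| ≤ 1 := by
      rw [Finset.abs_prod]
      exact Finset.prod_le_one (fun k _ => abs_nonneg _) (fun k _ => hG _)
    have hpos : 0 ≤ ∏ l, ∏ i, ∏ i', (1 + (-1 : ℝ) ^ corr (2 * t) (fun k => mix R (p k) a) l i i') :=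
      Finset.prod_nonneg (fun l _ => Finset.prod_nonneg (fun i _ => Finset.prod_nonneg (fun i' _ => hnn _)))
    have hmain : (∏ k, G (p k)) *
        ∏ l, ∏ i, ∏ i', (1 + (-1 : ℝ) ^ corr (2 * t) (fun k => mix R (p k) a) l i i') ≤
        ∏ l, ∏ i, ∏ i', (1 + (-1 : ℝ) ^ corr (2 * t) (fun k => mix R (p k) a) l i i') := by
      refine (mul_le_mul_of_nonneg_right ((le_abs_self _).trans hprod) hpos).trans (le_of_eq (one_mul _))
    refine hmain.trans ?_
    by_cases hp : p ∈ isoSet t R
    · rw [if_pos hp]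
      calc ∏ l, ∏ i, ∏ i', (1 + (-1 : ℝ) ^ corr (2 * t) (fun k => mix R (p k) a) l i i')
          ≤ ∏ l : Fin T, ∏ i : Fin d, ∏ i' : Fin d, (2 : ℝ) := by
            refine Finset.prod_le_prod (fun l _ => Finset.prod_nonneg (fun i _ => Finset.prod_nonneg (fun i' _ => hnn _)))
              (fun l _ => ?_)
            refine Finset.prod_le_prod (fun i _ => Finset.prod_nonneg (fun i' _ => hnn _)) (fun i _ => ?_)
            exact Finset.prod_le_prod (fun i' _ => hnn _) (fun i' _ => hle _)
        _ = 2 ^ (T * d * d) := by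
            simp only [Finset.prod_const, Finset.card_univ, Fintype.card_fin]
            rw [← pow_mul, ← pow_mul]
            congr 1
            ring
    · rw [if_neg hp]
      simp only [isoSet, Finset.mem_filter, Finset.mem_univ, true_and, not_forall] at hp
      obtain ⟨l, i, i', hi, hi', hodd⟩ := hp
      rw [← corr_mix t R a p l i i' hi hi', Nat.not_even_iff_odd] at hodd
      refine le_of_eq (Finset.prod_eq_zero (Finset.mem_univ l) (Finset.prod_eq_zero (Finset.mem_univ i)
        (Finset.prod_eq_zero (Finset.mem_univ i') ?_)))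
      rw [hodd.neg_one_pow]
      norm_num
  refine (Finset.sum_le_sum (fun p _ => h2 p)).trans ?_
  rw [Finset.sum_ite_mem, Finset.univ_inter, Finset.sum_const, nsmul_eq_mul]
  have h5 : R.card ≤ T * d := by
    have := Finset.card_le_univ R
    rwa [Fintype.card_prod, Fintype.card_fin, Fintype.card_fin] at this
  have h6 := card_isoSet t R
  have h7 : ((isoSet t R).card : ℝ) ≤ ((2 ^ (2 * t)) ^ t) ^ T * (2 ^ t) ^ R.card * (2 ^ (2 * t)) ^ (T * d - R.card) := by
    exact_mod_cast h6
  rw [le_div_iff₀ (by positivity)]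
  calc ((isoSet t R).card : ℝ) * 2 ^ (T * d * d) * 2 ^ (t * R.card)
      ≤ (((2 ^ (2 * t)) ^ t) ^ T * (2 ^ t) ^ R.card * (2 ^ (2 * t)) ^ (T * d - R.card)) * 2 ^ (T * d * d) *
          2 ^ (t * R.card) := by gcongr
    _ = 2 ^ (T * d * d) * 2 ^ (2 * t * (T * d)) * 2 ^ (2 * t ^ 2 * T) := by
        have h8 : 2 * t * (T * d) = t * R.card + t * R.card + 2 * t * (T * d - R.card) := by
          obtain ⟨e, he⟩ := Nat.exists_eq_add_of_le h5
          rw [he, Nat.add_sub_cancel_left]
          ring
        rw [h8]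
        simp only [← pow_mul, ← pow_add]
        congr 1
        ring

end Crest.Agent.R291
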