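import Crest.Agent.R291.Defs

/-!
Row 291 (S0440), part T5b: numerical parameters.
-/

set_option autoImplicit false

namespace Crest.Agent.R291

open Finset

theorem gpar_pow_le (n : ℕ) : 2 * gpar n ^ 10 ≤ n := by
  have := Nat.findGreatest_spec (P := fun g => 2 * g ^ 10 ≤ n) (m := 0) (Nat.zero_le n) (by simp)
  exact this

theorem le_gpar {n g : ℕ} (h : 2 * g ^ 10 ≤ n) : g ≤ gpar n := by
  refine Nat.le_findGreatest (P := fun g => 2 * g ^ 10 ≤ n) ?_ h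
  calc g ≤ g ^ 10 := Nat.le_self_pow (by norm_num) g
    _ ≤ 2 * g ^ 10 := by omega
    _ ≤ n := h

theorem lt_gpar_succ (n : ℕ) : n < 2 * (gpar n + 1) ^ 10 := by
  by_contra h
  push Not at h
  have := le_gpar h
  omega

theorem sqrt_le_gpar (n : ℕ) (hg : 1 ≤ gpar n) : Real.sqrt n ≤ 46 * (gpar n : ℝ) ^ 5 := by
  have h1 : (n : ℝ) ≤ (46 * (gpar n : ℝ) ^ 5) ^ 2 := by
    have h2 : n < 2 * (gpar n + 1) ^ 10 := lt_gpar_succ n
    have h3 : 2 * (gpar n + 1) ^ 10 ≤ 2 * (2 * gpar n) ^ 10 := by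
      gcongr
      omega
    have h4 : (n : ℝ) ≤ 2 * (2 * (gpar n : ℝ)) ^ 10 := by
      exact_mod_cast (h2.trans_le h3).le
    calc (n : ℝ) ≤ 2 * (2 * (gpar n : ℝ)) ^ 10 := h4
      _ = 2048 * ((gpar n : ℝ) ^ 5) ^ 2 := by ring
      _ ≤ (46 * (gpar n : ℝ) ^ 5) ^ 2 := by
        have : 0 ≤ ((gpar n : ℝ) ^ 5) ^ 2 := by positivity
        nlinarith
  calc Real.sqrt n ≤ Real.sqrt ((46 * (gpar n : ℝ) ^ 5) ^ 2) := Real.sqrt_le_sqrt h1
    _ = 46 * (gpar n : ℝ) ^ 5 := Real.sqrt_sq (by positivity)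

/-- Tails of the exponential series. -/
theorem exists_tail (κ : ℝ) (hκ : 0 ≤ κ) : ∃ j : ℕ, 1 ≤ j ∧ ∀ k : ℕ,
    ∑ t ∈ Icc j k, κ ^ t / (t.factorial : ℝ) ≤ 1 := by
  have hs := Real.summable_pow_div_factorial κ
  have ht := tendsto_sum_nat_add fun t => κ ^ t / (t.factorial : ℝ)
  have h1 : ∀ᶠ i in Filter.atTop, ∑' t, κ ^ (t + i) / ((t + i).factorial : ℝ) < 1 :=
    ht.eventually (gt_mem_nhds one_pos)
  obtain ⟨j, hj1, hj2⟩ := (h1.and (Filter.eventually_ge_atTop 1)).exists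
  refine ⟨j, hj2, fun k => ?_⟩
  have hs' : Summable fun t => κ ^ (t + j) / ((t + j).factorial : ℝ) :=
    (summable_nat_add_iff (f := fun t => κ ^ t / (t.factorial : ℝ)) j).mpr hs
  have h2 : ∑ t ∈ Icc j k, κ ^ t / (t.factorial : ℝ) =
      ∑ t ∈ range (k + 1 - j), κ ^ (t + j) / ((t + j).factorial : ℝ) := by
    have hI : Icc j k = Ico j (k + 1) := by ext t; simp [Nat.lt_succ_iff]
    rw [hI, sum_Ico_eq_sum_range]
    apply sum_congr rfl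
    intro t _
    rw [add_comm j t]
  rw [h2]
  refine (hs'.sum_le_tsum _ ?_).trans hj1.le
  intro t _
  positivity

theorem choose_sum_le (κ r : ℝ) (hr : 0 ≤ r) (j k : ℕ) (hk : (k : ℝ) * r ≤ κ)
    (h : ∑ t ∈ Icc j k, κ ^ t / (t.factorial : ℝ) ≤ 1) :
    ∑ t ∈ Icc j k, (k.choose t : ℝ) * r ^ t ≤ 1 := by
  refine le_trans (sum_le_sum fun t _ => ?_) h
  calc (k.choose t : ℝ) * r ^ t ≤ ((k : ℝ) ^ t / (t.factorial : ℝ)) * r ^ t := by
        gcongr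
        exact Nat.choose_le_pow_div t k
    _ = ((k : ℝ) * r) ^ t / (t.factorial : ℝ) := by rw [mul_pow]; ring
    _ ≤ κ ^ t / (t.factorial : ℝ) := by gcongr

/-- The tail of the block measure is small. -/
theorem tail_le (C g : ℕ) (hg : 1 ≤ g) (hC : 4 * C ≤ g) :
    (2 : ℝ) ^ (C * g ^ 5) * (1 - (4 * C / g : ℝ) / 2) ^ (g ^ 6) ≤ ((2 : ℝ) ^ (C * g ^ 5))⁻¹ := by
  have hg' : (0 : ℝ) < g := by exact_mod_cast hg
  have hC' : (4 * C : ℝ) ≤ g := by exact_mod_cast hC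
  have h0 : (0 : ℝ) ≤ 1 - (4 * C / g : ℝ) / 2 := by
    have : (4 * C / g : ℝ) ≤ 1 := by rw [div_le_one hg']; exact hC'
    linarith
  have h1 : (1 - (4 * C / g : ℝ) / 2) ≤ Real.exp (-(4 * C / g : ℝ) / 2) := by
    have := Real.add_one_le_exp (-(4 * C / g : ℝ) / 2)
    linarith
  have h2 : (1 - (4 * C / g : ℝ) / 2) ^ (g ^ 6) ≤ Real.exp (-(2 * (C * g ^ 5 : ℕ) : ℝ)) := by
    calc (1 - (4 * C / g : ℝ) / 2) ^ (g ^ 6) ≤ Real.exp (-(4 * C / g : ℝ) / 2) ^ (g ^ 6) := by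
          gcongr
      _ = Real.exp (-(2 * (C * g ^ 5 : ℕ) : ℝ)) := by
        rw [← Real.exp_nat_mul]
        congr 1
        push_cast
        field_simp
        ring
  have h3 : Real.exp (-(2 * (C * g ^ 5 : ℕ) : ℝ)) ≤ (((2 : ℝ) ^ (C * g ^ 5))⁻¹) ^ 2 := by
    have h4 : (2 : ℝ) ≤ Real.exp 1 := by
      have := Real.add_one_le_exp (1 : ℝ)
      linarith
    have h5 : Real.exp (-(2 * (C * g ^ 5 : ℕ) : ℝ)) = ((Real.exp 1 ^ (C * g ^ 5))⁻¹) ^ 2 := by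
      rw [← Real.exp_nat_mul, ← Real.exp_neg, ← Real.exp_nat_mul]
      congr 1
      push_cast
      ring
    rw [h5]
    gcongr
  have hp : (0 : ℝ) < (2 : ℝ) ^ (C * g ^ 5) := by positivity
  calc (2 : ℝ) ^ (C * g ^ 5) * (1 - (4 * C / g : ℝ) / 2) ^ (g ^ 6)
      ≤ (2 : ℝ) ^ (C * g ^ 5) * (((2 : ℝ) ^ (C * g ^ 5))⁻¹) ^ 2 := by
        gcongr
        exact h2.trans h3
    _ = ((2 : ℝ) ^ (C * g ^ 5))⁻¹ := by
        field_simp

end Crest.Agent.R291
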