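import Crest.Agent.R291.Defs

/-!
Row 291 (S0440), T2: sparsification lemma in hypergraph form, with a potential function.
-/

set_option autoImplicit false

namespace Crest.Agent.R291

open Finset

namespace Spars

variable {Λ : Type} [DecidableEq Λ]

/-- number of members of `D` containing `H` with exactly `s` more elements. -/
def deg (D : Finset (Finset Λ)) (H : Finset Λ) (s : ℕ) : ℕ :=
  (D.filter (fun c => H ⊆ c ∧ c.card = H.card + s)).card

/-- weights -/
def W (J Θ s : ℕ) : ℕ := (9 * Θ) ^ (J - s)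

/-- potential -/
def Psi (J Θ : ℕ) (D : Finset (Finset Λ)) : ℕ := ∑ c ∈ D, W J Θ c.card

structure Inv (Λ₀ : Finset Λ) (J Θ : ℕ) (D : Finset (Finset Λ)) : Prop where
  sub : ∀ c ∈ D, c ⊆ Λ₀
  card : ∀ c ∈ D, c.card ≤ J
  ne : ∀ c ∈ D, c.Nonempty
  anti : ∀ c ∈ D, ∀ c' ∈ D, c ⊆ c' → c = c'
  deg : ∀ H : Finset Λ, H.Nonempty → ∀ s, 1 ≤ s → deg D H s ≤ 2 * Θ ^ s

theorem geom (Θ m : ℕ) :
    ∑ s ∈ Icc 1 m, 8 * Θ ^ s * (9 * Θ) ^ (m - s) + Θ ^ m = (9 * Θ) ^ m := by
  induction m with
  | zero => simp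
  | succ m ih =>
    rw [Finset.sum_Icc_succ_top (by omega)]
    have h : ∑ s ∈ Icc 1 m, 8 * Θ ^ s * (9 * Θ) ^ (m + 1 - s) =
        (9 * Θ) * ∑ s ∈ Icc 1 m, 8 * Θ ^ s * (9 * Θ) ^ (m - s) := by
      rw [Finset.mul_sum]
      refine Finset.sum_congr rfl fun s hs => ?_
      have hs2 := (Finset.mem_Icc.mp hs).2
      rw [show m + 1 - s = (m - s) + 1 by omega, pow_succ]
      ring
    rw [h, Nat.sub_self, pow_zero, pow_succ (9 * Θ), ← ih, pow_succ Θ]
    ring

theorem sum_biUnion_le' {ι κ : Type} [DecidableEq κ] (s : Finset ι) (t : ι → Finset κ) (w : κ → ℕ) :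
    ∑ c ∈ s.biUnion t, w c ≤ ∑ x ∈ s, ∑ c ∈ t x, w c := by
  classical
  induction s using Finset.induction_on with
  | empty => simp
  | insert a s ha ih =>
    rw [Finset.biUnion_insert, Finset.sum_insert ha]
    calc ∑ c ∈ t a ∪ s.biUnion t, w c ≤ ∑ c ∈ t a, w c + ∑ c ∈ s.biUnion t, w c := by
          rw [← Finset.sum_union_inter]
          exact Nat.le_add_right _ _
      _ ≤ _ := Nat.add_le_add_left ih _

theorem ite_congr' {p q : Prop} {dp : Decidable p} {dq : Decidable q} {x : ℝ} (h : p ↔ q) :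
    @ite ℝ p dp x 0 = @ite ℝ q dq x 0 := by
  by_cases hp : p
  · rw [if_pos hp, if_pos (h.mp hp)]
  · rw [if_neg hp, if_neg (fun hq => hp (h.mpr hq))]

theorem deg_mono {D D' : Finset (Finset Λ)} (h : D ⊆ D') (H : Finset Λ) (s : ℕ) :
    deg D H s ≤ deg D' H s :=
  Finset.card_le_card (Finset.filter_subset_filter _ h)

theorem W_pos {J Θ s : ℕ} (hΘ : 1 ≤ Θ) : 1 ≤ W J Θ s := Nat.one_le_pow _ _ (by omega)

/-- the weight of the proper supersets of a nonempty set. -/
theorem superset_sum {Λ₀ : Finset Λ} {J Θ : ℕ} {D : Finset (Finset Λ)} (hI : Inv Λ₀ J Θ D)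
    {P₀ : Finset Λ} (hne : P₀.Nonempty) :
    4 * ∑ c ∈ D.filter (fun c => P₀ ⊂ c), W J Θ c.card ≤ W J Θ P₀.card := by
  classical
  set h := P₀.card with hh
  by_cases hJ : h ≤ J
  swap
  · have : D.filter (fun c => P₀ ⊂ c) = ∅ := by
      rw [Finset.filter_eq_empty_iff]
      intro c hc hcc
      have h1 := Finset.card_lt_card hcc
      have h2 := hI.card c hc
      omega
    rw [this]
    simp
  have hmaps : ∀ c ∈ D.filter (fun c => P₀ ⊂ c), c.card - h ∈ Icc 1 (J - h) := by
    intro c hc
    rw [Finset.mem_filter] at hc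
    have h1 := Finset.card_lt_card hc.2
    have h2 := hI.card c hc.1
    rw [Finset.mem_Icc]
    omega
  rw [← Finset.sum_fiberwise_of_maps_to hmaps]
  have hfib : ∀ s ∈ Icc 1 (J - h),
      ∑ c ∈ (D.filter (fun c => P₀ ⊂ c)).filter (fun c => c.card - h = s), W J Θ c.card ≤
        2 * Θ ^ s * (9 * Θ) ^ (J - h - s) := by
    intro s hs
    rw [Finset.mem_Icc] at hs
    have hsub : (D.filter (fun c => P₀ ⊂ c)).filter (fun c => c.card - h = s) ⊆
        D.filter (fun c => P₀ ⊆ c ∧ c.card = P₀.card + s) := by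
      intro c hc
      rw [Finset.mem_filter, Finset.mem_filter] at hc
      rw [Finset.mem_filter]
      have h1 := Finset.card_lt_card hc.1.2
      exact ⟨hc.1.1, hc.1.2.subset, by omega⟩
    calc ∑ c ∈ (D.filter (fun c => P₀ ⊂ c)).filter (fun c => c.card - h = s), W J Θ c.card
        ≤ ∑ c ∈ D.filter (fun c => P₀ ⊆ c ∧ c.card = P₀.card + s), W J Θ c.card :=
          Finset.sum_le_sum_of_subset hsub
      _ = ∑ c ∈ D.filter (fun c => P₀ ⊆ c ∧ c.card = P₀.card + s), (9 * Θ) ^ (J - h - s) := by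
          refine Finset.sum_congr rfl fun c hc => ?_
          rw [Finset.mem_filter] at hc
          unfold W
          congr 1
          omega
      _ = deg D P₀ s * (9 * Θ) ^ (J - h - s) := by
          rw [Finset.sum_const, smul_eq_mul]
          rfl
      _ ≤ 2 * Θ ^ s * (9 * Θ) ^ (J - h - s) :=
          Nat.mul_le_mul_right _ (hI.deg P₀ hne s hs.1)
  calc 4 * ∑ s ∈ Icc 1 (J - h),
        ∑ c ∈ (D.filter (fun c => P₀ ⊂ c)).filter (fun c => c.card - h = s), W J Θ c.card
      ≤ 4 * ∑ s ∈ Icc 1 (J - h), 2 * Θ ^ s * (9 * Θ) ^ (J - h - s) :=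
        Nat.mul_le_mul_left _ (Finset.sum_le_sum hfib)
    _ = ∑ s ∈ Icc 1 (J - h), 8 * Θ ^ s * (9 * Θ) ^ (J - h - s) := by
        rw [Finset.mul_sum]
        refine Finset.sum_congr rfl fun s _ => ?_
        ring
    _ ≤ (9 * Θ) ^ (J - h) := by
        rw [← geom Θ (J - h)]
        exact Nat.le_add_right _ _

/-- insertion of a set: invariant. -/
theorem Inv.insert {Λ₀ : Finset Λ} {J Θ : ℕ} (hΘ : 1 ≤ Θ) {D : Finset (Finset Λ)}
    (hI : Inv Λ₀ J Θ D) {H : Finset Λ} (hne : H.Nonempty) (hsub : H ⊆ Λ₀) (hcard : H.card ≤ J)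
    (hno : ∀ c ∈ D, ¬ c ⊆ H)
    (hdeg : ∀ H' : Finset Λ, H'.Nonempty → ∀ s, 1 ≤ s → H' ⊆ H → H.card = H'.card + s →
      Spars.deg D H' s ≤ Θ ^ s) :
    Inv Λ₀ J Θ (Insert.insert H (D.filter (fun c => ¬ H ⊆ c))) := by
  refine ⟨?_, ?_, ?_, ?_, ?_⟩
  · intro c hc
    rcases Finset.mem_insert.mp hc with rfl | hc
    · exact hsub
    · exact hI.sub c (Finset.mem_filter.mp hc).1
  · intro c hc
    rcases Finset.mem_insert.mp hc with rfl | hc
    · exact hcard
    · exact hI.card c (Finset.mem_filter.mp hc).1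
  · intro c hc
    rcases Finset.mem_insert.mp hc with rfl | hc
    · exact hne
    · exact hI.ne c (Finset.mem_filter.mp hc).1
  · intro c hc c' hc' hcc
    rcases Finset.mem_insert.mp hc with rfl | hc
    · rcases Finset.mem_insert.mp hc' with rfl | hc'
      · rfl
      · exact absurd hcc (Finset.mem_filter.mp hc').2
    · rcases Finset.mem_insert.mp hc' with rfl | hc'
      · exact absurd hcc (hno c (Finset.mem_filter.mp hc).1)
      · exact hI.anti c (Finset.mem_filter.mp hc).1 c' (Finset.mem_filter.mp hc').1 hcc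
  · intro H' hH' s hs
    by_cases hc : H' ⊆ H ∧ H.card = H'.card + s
    · have h1 := hdeg H' hH' s hs hc.1 hc.2
      unfold Spars.deg at h1 ⊢
      calc ((Insert.insert H (D.filter (fun c => ¬ H ⊆ c))).filter
            (fun c => H' ⊆ c ∧ c.card = H'.card + s)).card
          ≤ (Insert.insert H (D.filter (fun c => H' ⊆ c ∧ c.card = H'.card + s))).card := by
            apply Finset.card_le_card
            intro c hc
            rw [Finset.mem_filter, Finset.mem_insert] at hc
            rw [Finset.mem_insert]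
            rcases hc.1 with h | h
            · exact Or.inl h
            · exact Or.inr (Finset.mem_filter.mpr ⟨(Finset.mem_filter.mp h).1, hc.2⟩)
        _ ≤ (D.filter (fun c => H' ⊆ c ∧ c.card = H'.card + s)).card + 1 :=
            Finset.card_insert_le _ _
        _ ≤ Θ ^ s + 1 := Nat.add_le_add_right h1 1
        _ ≤ 2 * Θ ^ s := by
            have : 1 ≤ Θ ^ s := Nat.one_le_pow _ _ hΘ
            omega
    · refine le_trans (Finset.card_le_card ?_) (hI.deg H' hH' s hs)
      intro c hcm
      rw [Finset.mem_filter, Finset.mem_insert] at hcm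
      rcases hcm.1 with h | h
      · subst h
        exact absurd hcm.2 hc
      · exact Finset.mem_filter.mpr ⟨(Finset.mem_filter.mp h).1, hcm.2⟩

/-- insertion of a set: potential. -/
theorem Psi_insert {Λ₀ : Finset Λ} {J Θ : ℕ} {D : Finset (Finset Λ)}
    (hI : Inv Λ₀ J Θ D) {H : Finset Λ} (hne : H.Nonempty) (hno : ∀ c ∈ D, ¬ c ⊆ H) :
    4 * Psi J Θ D + 3 * W J Θ H.card ≤
      4 * Psi J Θ (Insert.insert H (D.filter (fun c => ¬ H ⊆ c))) := by
  have hnot : H ∉ D.filter (fun c => ¬ H ⊆ c) := by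
    intro h
    exact (Finset.mem_filter.mp h).2 (Finset.Subset.refl H)
  have h1 : Psi J Θ (Insert.insert H (D.filter (fun c => ¬ H ⊆ c))) =
      W J Θ H.card + Psi J Θ (D.filter (fun c => ¬ H ⊆ c)) := by
    unfold Psi
    rw [Finset.sum_insert hnot]
  have h2 : Psi J Θ D = Psi J Θ (D.filter (fun c => H ⊆ c)) +
      Psi J Θ (D.filter (fun c => ¬ H ⊆ c)) := by
    unfold Psi
    rw [Finset.sum_filter_add_sum_filter_not]
  have h3 : D.filter (fun c => H ⊆ c) = D.filter (fun c => H ⊂ c) := by
    apply Finset.filter_congr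
    intro c hc
    constructor
    · intro h
      exact ⟨h, hno c hc⟩
    · intro h
      exact h.subset
  have h4 := superset_sum hI hne
  rw [h3] at h2
  unfold Psi at h1 h2 ⊢
  omega

/-- the petals. -/
def petals (D : Finset (Finset Λ)) (H : Finset Λ) (s : ℕ) : Finset (Finset Λ) :=
  (D.filter (fun c => H ⊆ c ∧ c.card = H.card + s)).image (fun c => c \ H)

theorem mem_petals {D : Finset (Finset Λ)} {H : Finset Λ} {s : ℕ} {p : Finset Λ} :
    p ∈ petals D H s ↔ Disjoint p H ∧ p.card = s ∧ p ∪ H ∈ D := by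
  unfold petals
  rw [Finset.mem_image]
  constructor
  · rintro ⟨c, hc, rfl⟩
    rw [Finset.mem_filter] at hc
    refine ⟨Finset.sdiff_disjoint, ?_, ?_⟩
    · rw [Finset.card_sdiff_of_subset hc.2.1, hc.2.2]
      omega
    · rw [Finset.sdiff_union_of_subset hc.2.1]
      exact hc.1
  · rintro ⟨h1, h2, h3⟩
    refine ⟨p ∪ H, ?_, ?_⟩
    · rw [Finset.mem_filter]
      refine ⟨h3, Finset.subset_union_right, ?_⟩
      rw [Finset.card_union_of_disjoint h1, h2, add_comm]
    · rw [Finset.union_sdiff_right]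
      exact Finset.sdiff_eq_self_of_disjoint h1

theorem card_petals (D : Finset (Finset Λ)) (H : Finset Λ) (s : ℕ) :
    (petals D H s).card = deg D H s := by
  unfold petals deg
  apply Finset.card_image_of_injOn
  intro c hc c' hc' h
  simp only [Finset.coe_filter, Set.mem_ofPred_eq] at hc hc'
  simp only at h
  rw [← Finset.sdiff_union_of_subset hc.2.1, h, Finset.sdiff_union_of_subset hc'.2.1]

/-- the petal step -/
def petalStep (D : Finset (Finset Λ)) (H : Finset Λ) (s : ℕ) : Finset (Finset Λ) :=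
  petals D H s ∪ D.filter (fun c => ∀ p ∈ petals D H s, ¬ p ⊆ c)

theorem petal_ssubset {D : Finset (Finset Λ)} {H : Finset Λ} {s : ℕ} (hne : H.Nonempty)
    {p : Finset Λ} (hp : p ∈ petals D H s) : p ⊂ p ∪ H := by
  rw [mem_petals] at hp
  obtain ⟨x, hx⟩ := hne
  refine ⟨Finset.subset_union_left, fun h => ?_⟩
  have h1 : x ∈ p := h (Finset.mem_union_right _ hx)
  exact (Finset.disjoint_left.mp hp.1) h1 hx

theorem Inv.petal {Λ₀ : Finset Λ} {J Θ : ℕ} {D : Finset (Finset Λ)}
    (hI : Inv Λ₀ J Θ D) {H : Finset Λ} {s : ℕ} (hne : H.Nonempty) (hs : 1 ≤ s)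
    (hmin : ∀ H' : Finset Λ, H'.Nonempty → ∀ s', 1 ≤ s' →
      (H'.card + s' < H.card + s ∨ (H'.card + s' = H.card + s ∧ s' < s)) →
      Spars.deg D H' s' ≤ Θ ^ s') :
    Inv Λ₀ J Θ (petalStep D H s) := by
  have hpD : ∀ p ∈ petals D H s, ∀ c ∈ D, ¬ c ⊆ p := by
    intro p hp c hc hcp
    have h1 := petal_ssubset hne hp
    have h2 := (mem_petals.mp hp).2.2
    have h3 := hI.anti c hc _ h2 (hcp.trans h1.subset)
    rw [h3] at hcp
    exact h1.not_subset hcp
  refine ⟨?_, ?_, ?_, ?_, ?_⟩
  · intro c hc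
    rcases Finset.mem_union.mp hc with hc | hc
    · exact (petal_ssubset hne hc).subset.trans (hI.sub _ (mem_petals.mp hc).2.2)
    · exact hI.sub c (Finset.mem_filter.mp hc).1
  · intro c hc
    rcases Finset.mem_union.mp hc with hc | hc
    · exact (Finset.card_le_card (petal_ssubset hne hc).subset).trans
        (hI.card _ (mem_petals.mp hc).2.2)
    · exact hI.card c (Finset.mem_filter.mp hc).1
  · intro c hc
    rcases Finset.mem_union.mp hc with hc | hc
    · have := (mem_petals.mp hc).2.1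
      rw [← Finset.card_pos]
      omega
    · exact hI.ne c (Finset.mem_filter.mp hc).1
  · intro c hc c' hc' hcc
    rcases Finset.mem_union.mp hc with hc | hc
    · rcases Finset.mem_union.mp hc' with hc' | hc'
      · apply Finset.eq_of_subset_of_card_le hcc
        rw [(mem_petals.mp hc).2.1, (mem_petals.mp hc').2.1]
      · exact absurd hcc ((Finset.mem_filter.mp hc').2 c hc)
    · rcases Finset.mem_union.mp hc' with hc' | hc'
      · exact absurd hcc (hpD c' hc' c (Finset.mem_filter.mp hc).1)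
      · exact hI.anti c (Finset.mem_filter.mp hc).1 c' (Finset.mem_filter.mp hc').1 hcc
  · intro H' hH' s' hs'
    have hH'pos : 0 < H'.card := Finset.card_pos.mpr hH'
    have hHpos : 0 < H.card := Finset.card_pos.mpr hne
    -- split the count
    have hsplit : Spars.deg (petalStep D H s) H' s' ≤
        ((petals D H s).filter (fun c => H' ⊆ c ∧ c.card = H'.card + s')).card +
          Spars.deg D H' s' := by
      unfold Spars.deg petalStep
      rw [Finset.filter_union]
      refine (Finset.card_union_le _ _).trans (Nat.add_le_add_left (Finset.card_le_card ?_) _)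
      exact Finset.filter_subset_filter _ (Finset.filter_subset _ _)
    by_cases hc : H'.card + s' = s
    · -- petals may contribute
      have hD : Spars.deg D H' s' ≤ Θ ^ s' := hmin H' hH' s' hs' (Or.inl (by omega))
      have hP : ((petals D H s).filter (fun c => H' ⊆ c ∧ c.card = H'.card + s')).card ≤
          Θ ^ s' := by
        by_cases hdis : Disjoint H' H
        · have hU : (H' ∪ H).card + s' = H.card + s := by
            rw [Finset.card_union_of_disjoint hdis]
            omega
          refine le_trans ?_ (hmin (H' ∪ H) (hH'.mono Finset.subset_union_left) s' hs'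
            (Or.inr ⟨hU, by omega⟩))
          unfold Spars.deg
          refine Finset.card_le_card_of_injOn (fun p => p ∪ H) ?_ ?_
          · intro p hp
            simp only [Finset.coe_filter, Set.mem_ofPred_eq] at hp
            simp only [Finset.coe_filter, Set.mem_ofPred_eq]
            obtain ⟨hp1, hp2, hp3⟩ := hp
            rw [mem_petals] at hp1
            refine ⟨hp1.2.2, Finset.union_subset_union_left hp2, ?_⟩
            rw [Finset.card_union_of_disjoint hp1.1, hp1.2.1]
            omega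
          · intro p hp p' hp' h
            simp only [Finset.coe_filter, Set.mem_ofPred_eq] at hp hp'
            have h1 := (mem_petals.mp hp.1).1
            have h2 := (mem_petals.mp hp'.1).1
            simp only at h
            have h3 : (p ∪ H) \ H = (p' ∪ H) \ H := by rw [h]
            rwa [Finset.union_sdiff_right, Finset.union_sdiff_right,
              Finset.sdiff_eq_self_of_disjoint h1, Finset.sdiff_eq_self_of_disjoint h2] at h3
        · have : (petals D H s).filter (fun c => H' ⊆ c ∧ c.card = H'.card + s') = ∅ := by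
            rw [Finset.filter_eq_empty_iff]
            intro p hp hh
            exact hdis (Finset.disjoint_of_subset_left hh.1 (mem_petals.mp hp).1)
          rw [this]
          simp
      omega
    · have hP : (petals D H s).filter (fun c => H' ⊆ c ∧ c.card = H'.card + s') = ∅ := by
        rw [Finset.filter_eq_empty_iff]
        intro p hp hh
        have := (mem_petals.mp hp).2.1
        omega
      rw [hP, Finset.card_empty, zero_add] at hsplit
      exact hsplit.trans (hI.deg H' hH' s' hs')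

theorem Psi_petal {Λ₀ : Finset Λ} {J Θ : ℕ} {D : Finset (Finset Λ)}
    (hI : Inv Λ₀ J Θ D) {H : Finset Λ} {s : ℕ} (hne : H.Nonempty) (hs : 1 ≤ s) :
    4 * Psi J Θ D + 3 * (deg D H s * W J Θ s) ≤ 4 * Psi J Θ (petalStep D H s) := by
  have hpD : ∀ p ∈ petals D H s, ∀ c ∈ D, ¬ c ⊆ p := by
    intro p hp c hc hcp
    have h1 := petal_ssubset hne hp
    have h2 := (mem_petals.mp hp).2.2
    have h3 := hI.anti c hc _ h2 (hcp.trans h1.subset)
    rw [h3] at hcp
    exact h1.not_subset hcp
  have hdis : Disjoint (petals D H s) (D.filter (fun c => ∀ p ∈ petals D H s, ¬ p ⊆ c)) := by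
    rw [Finset.disjoint_left]
    intro p hp hp2
    exact (Finset.mem_filter.mp hp2).2 p hp (Finset.Subset.refl p)
  have h1 : Psi J Θ (petalStep D H s) = deg D H s * W J Θ s +
      Psi J Θ (D.filter (fun c => ∀ p ∈ petals D H s, ¬ p ⊆ c)) := by
    unfold Psi petalStep
    rw [Finset.sum_union hdis]
    congr 1
    rw [← card_petals, ← smul_eq_mul, ← Finset.sum_const]
    refine Finset.sum_congr rfl fun p hp => ?_
    rw [(mem_petals.mp hp).2.1]
  have h2 : Psi J Θ D = Psi J Θ (D.filter (fun c => ¬ ∀ p ∈ petals D H s, ¬ p ⊆ c)) +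
      Psi J Θ (D.filter (fun c => ∀ p ∈ petals D H s, ¬ p ⊆ c)) := by
    unfold Psi
    rw [add_comm, Finset.sum_filter_add_sum_filter_not]
  have h3 : Psi J Θ (D.filter (fun c => ¬ ∀ p ∈ petals D H s, ¬ p ⊆ c)) ≤
      ∑ p ∈ petals D H s, ∑ c ∈ D.filter (fun c => p ⊂ c), W J Θ c.card := by
    unfold Psi
    calc ∑ c ∈ D.filter (fun c => ¬ ∀ p ∈ petals D H s, ¬ p ⊆ c), W J Θ c.card
        ≤ ∑ c ∈ (petals D H s).biUnion (fun p => D.filter (fun c => p ⊂ c)), W J Θ c.card := by
          apply Finset.sum_le_sum_of_subset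
          intro c hc
          rw [Finset.mem_filter] at hc
          obtain ⟨hc1, hc2⟩ := hc
          push Not at hc2
          obtain ⟨p, hp, hpc⟩ := hc2
          rw [Finset.mem_biUnion]
          exact ⟨p, hp, Finset.mem_filter.mpr ⟨hc1, hpc, hpD p hp c hc1⟩⟩
      _ ≤ _ := sum_biUnion_le' _ _ _
  have h4 : 4 * ∑ p ∈ petals D H s, ∑ c ∈ D.filter (fun c => p ⊂ c), W J Θ c.card ≤
      deg D H s * W J Θ s := by
    rw [Finset.mul_sum, ← card_petals, ← smul_eq_mul, ← Finset.sum_const]
    refine Finset.sum_le_sum fun p hp => ?_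
    have hp2 := (mem_petals.mp hp).2.1
    have hpne : p.Nonempty := by
      rw [← Finset.card_pos]
      omega
    have := superset_sum hI hpne
    rwa [hp2] at this
  omega

/-- the potential is bounded. -/
theorem Psi_le {Λ₀ : Finset Λ} {J Θ : ℕ} {D : Finset (Finset Λ)} (hI : Inv Λ₀ J Θ D) :
    Psi J Θ D ≤ Λ₀.card * (2 * W J Θ 1) := by
  have h1 : Psi J Θ D ≤ ∑ v ∈ Λ₀, ∑ c ∈ D.filter (fun c => v ∈ c), W J Θ c.card := by
    unfold Psi
    calc ∑ c ∈ D, W J Θ c.card
        ≤ ∑ c ∈ Λ₀.biUnion (fun v => D.filter (fun c => v ∈ c)), W J Θ c.card := by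
          apply Finset.sum_le_sum_of_subset
          intro c hc
          obtain ⟨v, hv⟩ := hI.ne c hc
          rw [Finset.mem_biUnion]
          exact ⟨v, hI.sub c hc hv, Finset.mem_filter.mpr ⟨hc, hv⟩⟩
      _ ≤ _ := sum_biUnion_le' _ _ _
  refine h1.trans ?_
  rw [← smul_eq_mul, ← Finset.sum_const]
  refine Finset.sum_le_sum fun v _ => ?_
  have h2 := superset_sum hI (Finset.singleton_nonempty v)
  rw [Finset.card_singleton] at h2
  have h3 : D.filter (fun c => v ∈ c) ⊆
      Insert.insert {v} (D.filter (fun c => ({v} : Finset Λ) ⊂ c)) := by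
    intro c hc
    rw [Finset.mem_filter] at hc
    rw [Finset.mem_insert]
    have h4 : ({v} : Finset Λ) ⊆ c := Finset.singleton_subset_iff.mpr hc.2
    by_cases h5 : c ⊆ {v}
    · exact Or.inl (Finset.Subset.antisymm h5 h4)
    · exact Or.inr (Finset.mem_filter.mpr ⟨hc.1, h4, h5⟩)
  have h6 : ({v} : Finset Λ) ∉ D.filter (fun c => ({v} : Finset Λ) ⊂ c) := by
    intro h
    exact (Finset.mem_filter.mp h).2.ne rfl
  calc ∑ c ∈ D.filter (fun c => v ∈ c), W J Θ c.card
      ≤ ∑ c ∈ Insert.insert {v} (D.filter (fun c => ({v} : Finset Λ) ⊂ c)), W J Θ c.card :=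
        Finset.sum_le_sum_of_subset h3
    _ = W J Θ 1 + ∑ c ∈ D.filter (fun c => ({v} : Finset Λ) ⊂ c), W J Θ c.card := by
        rw [Finset.sum_insert h6, Finset.card_singleton]
    _ ≤ 2 * W J Θ 1 := by omega

section value
variable {Ω : Type} [Fintype Ω] (X : Ω → Finset Λ) (f : Ω → ℝ)

open Classical in
/-- the current sum. -/
noncomputable def val (D : Finset (Finset Λ)) (α : Finset Λ) (rest : List (Finset Λ)) : ℝ :=
  ∑ ω, if ((∀ c ∈ D, ¬ Disjoint c (X ω)) ∧ Disjoint α (X ω)) ∧ (∀ c ∈ rest, ¬ Disjoint c (X ω))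
    then f ω else 0

theorem val_split (D D' D'' : Finset (Finset Λ)) (α H : Finset Λ) (rest : List (Finset Λ))
    (h1 : ∀ Y : Finset Λ, ¬ Disjoint H Y →
      ((∀ c ∈ D, ¬ Disjoint c Y) ↔ (∀ c ∈ D', ¬ Disjoint c Y)))
    (h2 : ∀ Y : Finset Λ, Disjoint H Y →
      ((∀ c ∈ D, ¬ Disjoint c Y) ↔ (∀ c ∈ D'', ¬ Disjoint c Y)))
    (h3 : H ∈ D') :
    val X f D α rest = val X f D' α rest + val X f D'' (α ∪ H) rest := by
  classical
  unfold val
  rw [← Finset.sum_add_distrib]
  refine Finset.sum_congr rfl fun ω _ => ?_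
  by_cases hH : Disjoint H (X ω)
  · have e1 : ¬ ((((∀ c ∈ D', ¬ Disjoint c (X ω)) ∧ Disjoint α (X ω))) ∧
        (∀ c ∈ rest, ¬ Disjoint c (X ω))) := fun h => h.1.1 H h3 hH
    rw [if_neg e1, zero_add]
    refine if_congr ?_ rfl rfl
    rw [h2 _ hH, Finset.disjoint_union_left]
    tauto
  · have e1 : ¬ ((((∀ c ∈ D'', ¬ Disjoint c (X ω)) ∧ Disjoint (α ∪ H) (X ω))) ∧
        (∀ c ∈ rest, ¬ Disjoint c (X ω))) := by
      intro h
      rw [Finset.disjoint_union_left] at h
      exact hH h.1.2.2
    rw [if_neg e1, add_zero]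
    refine if_congr ?_ rfl rfl
    rw [h1 _ hH]

theorem val_cons_congr (D D' : Finset (Finset Λ)) (α c : Finset Λ) (rest : List (Finset Λ))
    (h : ∀ Y : Finset Λ, ((∀ c ∈ D, ¬ Disjoint c Y) ∧ ¬ Disjoint c Y) ↔
      (∀ c ∈ D', ¬ Disjoint c Y)) :
    val X f D α (c :: rest) = val X f D' α rest := by
  classical
  unfold val
  refine Finset.sum_congr rfl fun ω _ => ?_
  refine if_congr ?_ rfl rfl
  rw [← h (X ω), List.forall_mem_cons]
  tauto

theorem main {J Θ : ℕ} (hΘ : 1 ≤ Θ) {lam : ℝ} (hlam : 0 ≤ lam)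
    (hrec : Real.exp (-lam) + Real.exp (-(lam * (3 / 4 * (Θ : ℝ) ^ J))) ≤ 1)
    (Λ₀ : Finset Λ) {S : ℝ} (hS0 : 0 ≤ S)
    (hS : ∀ (D : Finset (Finset Λ)) (α : Finset Λ), (∀ c ∈ D, c ⊆ Λ₀ ∧ c.card ≤ J) →
        D.card ≤ (2 * W J Θ 1) * Λ₀.card → α ⊆ Λ₀ → |val X f D α []| ≤ S) :
    ∀ (rest : List (Finset Λ)), (∀ c ∈ rest, c ⊆ Λ₀ ∧ c.card ≤ J) →
      ∀ (n : ℕ) (D : Finset (Finset Λ)) (α : Finset Λ), Inv Λ₀ J Θ D → α ⊆ Λ₀ →
        Λ₀.card * (2 * W J Θ 1) - Psi J Θ D = n →
        |val X f D α rest| ≤ Real.exp (lam * n) * S := by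
  intro rest
  induction rest with
  | nil =>
    intro _ n D α hI hα hn
    -- no need to repair
    have hcard : D.card ≤ (2 * W J Θ 1) * Λ₀.card := by
      have h1 : D.card ≤ Psi J Θ D := by
        unfold Psi
        calc D.card = ∑ c ∈ D, 1 := by simp
          _ ≤ _ := Finset.sum_le_sum fun c _ => W_pos hΘ
      have h2 := Psi_le hI
      rw [mul_comm]
      omega
    have h1 := hS D α (fun c hc => ⟨hI.sub c hc, hI.card c hc⟩) hcard hα
    refine h1.trans ?_
    have h2 : 1 ≤ Real.exp (lam * n) := Real.one_le_exp (by positivity)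
    nlinarith
  | cons c rest ih =>
    intro hrest n
    have hcr := hrest c (by simp)
    have ih' := ih (fun c hc => hrest c (by simp [hc]))
    induction n using Nat.strong_induction_on with
    | _ n ihn =>
      intro D α hI hα hn
      have hPsi := Psi_le hI
      by_cases hviol : ∃ (t : ℕ) (H : Finset Λ) (s : ℕ), H.Nonempty ∧ 1 ≤ s ∧
          Θ ^ s < deg D H s ∧ H.card + s = t
      · -- repair
        classical
        let t₀ := Nat.find hviol
        have ht₀ := Nat.find_spec hviol
        have ht₀min : ∀ (H : Finset Λ) (s : ℕ), H.Nonempty → 1 ≤ s → H.card + s < t₀ →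
            deg D H s ≤ Θ ^ s := by
          intro H s hH hs hlt
          by_contra hcon
          push Not at hcon
          exact Nat.find_min hviol hlt ⟨H, s, hH, hs, hcon, rfl⟩
        have hviol2 : ∃ (s : ℕ) (H : Finset Λ), H.Nonempty ∧ 1 ≤ s ∧
            Θ ^ s < deg D H s ∧ H.card + s = t₀ := by
          obtain ⟨H, s, h⟩ := ht₀
          exact ⟨s, H, h⟩
        obtain ⟨H, hHne, hs1, hdeg, hHt⟩ := Nat.find_spec hviol2
        set s := Nat.find hviol2 with hs
        have hsmin : ∀ (H' : Finset Λ) (s' : ℕ), H'.Nonempty → 1 ≤ s' → H'.card + s' = t₀ →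
            s' < s → deg D H' s' ≤ Θ ^ s' := by
          intro H' s' hH' hs' heq hlt
          by_contra hcon
          push Not at hcon
          exact Nat.find_min hviol2 hlt ⟨H', hH', hs', hcon, heq⟩
        have hmin : ∀ H' : Finset Λ, H'.Nonempty → ∀ s', 1 ≤ s' →
            (H'.card + s' < H.card + s ∨ (H'.card + s' = H.card + s ∧ s' < s)) →
            deg D H' s' ≤ Θ ^ s' := by
          intro H' hH' s' hs' h
          rcases h with h | h
          · exact ht₀min H' s' hH' hs' (by omega)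
          · exact hsmin H' s' hH' hs' (by omega) h.2
        -- a member of D above H
        obtain ⟨c₀, hc₀⟩ : ∃ c₀, c₀ ∈ D.filter (fun c => H ⊆ c ∧ c.card = H.card + s) := by
          have : 0 < deg D H s := lt_of_le_of_lt (Nat.zero_le _) hdeg
          exact Finset.card_pos.mp this
        rw [Finset.mem_filter] at hc₀
        have hHc₀ : H.card < J := by
          have := hI.card c₀ hc₀.1
          omega
        have hHΛ : H ⊆ Λ₀ := hc₀.2.1.trans (hI.sub c₀ hc₀.1)
        have hno : ∀ c ∈ D, ¬ c ⊆ H := by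
          intro c hc hcH
          have h1 := hI.anti c hc c₀ hc₀.1 (hcH.trans hc₀.2.1)
          rw [h1] at hcH
          have := Finset.card_le_card hcH
          omega
        set D' := Insert.insert H (D.filter (fun c => ¬ H ⊆ c)) with hD'
        set D'' := petalStep D H s with hD''
        have hI' : Inv Λ₀ J Θ D' := hI.insert hΘ hHne hHΛ hHc₀.le hno
          (fun H' hH' s' hs' _ heq => hmin H' hH' s' hs' (Or.inl (by omega)))
        have hI'' : Inv Λ₀ J Θ D'' := hI.petal hHne hs1 hmin
        have hP' := Psi_insert hI hHne hno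
        have hP'' := Psi_petal hI (s := s) hHne hs1
        have hW : 9 ≤ W J Θ H.card := by
          unfold W
          calc 9 ≤ 9 * Θ := by omega
            _ = (9 * Θ) ^ 1 := (pow_one _).symm
            _ ≤ (9 * Θ) ^ (J - H.card) := Nat.pow_le_pow_right (by omega) (by omega)
        have hΘJ : Θ ^ J ≤ deg D H s * W J Θ s := by
          have hsJ : s ≤ J := by
            have := hI.card c₀ hc₀.1
            omega
          calc Θ ^ J = Θ ^ s * Θ ^ (J - s) := by rw [← pow_add]; congr 1; omega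
            _ ≤ deg D H s * W J Θ s := by
              unfold W
              exact Nat.mul_le_mul hdeg.le (Nat.pow_le_pow_left (by omega) _)
        have hΘJ1 : 1 ≤ Θ ^ J := Nat.one_le_pow _ _ hΘ
        have hb' := Psi_le hI'
        have hb'' := Psi_le hI''
        rw [← hD'] at hP'
        rw [← hD''] at hP''
        -- split
        have hsplit : val X f D α (c :: rest) =
            val X f D' α (c :: rest) + val X f D'' (α ∪ H) (c :: rest) := by
          refine val_split X f D D' D'' α H _ ?_ ?_ (Finset.mem_insert_self _ _)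
          · intro Y hY
            constructor
            · intro h c hc
              rcases Finset.mem_insert.mp hc with rfl | hc
              · exact hY
              · exact h c (Finset.mem_filter.mp hc).1
            · intro h c hc
              by_cases hHc : H ⊆ c
              · intro hd
                exact hY (Finset.disjoint_of_subset_left hHc hd)
              · exact h c (Finset.mem_insert_of_mem (Finset.mem_filter.mpr ⟨hc, hHc⟩))
          · intro Y hY
            constructor
            · intro h c hc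
              rcases Finset.mem_union.mp hc with hc | hc
              · intro hd
                apply h _ (mem_petals.mp hc).2.2
                rw [Finset.disjoint_union_left]
                exact ⟨hd, hY⟩
              · exact h c (Finset.mem_filter.mp hc).1
            · intro h c hc
              by_cases hp : ∀ p ∈ petals D H s, ¬ p ⊆ c
              · exact h c (Finset.mem_union_right _ (Finset.mem_filter.mpr ⟨hc, hp⟩))
              · push Not at hp
                obtain ⟨p, hp1, hp2⟩ := hp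
                intro hd
                exact h p (Finset.mem_union_left _ hp1) (Finset.disjoint_of_subset_left hp2 hd)
        have hr' := ihn (Λ₀.card * (2 * W J Θ 1) - Psi J Θ D') (by omega) D' α hI' hα rfl
        have hr'' := ihn (Λ₀.card * (2 * W J Θ 1) - Psi J Θ D'') (by omega) D'' (α ∪ H) hI''
          (Finset.union_subset hα hHΛ) rfl
        rw [hsplit]
        refine (abs_add_le _ _).trans ((add_le_add hr' hr'').trans ?_)
        rw [← add_mul]
        refine mul_le_mul_of_nonneg_right ?_ hS0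
        have e1 : ((Λ₀.card * (2 * W J Θ 1) - Psi J Θ D' : ℕ) : ℝ) ≤ n - 1 := by
          have : (Λ₀.card * (2 * W J Θ 1) - Psi J Θ D' : ℕ) + 1 ≤ n := by omega
          have h : (((Λ₀.card * (2 * W J Θ 1) - Psi J Θ D' : ℕ) + 1 : ℕ) : ℝ) ≤ n := by
            exact_mod_cast this
          push_cast at h ⊢
          linarith
        have e2 : ((Λ₀.card * (2 * W J Θ 1) - Psi J Θ D'' : ℕ) : ℝ) ≤
            n - 3 / 4 * (Θ : ℝ) ^ J := by
          have : 4 * (Λ₀.card * (2 * W J Θ 1) - Psi J Θ D'' : ℕ) + 3 * Θ ^ J ≤ 4 * n := by omega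
          have h : ((4 * (Λ₀.card * (2 * W J Θ 1) - Psi J Θ D'' : ℕ) + 3 * Θ ^ J : ℕ) : ℝ) ≤
              ((4 * n : ℕ) : ℝ) := by
            exact_mod_cast this
          rw [Nat.cast_add, Nat.cast_mul, Nat.cast_mul, Nat.cast_mul, Nat.cast_pow] at h
          push_cast at h ⊢
          linarith
        calc Real.exp (lam * ((Λ₀.card * (2 * W J Θ 1) - Psi J Θ D' : ℕ) : ℝ)) +
              Real.exp (lam * ((Λ₀.card * (2 * W J Θ 1) - Psi J Θ D'' : ℕ) : ℝ))
            ≤ Real.exp (lam * (n - 1)) + Real.exp (lam * (n - 3 / 4 * (Θ : ℝ) ^ J)) := by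
              gcongr
          _ = Real.exp (lam * n) * (Real.exp (-lam) +
                Real.exp (-(lam * (3 / 4 * (Θ : ℝ) ^ J)))) := by
              rw [mul_add, ← Real.exp_add, ← Real.exp_add]
              congr 2 <;> ring
          _ ≤ Real.exp (lam * n) * 1 := by
              gcongr
          _ = Real.exp (lam * n) := mul_one _
      · -- no violation
        have hdeg : ∀ H : Finset Λ, H.Nonempty → ∀ s, 1 ≤ s → deg D H s ≤ Θ ^ s := by
          intro H hH s hs
          by_contra hcon
          push Not at hcon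
          exact hviol ⟨_, H, s, hH, hs, hcon, rfl⟩
        by_cases hce : c = ∅
        · -- empty clause: value zero
          have : val X f D α (c :: rest) = 0 := by
            unfold val
            refine Finset.sum_eq_zero fun ω _ => ?_
            rw [if_neg]
            intro h
            exact h.2 c (by simp) (by rw [hce]; exact Finset.disjoint_empty_left _)
          rw [this, abs_zero]
          positivity
        have hcne : c.Nonempty := Finset.nonempty_iff_ne_empty.mpr hce
        by_cases hsub : ∃ c₁ ∈ D, c₁ ⊆ c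
        · obtain ⟨c₁, hc₁, hcc₁⟩ := hsub
          have : val X f D α (c :: rest) = val X f D α rest := by
            refine val_cons_congr X f D D α c rest fun Y => ?_
            constructor
            · intro h
              exact h.1
            · intro h
              exact ⟨h, fun hd => h c₁ hc₁ (Finset.disjoint_of_subset_left hcc₁ hd)⟩
          rw [this]
          exact ih' n D α hI hα hn
        · push Not at hsub
          set D' := Insert.insert c (D.filter (fun c' => ¬ c ⊆ c')) with hD'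
          have hI' : Inv Λ₀ J Θ D' := hI.insert hΘ hcne hcr.1 hcr.2 hsub
            (fun H' hH' s' hs' _ _ => hdeg H' hH' s' hs')
          have hP' := Psi_insert hI hcne hsub
          rw [← hD'] at hP'
          have hb' := Psi_le hI'
          have hval : val X f D α (c :: rest) = val X f D' α rest := by
            refine val_cons_congr X f D D' α c rest fun Y => ?_
            constructor
            · rintro ⟨h, hY⟩ c' hc'
              rcases Finset.mem_insert.mp hc' with rfl | hc'
              · exact hY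
              · exact h c' (Finset.mem_filter.mp hc').1
            · intro h
              have hY := h c (Finset.mem_insert_self _ _)
              refine ⟨fun c' hc' => ?_, hY⟩
              by_cases hHc : c ⊆ c'
              · intro hd
                exact hY (Finset.disjoint_of_subset_left hHc hd)
              · exact h c' (Finset.mem_insert_of_mem (Finset.mem_filter.mpr ⟨hc', hHc⟩))
          rw [hval]
          refine (ih' _ D' α hI' hα rfl).trans ?_
          refine mul_le_mul_of_nonneg_right (Real.exp_le_exp.mpr ?_) hS0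
          refine mul_le_mul_of_nonneg_left ?_ hlam
          have : (Λ₀.card * (2 * W J Θ 1) - Psi J Θ D' : ℕ) ≤ n := by omega
          exact_mod_cast this

end value

/-- choice of the parameter. -/
theorem exists_param (J : ℕ) (hJ : 1 ≤ J) (ε : ℝ) (hε : 0 < ε) :
    ∃ (Θ : ℕ) (lam : ℝ), 1 ≤ Θ ∧ 0 ≤ lam ∧
      Real.exp (-lam) + Real.exp (-(lam * (3 / 4 * (Θ : ℝ) ^ J))) ≤ 1 ∧
      lam * (2 * W J Θ 1 : ℕ) ≤ ε := by
  obtain ⟨j, rfl⟩ : ∃ j, J = j + 1 := ⟨J - 1, by omega⟩
  -- lam = ε₁ / (2 (9 Θ)^j)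
  set ε₁ := min ε 1 with hε₁
  have hε₁0 : 0 < ε₁ := lt_min hε one_pos
  have hε₁1 : ε₁ ≤ 1 := min_le_right _ _
  set a : ℝ := 3 / 8 * ε₁ / 9 ^ j with ha
  have ha0 : 0 < a := by positivity
  set b : ℝ := ε₁ / (4 * 9 ^ j) with hb
  have hb0 : 0 < b := by positivity
  -- find Θ with exp (-a Θ) ≤ b / Θ^j
  have hlim : Filter.Tendsto (fun x : ℝ => x ^ j * Real.exp (-x)) Filter.atTop (nhds 0) :=
    Real.tendsto_pow_mul_exp_neg_atTop_nhds_zero j
  have hlim2 : Filter.Tendsto (fun n : ℕ => (a * n) ^ j * Real.exp (-(a * n))) Filter.atTop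
      (nhds 0) := by
    have : Filter.Tendsto (fun n : ℕ => a * (n : ℝ)) Filter.atTop Filter.atTop :=
      Filter.Tendsto.const_mul_atTop ha0 tendsto_natCast_atTop_atTop
    exact hlim.comp this
  have hev := hlim2.eventually (gt_mem_nhds (show (0 : ℝ) < b * a ^ j by positivity))
  obtain ⟨Θ, hΘ1, hΘ2⟩ := (hev.and (Filter.eventually_ge_atTop 1)).exists
  have hΘ0 : (0 : ℝ) < Θ := by exact_mod_cast hΘ2
  have hΘ1' : (1 : ℝ) ≤ Θ := by exact_mod_cast hΘ2
  have hexp : (Θ : ℝ) ^ j * Real.exp (-(a * Θ)) ≤ b := by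
    have h1 : a ^ j * ((Θ : ℝ) ^ j * Real.exp (-(a * Θ))) ≤ a ^ j * b := by
      rw [mul_pow] at hΘ1
      nlinarith
    exact le_of_mul_le_mul_left h1 (by positivity)
  set lam : ℝ := ε₁ / (2 * (9 * Θ) ^ j) with hlam
  have hlam0 : 0 < lam := by positivity
  have hW : ((2 * W (j + 1) Θ 1 : ℕ) : ℝ) = 2 * (9 * Θ) ^ j := by
    unfold W
    simp
  refine ⟨Θ, lam, hΘ2, hlam0.le, ?_, ?_⟩
  · have h9 : (1 : ℝ) ≤ (9 * Θ) ^ j := one_le_pow₀ (by linarith)
    have hlam1 : lam ≤ 1 := by
      rw [hlam, div_le_one (by positivity)]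
      linarith
    have h1 : Real.exp (-lam) ≤ 1 - lam / 2 := by
      have h2 : Real.exp (-lam) ≤ 1 / (1 + lam) := by
        rw [Real.exp_neg, ← one_div]
        apply one_div_le_one_div_of_le (by linarith)
        have := Real.add_one_le_exp lam
        linarith
      refine h2.trans ?_
      rw [div_le_iff₀ (by linarith)]
      nlinarith
    have h3 : Real.exp (-(lam * (3 / 4 * (Θ : ℝ) ^ (j + 1)))) ≤ lam / 2 := by
      have h4 : lam * (3 / 4 * (Θ : ℝ) ^ (j + 1)) = a * Θ := by
        rw [hlam, ha, mul_pow, pow_succ]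
        field_simp
        ring
      rw [h4]
      have h5 : lam / 2 = b / (Θ : ℝ) ^ j := by
        rw [hlam, hb, mul_pow]
        field_simp
        ring
      rw [h5, le_div_iff₀ (by positivity)]
      linarith
    linarith
  · rw [hW, hlam]
    have : ε₁ / (2 * (9 * (Θ : ℝ)) ^ j) * (2 * (9 * Θ) ^ j) = ε₁ := by
      field_simp
    rw [this]
    exact min_le_left _ _

end Spars

open Classical in
/-- T2 -/
theorem sparsify (J : ℕ) (ε : ℝ) (hε : 0 < ε) :
    ∃ C : ℕ, ∀ (Λ : Type) [Fintype Λ] [DecidableEq Λ] (Λ₀ : Finset Λ) (Ω : Type) [Fintype Ω]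
      (X : Ω → Finset Λ) (f : Ω → ℝ) (S : ℝ),
      (∀ (D : Finset (Finset Λ)) (α : Finset Λ), (∀ c ∈ D, c ⊆ Λ₀ ∧ c.card ≤ J) →
        D.card ≤ C * Λ₀.card → α ⊆ Λ₀ →
        |∑ ω, (if (∀ c ∈ D, ¬ Disjoint c (X ω)) ∧ Disjoint α (X ω) then f ω else 0)| ≤ S) →
      ∀ G : Finset (Finset Λ), (∀ c ∈ G, c ⊆ Λ₀ ∧ c.card ≤ J) →
        |∑ ω, (if (∀ c ∈ G, ¬ Disjoint c (X ω)) then f ω else 0)| ≤ Real.exp (ε * Λ₀.card) * S := by
  rcases Nat.eq_zero_or_pos J with hJ | hJ
  · subst hJ
    refine ⟨0, ?_⟩
    intro Λ _ _ Λ₀ Ω _ X f S hS G hG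
    have hS0 : 0 ≤ S := (abs_nonneg _).trans (hS ∅ ∅ (by simp) (by simp) (by simp))
    by_cases hempty : ∅ ∈ G
    · have : ∑ ω, (if (∀ c ∈ G, ¬ Disjoint c (X ω)) then f ω else 0) = 0 := by
        refine Finset.sum_eq_zero fun ω _ => ?_
        rw [if_neg]
        intro h
        exact h ∅ hempty (Finset.disjoint_empty_left _)
      rw [this, abs_zero]
      positivity
    · have hG0 : G = ∅ := by
        rw [Finset.eq_empty_iff_forall_notMem]
        intro c hc
        have := (hG c hc).2
        have h2 : c = ∅ := Finset.card_eq_zero.mp (by omega)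
        exact hempty (h2 ▸ hc)
      have h1 := hS ∅ ∅ (by simp) (by simp) (by simp)
      have h2 : 1 ≤ Real.exp (ε * Λ₀.card) := Real.one_le_exp (by positivity)
      have h3 : ∑ ω, (if (∀ c ∈ G, ¬ Disjoint c (X ω)) then f ω else 0) =
          ∑ ω, (if (∀ c ∈ (∅ : Finset (Finset Λ)), ¬ Disjoint c (X ω)) ∧
            Disjoint (∅ : Finset Λ) (X ω) then f ω else 0) := by
        refine Finset.sum_congr rfl fun ω _ => ?_
        rw [hG0]
        simp
      rw [h3]
      refine h1.trans ?_
      nlinarith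
  · obtain ⟨Θ, lam, hΘ, hlam, hrec, hle⟩ := Spars.exists_param J hJ ε hε
    refine ⟨2 * Spars.W J Θ 1, ?_⟩
    intro Λ _ _ Λ₀ Ω _ X f S hS G hG
    have hS0 : 0 ≤ S := (abs_nonneg _).trans (hS ∅ ∅ (by simp) (by simp) (by simp))
    have hS' : ∀ (D : Finset (Finset Λ)) (α : Finset Λ), (∀ c ∈ D, c ⊆ Λ₀ ∧ c.card ≤ J) →
        D.card ≤ (2 * Spars.W J Θ 1) * Λ₀.card → α ⊆ Λ₀ → |Spars.val X f D α []| ≤ S := by
      intro D α h1 h2 h3
      have h4 := hS D α h1 h2 h3
      have h5 : Spars.val X f D α [] =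
          ∑ ω, (if (∀ c ∈ D, ¬ Disjoint c (X ω)) ∧ Disjoint α (X ω) then f ω else 0) := by
        unfold Spars.val
        refine Finset.sum_congr rfl fun ω _ => ?_
        apply Spars.ite_congr'
        simp
      rw [h5]
      exact h4
    have hinv : Spars.Inv Λ₀ J Θ (∅ : Finset (Finset Λ)) := by
      refine ⟨by simp, by simp, by simp, by simp, ?_⟩
      intro H _ s _
      simp [Spars.deg]
    have hmain := Spars.main X f hΘ hlam hrec Λ₀ hS0 hS' G.toList
      (fun c hc => hG c (Finset.mem_toList.mp hc)) _ ∅ ∅ hinv (by simp) rfl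
    have h5 : Spars.val X f ∅ ∅ G.toList =
        ∑ ω, (if (∀ c ∈ G, ¬ Disjoint c (X ω)) then f ω else 0) := by
      unfold Spars.val
      refine Finset.sum_congr rfl fun ω _ => ?_
      apply Spars.ite_congr'
      simp
    rw [h5] at hmain
    refine hmain.trans ?_
    refine mul_le_mul_of_nonneg_right (Real.exp_le_exp.mpr ?_) hS0
    have h6 : Spars.Psi J Θ (∅ : Finset (Finset Λ)) = 0 := by simp [Spars.Psi]
    rw [h6, Nat.sub_zero, Nat.cast_mul]
    have h7 : (0 : ℝ) ≤ Λ₀.card := by positivity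
    nlinarith

end Crest.Agent.R291
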