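import Crest.Agent.R291.Sparsify
import Crest.Agent.R291.Moment

set_option autoImplicit false
namespace Crest.Agent.R291
open Finset

section counting

/-- Number of families of at most `K` sets taken from a finset `N`. -/
theorem card_small_families {α : Type} [DecidableEq α] (N : Finset α) (K : ℕ) :
    (N.powerset.filter (fun D => D.card ≤ K)).card ≤ (N.card + 1) ^ K := by
  classical
  -- every such `D` is the image of a function `Fin K → Option N`
  let F : (Fin K → Option N) → Finset α := fun f => (univ.filter (fun x : N => ∃ i, f i = some x)).map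
    (Function.Embedding.subtype _)
  have hsurj : (N.powerset.filter (fun D => D.card ≤ K)) ⊆ univ.image F := by
    intro D hD
    rw [mem_filter, mem_powerset] at hD
    obtain ⟨hDN, hDK⟩ := hD
    obtain ⟨e⟩ : Nonempty (D ↪ Fin K) := by
      rw [Function.Embedding.nonempty_iff_card_le]
      simpa using hDK
    rw [mem_image]
    refine ⟨fun i => if h : ∃ x : D, e x = i then some ⟨h.choose.1, hDN h.choose.2⟩ else none, mem_univ _, ?_⟩
    ext y
    simp only [F, mem_map, mem_filter, mem_univ, true_and, Function.Embedding.coe_subtype]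
    constructor
    · rintro ⟨x, ⟨i, hi⟩, rfl⟩
      split_ifs at hi with h
      rw [Option.some.injEq] at hi
      rw [← hi]
      exact h.choose.2
    · intro hy
      refine ⟨⟨y, hDN hy⟩, ⟨e ⟨y, hy⟩, ?_⟩, rfl⟩
      have h : ∃ x : D, e x = e ⟨y, hy⟩ := ⟨⟨y, hy⟩, rfl⟩
      rw [dif_pos h, Option.some.injEq]
      have := e.injective h.choose_spec
      apply Subtype.ext
      show (h.choose : α) = y
      rw [this]
  calc (N.powerset.filter (fun D => D.card ≤ K)).card ≤ (univ.image F).card := card_le_card hsurj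
    _ ≤ (univ : Finset (Fin K → Option N)).card := card_image_le
    _ = (N.card + 1) ^ K := by simp

end counting

/-- The set of true literals at `u`. -/
def trueLits {ι : Type} [Fintype ι] [DecidableEq ι] (u : ι → Bool) : Finset (ι × Bool) :=
  univ.filter (fun p => u p.1 = p.2)

open Classical in
/-- The signed sum attached to a sparse configuration. -/
noncomputable def Gcfg {ι : Type} [Fintype ι] [DecidableEq ι] (q : (ι → Bool) × Finset (Finset (ι × Bool)) ×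
    Finset (ι × Bool)) (u : ι → Bool) : ℝ :=
  if (∀ c ∈ q.2.1, ¬ Disjoint c (trueLits u)) ∧ Disjoint q.2.2 (trueLits u) then 1 else 0

theorem abs_Gcfg_le {ι : Type} [Fintype ι] [DecidableEq ι] (q : (ι → Bool) × Finset (Finset (ι × Bool)) ×
    Finset (ι × Bool)) (u : ι → Bool) : |Gcfg q u| ≤ 1 := by
  unfold Gcfg
  split_ifs <;> simp

/-- `Sum_u G(u) (-1)^{cnt Y (mix R u a)}`. -/
noncomputable def Scfg {T d : ℕ} (Y : Fin T → Fin d → Fin d → Bool) (R : Finset (Fin T × Fin d))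
    (q : (Fin T × Fin d → Bool) × Finset (Finset ((Fin T × Fin d) × Bool)) ×
      Finset ((Fin T × Fin d) × Bool)) : ℝ :=
  ∑ u, Gcfg q u * (-1 : ℝ) ^ (cnt Y (mix R u q.1))

/-- The sparse configurations on the rows `R`. -/
def Cfgs {ι : Type} [Fintype ι] [DecidableEq ι] (J C : ℕ) (R : Finset ι) :
    Finset ((ι → Bool) × Finset (Finset (ι × Bool)) × Finset (ι × Bool)) :=
  univ ×ˢ (((((R ×ˢ univ : Finset (ι × Bool))).powerset.filter (fun c => c.card ≤ J)).powerset.filter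
    (fun D => D.card ≤ C * (2 * R.card))) ×ˢ (R ×ˢ univ : Finset (ι × Bool)).powerset)

theorem mem_Cfgs {ι : Type} [Fintype ι] [DecidableEq ι] (J C : ℕ) (R : Finset ι)
    (a : ι → Bool) (D : Finset (Finset (ι × Bool))) (α : Finset (ι × Bool))
    (hD : ∀ c ∈ D, c ⊆ R ×ˢ univ ∧ c.card ≤ J) (hDc : D.card ≤ C * (2 * R.card)) (hα : α ⊆ R ×ˢ univ) :
    (a, D, α) ∈ Cfgs J C R := by
  unfold Cfgs
  rw [mem_product, mem_product]
  refine ⟨mem_univ _, ?_, ?_⟩
  · rw [mem_filter, mem_powerset]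
    refine ⟨?_, hDc⟩
    intro c hc
    rw [mem_filter, mem_powerset]
    exact hD c hc
  · rw [mem_powerset]
    exact hα

theorem card_Cfgs {ι : Type} [Fintype ι] [DecidableEq ι] (J C : ℕ) (R : Finset ι) :
    (Cfgs J C R).card ≤ 2 ^ (Fintype.card ι) * (((2 * R.card + 1) ^ J + 1) ^ (C * (2 * R.card)) * 2 ^ (2 * R.card)) := by
  unfold Cfgs
  rw [card_product, card_product, card_powerset, card_product]
  have h1 : (univ : Finset (ι → Bool)).card = 2 ^ (Fintype.card ι) := by simp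
  rw [h1]
  have h2 : R.card * (univ : Finset Bool).card = 2 * R.card := by simp; ring
  rw [h2]
  refine Nat.mul_le_mul_left _ (Nat.mul_le_mul_right _ ?_)
  refine (card_small_families _ _).trans ?_
  refine Nat.pow_le_pow_left ?_ _
  refine Nat.add_le_add_right ?_ 1
  refine (card_small_families _ _).trans ?_
  rw [card_product, h2]

/-- Markov inequality for the moments. -/
theorem markov_bad {T d : ℕ} (t : ℕ) (R : Finset (Fin T × Fin d))
    (q : (Fin T × Fin d → Bool) × Finset (Finset ((Fin T × Fin d) × Bool)) ×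
      Finset ((Fin T × Fin d) × Bool)) (B : ℝ) (hB : 0 ≤ B) :
    (((univ : Finset (Fin T → Fin d → Fin d → Bool)).filter (fun Y => B < |Scfg Y R q|)).card : ℝ) * B ^ (2 * t)
      ≤ 2 ^ (T * d * d) * 2 ^ (2 * t * (T * d)) * 2 ^ (2 * t ^ 2 * T) / 2 ^ (t * R.card) := by
  refine le_trans ?_ (moment_bound T d t R q.1 (Gcfg q) (abs_Gcfg_le q))
  calc (((univ : Finset (Fin T → Fin d → Fin d → Bool)).filter (fun Y => B < |Scfg Y R q|)).card : ℝ) * B ^ (2 * t)
      = ∑ Y ∈ (univ : Finset (Fin T → Fin d → Fin d → Bool)).filter (fun Y => B < |Scfg Y R q|), B ^ (2 * t) := by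
        rw [sum_const, nsmul_eq_mul]
    _ ≤ ∑ Y ∈ (univ : Finset (Fin T → Fin d → Fin d → Bool)).filter (fun Y => B < |Scfg Y R q|),
          (Scfg Y R q) ^ (2 * t) := by
        refine sum_le_sum fun Y hY => ?_
        rw [mem_filter] at hY
        rw [← Even.pow_abs (even_two_mul t) (Scfg Y R q)]
        exact pow_le_pow_left₀ hB hY.2.le _
    _ ≤ ∑ Y : Fin T → Fin d → Fin d → Bool, (Scfg Y R q) ^ (2 * t) := by
        refine sum_le_sum_of_subset_of_nonneg (filter_subset _ _) fun Y _ _ => ?_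
        rw [← Even.pow_abs (even_two_mul t) (Scfg Y R q)]
        positivity


theorem two_pow_aux (g : ℕ) : 2 * g ^ 6 + 1 ≤ 2 ^ (6 * g + 2) := by
  have h : g < 2 ^ g := Nat.lt_two_pow_self
  have h6 : g ^ 6 ≤ 2 ^ (6 * g) := by
    calc g ^ 6 ≤ (2 ^ g) ^ 6 := Nat.pow_le_pow_left h.le 6
      _ = 2 ^ (6 * g) := by rw [← pow_mul, mul_comm]
  have h1 : 1 ≤ 2 ^ (6 * g) := Nat.one_le_two_pow
  have : 2 ^ (6 * g + 2) = 4 * 2 ^ (6 * g) := by rw [pow_add]; ring
  omega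

theorem card_Cfgs' (g J C : ℕ) (R : Finset (Fin (g ^ 2) × Fin (g ^ 4))) :
    ((Cfgs J C R).card : ℝ) ≤ (2 : ℝ) ^ ((g : ℝ) ^ 6 + (J * (6 * g + 2) + 1) * (C * (2 * R.card)) + 2 * R.card : ℝ) := by
  have hR : R.card ≤ g ^ 6 := by
    refine (card_le_univ R).trans ?_
    simp only [Fintype.card_prod, Fintype.card_fin]
    rw [← pow_add]
  have hb : Fintype.card (Fin (g ^ 2) × Fin (g ^ 4)) = g ^ 6 := by
    simp only [Fintype.card_prod, Fintype.card_fin]
    rw [← pow_add]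
  have h1 : (Cfgs J C R).card ≤ 2 ^ (g ^ 6 + (J * (6 * g + 2) + 1) * (C * (2 * R.card)) + 2 * R.card) := by
    refine (card_Cfgs J C R).trans ?_
    rw [hb, pow_add, pow_add, mul_assoc]
    refine Nat.mul_le_mul_left _ (Nat.mul_le_mul_right _ ?_)
    rw [pow_mul 2 (J * (6 * g + 2) + 1)]
    refine Nat.pow_le_pow_left ?_ _
    have h2 : 2 * R.card + 1 ≤ 2 ^ (6 * g + 2) := le_trans (by omega) (two_pow_aux g)
    have h3 : (2 * R.card + 1) ^ J ≤ 2 ^ (J * (6 * g + 2)) := by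
      calc (2 * R.card + 1) ^ J ≤ (2 ^ (6 * g + 2)) ^ J := Nat.pow_le_pow_left h2 J
        _ = 2 ^ (J * (6 * g + 2)) := by rw [← pow_mul, mul_comm]
    have h4 : 1 ≤ 2 ^ (J * (6 * g + 2)) := Nat.one_le_two_pow
    have h5 : 2 ^ (J * (6 * g + 2) + 1) = 2 ^ (J * (6 * g + 2)) * 2 := pow_succ _ _
    omega
  calc ((Cfgs J C R).card : ℝ) ≤ ((2 ^ (g ^ 6 + (J * (6 * g + 2) + 1) * (C * (2 * R.card)) + 2 * R.card) : ℕ) : ℝ) := by
        exact_mod_cast h1
    _ = (2 : ℝ) ^ ((g : ℝ) ^ 6 + (J * (6 * g + 2) + 1) * (C * (2 * R.card)) + 2 * R.card : ℝ) := by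
        rw [Nat.cast_pow, ← Real.rpow_natCast]
        push_cast
        rfl

theorem card_bad (g : ℕ) (R : Finset (Fin (g ^ 2) × Fin (g ^ 4)))
    (q : (Fin (g ^ 2) × Fin (g ^ 4) → Bool) × Finset (Finset ((Fin (g ^ 2) × Fin (g ^ 4)) × Bool)) ×
      Finset ((Fin (g ^ 2) × Fin (g ^ 4)) × Bool)) :
    (((univ : Finset (Fin (g ^ 2) → Fin (g ^ 4) → Fin (g ^ 4) → Bool)).filter
      (fun Y => (2 : ℝ) ^ (g ^ 6) * (2 : ℝ) ^ (-(R.card : ℝ) / 16) < |Scfg Y R q|)).card : ℝ) ≤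
      (2 : ℝ) ^ ((g : ℝ) ^ 10 + 2 * (g : ℝ) ^ 6 - 7 / 8 * ((g : ℝ) ^ 2 * R.card) : ℝ) := by
  have hB : (0 : ℝ) < (2 : ℝ) ^ (g ^ 6) * (2 : ℝ) ^ (-(R.card : ℝ) / 16) := by positivity
  have h := markov_bad (g ^ 2) R q _ hB.le
  have hpos : (0 : ℝ) < ((2 : ℝ) ^ (g ^ 6) * (2 : ℝ) ^ (-(R.card : ℝ) / 16)) ^ (2 * g ^ 2) := by positivity
  rw [← le_div_iff₀ hpos] at h
  refine h.trans (le_of_eq ?_)
  have e1 : ((2 : ℝ) ^ (g ^ 6) * (2 : ℝ) ^ (-(R.card : ℝ) / 16)) ^ (2 * g ^ 2)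
      = (2 : ℝ) ^ ((2 * (g : ℝ) ^ 2) * ((g : ℝ) ^ 6 + -(R.card : ℝ) / 16)) := by
    rw [← Real.rpow_natCast 2 (g ^ 6), ← Real.rpow_add two_pos, ← Real.rpow_natCast, ← Real.rpow_mul two_pos.le]
    congr 1
    push_cast
    ring
  rw [e1, ← Real.rpow_natCast, ← Real.rpow_natCast, ← Real.rpow_natCast, ← Real.rpow_natCast,
    ← Real.rpow_add two_pos, ← Real.rpow_add two_pos, ← Real.rpow_sub two_pos, ← Real.rpow_sub two_pos]
  congr 1
  push_cast
  ring

theorem exists_good_aux (g J C m0 : ℕ) (hg : 1 ≤ g) (h1 : 16 * g ^ 4 ≤ m0)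
    (h2 : 32 * C * (J * (6 * g + 2) + 1) ≤ 7 * g ^ 2) :
    ∃ Y : Fin (g ^ 2) → Fin (g ^ 4) → Fin (g ^ 4) → Bool, ∀ R : Finset (Fin (g ^ 2) × Fin (g ^ 4)),
      m0 ≤ R.card → ∀ q ∈ Cfgs J C R, |Scfg Y R q| ≤ (2 : ℝ) ^ (g ^ 6) * (2 : ℝ) ^ (-(R.card : ℝ) / 16) := by
  classical
  by_contra hcon
  push Not at hcon
  -- all `Y` are bad
  have hcov : (univ : Finset (Fin (g ^ 2) → Fin (g ^ 4) → Fin (g ^ 4) → Bool)) ⊆
      ((univ : Finset (Finset (Fin (g ^ 2) × Fin (g ^ 4)))).filter (fun R => m0 ≤ R.card)).biUnion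
        (fun R => (Cfgs J C R).biUnion (fun q => univ.filter
          (fun Y => (2 : ℝ) ^ (g ^ 6) * (2 : ℝ) ^ (-(R.card : ℝ) / 16) < |Scfg Y R q|))) := by
    intro Y _
    obtain ⟨R, hR, q, hq, hlt⟩ := hcon Y
    rw [mem_biUnion]
    refine ⟨R, by simp [hR], ?_⟩
    rw [mem_biUnion]
    exact ⟨q, hq, by simp [hlt]⟩
  have hcard := card_le_card hcov
  have hY : (((univ : Finset (Fin (g ^ 2) → Fin (g ^ 4) → Fin (g ^ 4) → Bool)).card : ℕ) : ℝ)
      = (2 : ℝ) ^ ((g : ℝ) ^ 10) := by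
    simp only [card_univ, Fintype.card_pi, Fintype.card_bool, prod_const, Fintype.card_fin]
    rw [← pow_mul, ← pow_mul]
    push_cast
    rw [← Real.rpow_natCast]
    congr 1
    push_cast
    ring
  have hle : (((univ : Finset (Fin (g ^ 2) → Fin (g ^ 4) → Fin (g ^ 4) → Bool)).card : ℕ) : ℝ) ≤
      ∑ R ∈ (univ : Finset (Finset (Fin (g ^ 2) × Fin (g ^ 4)))).filter (fun R => m0 ≤ R.card),
        ∑ q ∈ Cfgs J C R, ((univ.filter (fun Y : Fin (g ^ 2) → Fin (g ^ 4) → Fin (g ^ 4) → Bool =>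
          (2 : ℝ) ^ (g ^ 6) * (2 : ℝ) ^ (-(R.card : ℝ) / 16) < |Scfg Y R q|)).card : ℝ) := by
    have := hcard.trans (card_biUnion_le.trans (sum_le_sum fun R _ => card_biUnion_le))
    exact_mod_cast this
  have hterm : ∀ R ∈ (univ : Finset (Finset (Fin (g ^ 2) × Fin (g ^ 4)))).filter (fun R => m0 ≤ R.card),
      ∑ q ∈ Cfgs J C R, ((univ.filter (fun Y : Fin (g ^ 2) → Fin (g ^ 4) → Fin (g ^ 4) → Bool =>
          (2 : ℝ) ^ (g ^ 6) * (2 : ℝ) ^ (-(R.card : ℝ) / 16) < |Scfg Y R q|)).card : ℝ)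
        ≤ (2 : ℝ) ^ ((g : ℝ) ^ 10 - (g : ℝ) ^ 6 - 1) := by
    intro R hR
    rw [mem_filter] at hR
    have hRc : R.card ≤ g ^ 6 := by
      refine (card_le_univ R).trans ?_
      simp only [Fintype.card_prod, Fintype.card_fin]
      rw [← pow_add]
    calc ∑ q ∈ Cfgs J C R, ((univ.filter (fun Y : Fin (g ^ 2) → Fin (g ^ 4) → Fin (g ^ 4) → Bool =>
          (2 : ℝ) ^ (g ^ 6) * (2 : ℝ) ^ (-(R.card : ℝ) / 16) < |Scfg Y R q|)).card : ℝ)
        ≤ ∑ q ∈ Cfgs J C R, (2 : ℝ) ^ ((g : ℝ) ^ 10 + 2 * (g : ℝ) ^ 6 - 7 / 8 * ((g : ℝ) ^ 2 * R.card) : ℝ) :=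
          sum_le_sum fun q _ => card_bad g R q
      _ = (Cfgs J C R).card * (2 : ℝ) ^ ((g : ℝ) ^ 10 + 2 * (g : ℝ) ^ 6 - 7 / 8 * ((g : ℝ) ^ 2 * R.card) : ℝ) := by
          rw [sum_const, nsmul_eq_mul]
      _ ≤ (2 : ℝ) ^ ((g : ℝ) ^ 6 + (J * (6 * g + 2) + 1) * (C * (2 * R.card)) + 2 * R.card : ℝ) *
          (2 : ℝ) ^ ((g : ℝ) ^ 10 + 2 * (g : ℝ) ^ 6 - 7 / 8 * ((g : ℝ) ^ 2 * R.card) : ℝ) := by
          refine mul_le_mul_of_nonneg_right (card_Cfgs' g J C R) (by positivity)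
      _ ≤ (2 : ℝ) ^ ((g : ℝ) ^ 10 - (g : ℝ) ^ 6 - 1) := by
          rw [← Real.rpow_add two_pos]
          refine Real.rpow_le_rpow_of_exponent_le one_le_two ?_
          have hm : (16 : ℝ) * (g : ℝ) ^ 6 ≤ (g : ℝ) ^ 2 * R.card := by
            have : 16 * g ^ 6 ≤ g ^ 2 * R.card := by
              calc 16 * g ^ 6 = g ^ 2 * (16 * g ^ 4) := by ring
                _ ≤ g ^ 2 * R.card := Nat.mul_le_mul_left _ (h1.trans hR.2)
            exact_mod_cast this
          have hRc' : (R.card : ℝ) ≤ (g : ℝ) ^ 6 := by exact_mod_cast hRc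
          have h2' : (32 : ℝ) * C * (J * (6 * g + 2) + 1) ≤ 7 * (g : ℝ) ^ 2 := by exact_mod_cast h2
          have h3 : (J * (6 * g + 2) + 1 : ℝ) * (C * (2 * R.card)) ≤ 7 / 16 * ((g : ℝ) ^ 2 * R.card) := by
            have := mul_le_mul_of_nonneg_right h2' (by positivity : (0 : ℝ) ≤ (R.card : ℝ) / 16)
            nlinarith [this]
          have hg6 : (1 : ℝ) ≤ (g : ℝ) ^ 6 := one_le_pow₀ (by exact_mod_cast hg)
          linarith
  have hsum := hle.trans (sum_le_sum hterm)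
  rw [hY, sum_const, nsmul_eq_mul] at hsum
  have hcR : ((((univ : Finset (Finset (Fin (g ^ 2) × Fin (g ^ 4)))).filter (fun R => m0 ≤ R.card)).card : ℕ) : ℝ)
      ≤ (2 : ℝ) ^ ((g : ℝ) ^ 6) := by
    have : ((univ : Finset (Finset (Fin (g ^ 2) × Fin (g ^ 4)))).filter (fun R => m0 ≤ R.card)).card ≤ 2 ^ (g ^ 6) := by
      refine (card_filter_le _ _).trans ?_
      rw [card_univ, Fintype.card_finset]
      simp only [Fintype.card_prod, Fintype.card_fin]
      rw [← pow_add]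
    calc ((((univ : Finset (Finset (Fin (g ^ 2) × Fin (g ^ 4)))).filter (fun R => m0 ≤ R.card)).card : ℕ) : ℝ)
        ≤ ((2 ^ (g ^ 6) : ℕ) : ℝ) := by exact_mod_cast this
      _ = (2 : ℝ) ^ ((g : ℝ) ^ 6) := by
        rw [Nat.cast_pow, ← Real.rpow_natCast]
        push_cast
        rfl
  have hfin : (2 : ℝ) ^ ((g : ℝ) ^ 10) ≤ (2 : ℝ) ^ ((g : ℝ) ^ 10 - 1) := by
    refine hsum.trans ?_
    refine (mul_le_mul_of_nonneg_right hcR (by positivity)).trans ?_
    rw [← Real.rpow_add two_pos]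
    refine le_of_eq ?_
    congr 1
    ring
  have hlt : (2 : ℝ) ^ ((g : ℝ) ^ 10 - 1) < (2 : ℝ) ^ ((g : ℝ) ^ 10) :=
    Real.rpow_lt_rpow_of_exponent_lt one_lt_two (by linarith)
  exact absurd hfin (not_le.mpr hlt)

/-- The literal set of a clause (the literals that satisfy it). -/
def litSet {ι : Type} [DecidableEq ι] (c : Cl ι) : Finset (ι × Bool) :=
  c.vars.image (fun v => (v, !c.σ v))

theorem litSet_sat {ι : Type} [Fintype ι] [DecidableEq ι] (c : Cl ι) (R : Finset ι) (hc : c.vars ⊆ R)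
    (u a : ι → Bool) : c.Sat (mix R u a) ↔ ¬ Disjoint (litSet c) (trueLits u) := by
  rw [not_disjoint_iff]
  unfold Cl.Sat litSet trueLits
  constructor
  · rintro ⟨v, hv, hne⟩
    refine ⟨(v, !c.σ v), mem_image_of_mem _ hv, ?_⟩
    rw [mem_filter]
    refine ⟨mem_univ _, ?_⟩
    simp only [mix, if_pos (hc hv)] at hne
    show u v = !c.σ v
    revert hne
    cases u v <;> cases c.σ v <;> simp
  · rintro ⟨p, hp, hp2⟩
    rw [mem_image] at hp
    obtain ⟨v, hv, rfl⟩ := hp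
    rw [mem_filter] at hp2
    refine ⟨v, hv, ?_⟩
    simp only [mix, if_pos (hc hv)]
    have := hp2.2
    simp only at this
    rw [this]
    cases c.σ v <;> simp

theorem litSet_sub {ι : Type} [Fintype ι] [DecidableEq ι] (c : Cl ι) (R : Finset ι) (hc : c.vars ⊆ R) :
    litSet c ⊆ R ×ˢ univ := by
  intro p hp
  unfold litSet at hp
  rw [mem_image] at hp
  obtain ⟨v, hv, rfl⟩ := hp
  rw [mem_product]
  exact ⟨hc hv, mem_univ _⟩

theorem litSet_card {ι : Type} [DecidableEq ι] (c : Cl ι) : (litSet c).card ≤ c.vars.card := card_image_le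

/-- T3b: union bound over sparse configurations combined with sparsification. -/
theorem exists_good (j : ℕ) (c0 : ℝ) (hc0 : 0 < c0) :
    ∃ g0 : ℕ, ∀ g ≥ g0, ∃ Y : Fin (g ^ 2) → Fin (g ^ 4) → Fin (g ^ 4) → Bool,
      ∀ (R : Finset (Fin (g ^ 2) × Fin (g ^ 4))), c0 * (g : ℝ) ^ 5 ≤ R.card →
      ∀ (a : Fin (g ^ 2) × Fin (g ^ 4) → Bool) (D : List (Cl (Fin (g ^ 2) × Fin (g ^ 4)))),
        (∀ c ∈ D, c.vars ⊆ R ∧ c.vars.card < j) →
        |∑ u, ind D (mix R u a) * (-1 : ℝ) ^ (cnt Y (mix R u a))|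
          ≤ (2 : ℝ) ^ (g ^ 6) * (2 : ℝ) ^ (-(R.card : ℝ) / 32) := by
  classical
  obtain ⟨C, hC⟩ := sparsify j (Real.log 2 / 64) (by have := Real.log_pos one_lt_two; positivity)
  refine ⟨32 * C * (8 * j + 1) + ⌈16 / c0⌉₊ + 1, ?_⟩
  intro g hg
  have hg1 : 1 ≤ g := by omega
  have hgc : 16 / c0 ≤ (g : ℝ) := by
    refine (Nat.le_ceil _).trans ?_
    exact_mod_cast (by omega : ⌈16 / c0⌉₊ ≤ g)
  have h2 : 32 * C * (j * (6 * g + 2) + 1) ≤ 7 * g ^ 2 := by
    have h3 : j * (6 * g + 2) + 1 ≤ (8 * j + 1) * g := by nlinarith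
    calc 32 * C * (j * (6 * g + 2) + 1) ≤ 32 * C * ((8 * j + 1) * g) := Nat.mul_le_mul_left _ h3
      _ = (32 * C * (8 * j + 1)) * g := by ring
      _ ≤ g * g := Nat.mul_le_mul_right _ (by omega)
      _ ≤ 7 * g ^ 2 := by nlinarith
  obtain ⟨Y, hY⟩ := exists_good_aux g j C (16 * g ^ 4) hg1 le_rfl h2
  refine ⟨Y, ?_⟩
  intro R hR a D hD
  have hRm : 16 * g ^ 4 ≤ R.card := by
    have h4 : (16 : ℝ) * (g : ℝ) ^ 4 ≤ c0 * (g : ℝ) ^ 5 := by
      rw [div_le_iff₀ hc0] at hgc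
      have := mul_le_mul_of_nonneg_right hgc (by positivity : (0 : ℝ) ≤ (g : ℝ) ^ 4)
      calc (16 : ℝ) * (g : ℝ) ^ 4 ≤ g * c0 * (g : ℝ) ^ 4 := this
        _ = c0 * (g : ℝ) ^ 5 := by ring
    exact_mod_cast h4.trans hR
  have key := hC ((Fin (g ^ 2) × Fin (g ^ 4)) × Bool) (R ×ˢ univ) (Fin (g ^ 2) × Fin (g ^ 4) → Bool)
    trueLits (fun u => (-1 : ℝ) ^ (cnt Y (mix R u a))) ((2 : ℝ) ^ (g ^ 6) * (2 : ℝ) ^ (-(R.card : ℝ) / 16))
    (by
      intro D' α hD' hDc hα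
      have hcR : (R ×ˢ (univ : Finset Bool)).card = 2 * R.card := by
        rw [card_product]; simp; ring
      rw [hcR] at hDc
      have := hY R hRm (a, D', α) (mem_Cfgs j C R a D' α hD' hDc hα)
      refine le_of_eq_of_le ?_ this
      unfold Scfg Gcfg
      congr 1
      refine sum_congr rfl fun u _ => ?_
      split_ifs <;> simp)
    (D.map litSet).toFinset
    (by
      intro c hc
      rw [List.mem_toFinset, List.mem_map] at hc
      obtain ⟨c', hc', rfl⟩ := hc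
      exact ⟨litSet_sub c' R (hD c' hc').1, (litSet_card c').trans (hD c' hc').2.le⟩)
  have hsame : ∑ u, ind D (mix R u a) * (-1 : ℝ) ^ (cnt Y (mix R u a)) =
      ∑ u, (if (∀ c ∈ (D.map litSet).toFinset, ¬ Disjoint c (trueLits u)) then
        (-1 : ℝ) ^ (cnt Y (mix R u a)) else 0) := by
    refine sum_congr rfl fun u _ => ?_
    unfold ind
    have hiff : (∀ c ∈ D, c.Sat (mix R u a)) ↔ (∀ c ∈ (D.map litSet).toFinset, ¬ Disjoint c (trueLits u)) := by
      constructor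
      · intro h c hc
        rw [List.mem_toFinset, List.mem_map] at hc
        obtain ⟨c', hc', rfl⟩ := hc
        exact (litSet_sat c' R (hD c' hc').1 u a).mp (h c' hc')
      · intro h c hc
        refine (litSet_sat c R (hD c hc).1 u a).mpr (h _ ?_)
        rw [List.mem_toFinset, List.mem_map]
        exact ⟨c, hc, rfl⟩
    by_cases h : ∀ c ∈ D, c.Sat (mix R u a)
    · rw [if_pos h, if_pos (hiff.mp h), one_mul]
    · rw [if_neg h, if_neg (fun h' => h (hiff.mpr h')), zero_mul]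
  rw [hsame]
  refine key.trans (le_of_eq ?_)
  have hcR : ((R ×ˢ (univ : Finset Bool)).card : ℝ) = 2 * R.card := by
    rw [card_product]; push_cast; simp; ring
  rw [hcR]
  have hexp : Real.exp (Real.log 2 / 64 * (2 * R.card)) = (2 : ℝ) ^ ((R.card : ℝ) / 32) := by
    rw [Real.rpow_def_of_pos two_pos]
    congr 1
    ring
  rw [hexp, mul_left_comm, ← Real.rpow_add two_pos]
  congr 2
  ring

end Crest.Agent.R291
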